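import Mathlib
import Vale.Agent.P157.PlantedSlots
import Vale.Agent.P157.GaussShift

/-!
Planted model with pattern slots and weak side slots: definitions.
-/

noncomputable section

open MeasureTheory ProbabilityTheory
open scoped Topology

namespace Vale.Agent.P157.Phase

open Vale.Agent.P157

/-- The weight `e^f` smoothed at overlap `q`: `E_ξ exp f(√q z + √(1-q) ξ)`. -/
def gsm (f : ℝ → ℝ) (q z : ℝ) : ℝ :=
  sm0 (fun x => Real.exp (f x)) (Real.sqrt (1 - q)) (Real.sqrt q * z)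

/-- Entropy of the smoothed weight. -/
def psiP (f : ℝ → ℝ) (q : ℝ) : ℝ := ∫ z, gsm f q z * Real.log (gsm f q z) ∂gam1

/-- Gaussian channel on the cube, free entropy per coordinate. -/
def psiCube (r : ℝ) : ℝ := (∫ z, Real.log (Real.cosh (Real.sqrt r * z + r)) ∂gam1) - r / 2

/-- Gaussian channel on the sphere, free entropy per coordinate. -/
def psiSphere (r : ℝ) : ℝ := (r - Real.log (1 + r)) / 2

/-- Log-weight of a side slot: signal strength `t`, bandwidth `a`. -/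
def sineF (t a z : ℝ) : ℝ := Real.log (1 + t / a * Real.sin (a * z))

/-- Sum of squared means of a family of statistics. -/
def sqStat {C Y : Type*} [Fintype C] [MeasurableSpace Y] (v : C → Y → ℝ) (π : Measure Y) : ℝ :=
  ∑ c, (∫ y, v c y ∂π) ^ 2

/-- Planted expectation of `sqStat` of the posterior. -/
def plq {C Y Ω : Type*} [Fintype C] [MeasurableSpace Y] [MeasurableSpace Ω] (P : Measure Ω)
    (H : Ω → Y → ℝ) (v : C → Y → ℝ) (π : Measure Y) : ℝ :=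
  ∫ ω, Real.exp (lint π (H ω)) * sqStat v (π.tilted (H ω)) ∂P

/-- Direction coordinates. -/
def vDir {N : ℕ} (i : Fin N) (y : Fin N → ℝ) : ℝ := dir y i

/-- Products of two direction coordinates. -/
def vDir2 {N : ℕ} (p : Fin N × Fin N) (y : Fin N → ℝ) : ℝ := dir y p.1 * dir y p.2

/-- Disorder of a state with `k` patterns and `x` side slots. -/
def stP (N k x : ℕ) : Measure ((Fin k → Fin N → ℝ) × (Fin x → Fin N → ℝ)) :=
  (Measure.pi fun _ => gam (Fin N)).prod (Measure.pi fun _ => gam (Fin N))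

/-- Hamiltonian of a state with `k` patterns and `x` side slots. -/
def stH {N : ℕ} (f s : ℝ → ℝ) (k x : ℕ) (p : (Fin k → Fin N → ℝ) × (Fin x → Fin N → ℝ))
    (y : Fin N → ℝ) : ℝ :=
  slots (fun _ => f) p.1 y + slots (fun _ => s) p.2 y

/-- Planted entropy of a state. -/
def stJ {N : ℕ} (π : Measure (Fin N → ℝ)) (f s : ℝ → ℝ) (k x : ℕ) : ℝ :=
  ent (stP N k x) (stH f s k x) π

/-- Planted mean overlap of a state. -/
def stQ {N : ℕ} (π : Measure (Fin N → ℝ)) (f s : ℝ → ℝ) (k x : ℕ) : ℝ :=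
  plq (stP N k x) (stH f s k x) vDir π

/-- Planted mean squared overlap of a state. -/
def stT {N : ℕ} (π : Measure (Fin N → ℝ)) (f s : ℝ → ℝ) (k x : ℕ) : ℝ :=
  plq (stP N k x) (stH f s k x) vDir2 π

/-- Planted entropy of one pattern is determined by a concentrated overlap. -/
def PatternStmt : Prop :=
  ∀ (f : ℝ → ℝ) (K : ℝ), Measurable f → (∀ z, |f z| ≤ K) → ∫ z, Real.exp (f z) ∂gam1 = 1 →
    ContinuousOn (psiP f) (Set.Icc 0 1) ∧
    ∀ ε > 0, ∃ C : ℝ, 0 ≤ C ∧ ∀ (N : ℕ) (π : Measure (Fin N → ℝ)), IsProbabilityMeasure π → 0 < N →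
      (∀ᵐ y ∂π, ∀ i, y i ≠ 0) → ∀ c ∈ Set.Icc (0 : ℝ) 1,
        |ent (gam (Fin N)) (term f dir) π - psiP f c| ≤
          ε + C * (ovlSq π - 2 * c * sqStat vDir π + c ^ 2)

/-- Supporting lines of the smoothed entropy. -/
def SupportStmt : Prop :=
  ∀ (f : ℝ → ℝ) (K : ℝ), Measurable f → (∀ z, |f z| ≤ K) → ∫ z, Real.exp (f z) ∂gam1 = 1 →
    (∀ q ∈ Set.Icc (0 : ℝ) 1, 0 ≤ psiP f q) ∧
    ∀ q ∈ Set.Ico (0 : ℝ) 1, ∃ p : ℝ, 0 ≤ p ∧
      ∀ Q ∈ Set.Icc (0 : ℝ) 1, psiP f q + p * (Q - q) ≤ psiP f Q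

/-- Many weak side slots behave as a Gaussian channel. -/
def BaseStmt (ρ : Measure ℝ) (ψ : ℝ → ℝ) : Prop :=
  ∀ r ≥ (0 : ℝ), ∀ ε > 0, ∃ a₀ > 0, ∀ a ∈ Set.Ioc 0 a₀, ∃ t₀ ∈ Set.Ioc (0 : ℝ) (a / 2),
    ∀ t ∈ Set.Ioc 0 t₀, ∀ᶠ N : ℕ in Filter.atTop,
      |ent (Measure.pi fun _ => gam (Fin N))
          (slots fun _ : Fin ⌊r * (N : ℝ) / t ^ 2⌋₊ => sineF t a)
          (Measure.pi fun _ : Fin N => ρ) / N - ψ r| ≤ ε

end Vale.Agent.P157.Phase
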