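import Mathlib
import Vale.Agent.P157.Phase.Defs
import Vale.Agent.P157.AnnealedGap
import Vale.Agent.P157.PlantedTransfer

/-!
Statements shared by the modules of the planted interpolation.
-/

noncomputable section

open MeasureTheory ProbabilityTheory Filter
open scoped Topology

namespace Vale.Agent.P157.Phase

open Vale.Agent.P157

/-- Planted variance of the log-partition function of a state. -/
def VarStmt : Prop :=
  ∀ (N : ℕ) (π : Measure (Fin N → ℝ)), IsProbabilityMeasure π → 0 < N →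
    (∀ᵐ y ∂π, ∀ i, y i ≠ 0) → PairSym π →
    ∀ (f s : ℝ → ℝ) (K K' : ℝ), Measurable f → Measurable s → (∀ z, |f z| ≤ K) → (∀ z, |s z| ≤ K') →
      ∫ z, Real.exp (f z) ∂gam1 = 1 → ∫ z, Real.exp (s z) ∂gam1 = 1 →
      ∀ k x : ℕ,
        ∫ p, Real.exp (lint π (stH f s k x p)) * (lint π (stH f s k x p) - stJ π f s k x) ^ 2
            ∂stP N k x ≤ k * (2 * K) ^ 2 + x * (2 * K') ^ 2

/-- Planted entropy of all patterns. -/
def planted (ρ : Measure ℝ) (f : ℝ → ℝ) (N M : ℕ) : ℝ :=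
  ent (Measure.pi fun _ : Fin M => gam (Fin N)) (slots fun _ : Fin M => f) (Measure.pi fun _ : Fin N => ρ)

/-- The quenched pressure is the annealed one exactly when the planted entropy is sublinear. -/
def EquivStmt : Prop :=
  ∀ (ρ : Measure ℝ), IsProbabilityMeasure ρ → ρ {0} = 0 →
    (∀ N : ℕ, PairSym (Measure.pi fun _ : Fin N => ρ)) →
    ∀ (f : ℝ → ℝ) (K : ℝ), Measurable f → (∀ z, |f z| ≤ K) → ∫ z, Real.exp (f z) ∂gam1 = 1 →
    ∀ α : ℝ, 0 < α →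
      ((∀ δ > 0, ∀ᶠ N : ℕ in atTop, planted ρ f N ⌊α * N⌋₊ ≤ δ * N) →
        Tendsto (fun N : ℕ => logPart ρ f (Fin N) ⌊α * N⌋₊ / N) atTop (𝓝 0)) ∧
      ∀ δ > 0, (∀ᶠ N : ℕ in atTop, δ * N ≤ planted ρ f N ⌊α * N⌋₊) →
        ∃ δ' > 0, ∀ᶠ N : ℕ in atTop, logPart ρ f (Fin N) ⌊α * N⌋₊ / N ≤ -δ'

end Vale.Agent.P157.Phase
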