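import Mathlib
import Vale.Agent.P157.Phase.Defs

/-!
Mixed moments of a bounded weight along unit vectors depend continuously on their overlaps.
-/

noncomputable section

open MeasureTheory ProbabilityTheory Filter
open scoped Topology BoundedContinuousFunction

namespace Vale.Agent.P157.Phase

open Vale.Agent.P157

/-- Mixed moment of `w` along a tuple of directions. -/
def tupMoment {ι : Type*} [Fintype ι] {n : ℕ} (w : ℝ → ℝ) (u : Fin n → ι → ℝ) : ℝ :=
  ∫ g, ∏ l, w (dot g (u l)) ∂gam ι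

lemma abs_prod_sub_le {n : ℕ} {a b : Fin n → ℝ} {W : ℝ} (hW : 1 ≤ W) (ha : ∀ l, |a l| ≤ W)
    (hb : ∀ l, |b l| ≤ W) : |∏ l, a l - ∏ l, b l| ≤ W ^ n * ∑ l, |a l - b l| := by
  induction n with
  | zero => simp
  | succ n ih =>
    rw [Fin.prod_univ_succ, Fin.prod_univ_succ, Fin.sum_univ_succ]
    have h := ih (fun l => ha l.succ) (fun l => hb l.succ)
    have e : a 0 * ∏ l : Fin n, a l.succ - b 0 * ∏ l : Fin n, b l.succ =
        (a 0 - b 0) * ∏ l : Fin n, a l.succ + b 0 * (∏ l : Fin n, a l.succ - ∏ l : Fin n, b l.succ) := by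
      ring
    rw [e]
    refine (abs_add_le _ _).trans ?_
    rw [abs_mul, abs_mul]
    have hp : |∏ l : Fin n, a l.succ| ≤ W ^ n := by
      rw [Finset.abs_prod]
      refine (Finset.prod_le_prod (fun _ _ => abs_nonneg _) fun l _ => ha l.succ).trans_eq ?_
      simp
    have hWn : W ^ n ≤ W ^ (n + 1) := pow_le_pow_right₀ hW (Nat.le_succ n)
    have hs : 0 ≤ ∑ l : Fin n, |a l.succ - b l.succ| := Finset.sum_nonneg fun _ _ => abs_nonneg _
    have h1 := mul_le_mul_of_nonneg_left (hp.trans hWn) (abs_nonneg (a 0 - b 0))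
    have h2 := mul_le_mul (hb 0) h (abs_nonneg _) (by linarith)
    rw [← mul_assoc, ← pow_succ'] at h2
    linarith

lemma abs_tupMoment_sub_le {ι : Type*} [Fintype ι] {n : ℕ} {w v : ℝ → ℝ} {W : ℝ} (hW : 1 ≤ W)
    (hw : Measurable w) (hv : Measurable v) (hwb : ∀ z, |w z| ≤ W) (hvb : ∀ z, |v z| ≤ W)
    {u : Fin n → ι → ℝ} (hu : ∀ l, ∑ i, u l i ^ 2 = 1) :
    |tupMoment w u - tupMoment v u| ≤ W ^ n * (n * ∫ z, |w z - v z| ∂gam1) := by
  have hm : ∀ l, Measurable fun g : ι → ℝ => dot g (u l) := fun l => by unfold dot; fun_prop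
  have hi : ∀ {p : ℝ → ℝ}, Measurable p → (∀ z, |p z| ≤ W) →
      Integrable (fun g : ι → ℝ => ∏ l, p (dot g (u l))) (gam ι) := fun {p} hp hpb =>
    integrable_of_abs_le (K := W ^ n) (Finset.measurable_prod _ fun l _ => hp.comp (hm l)) fun g => by
      rw [Finset.abs_prod]
      refine (Finset.prod_le_prod (fun _ _ => abs_nonneg _) fun l _ => hpb _).trans_eq ?_
      simp
  have hd : Measurable fun z => |w z - v z| := continuous_abs.measurable.comp (hw.sub hv)
  have hdb : ∀ z, |(|w z - v z|)| ≤ 2 * W := fun z => by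
    rw [abs_abs]; exact (abs_sub _ _).trans (by linarith [hwb z, hvb z])
  have hdi : ∀ l, Integrable (fun g : ι → ℝ => |w (dot g (u l)) - v (dot g (u l))|) (gam ι) := fun l =>
    integrable_of_abs_le (hd.comp (hm l)) fun g => hdb _
  simp only [tupMoment]
  rw [← integral_sub (hi hw hwb) (hi hv hvb)]
  refine abs_integral_le_integral_abs.trans ?_
  refine (integral_mono ((hi hw hwb).sub (hi hv hvb)).abs
    ((integrable_finsetSum _ fun l _ => hdi l).const_mul (W ^ n))
    fun g => abs_prod_sub_le hW (fun l => hwb _) fun l => hvb _).trans_eq ?_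
  rw [integral_const_mul, integral_finsetSum _ fun l _ => hdi l]
  congr 1
  have e : ∀ l, ∫ g : ι → ℝ, |w (dot g (u l)) - v (dot g (u l))| ∂gam ι = ∫ z, |w z - v z| ∂gam1 :=
    fun l => by
      have := integral_map (μ := gam ι) (hm l).aemeasurable (f := fun z => |w z - v z|)
        hd.aestronglyMeasurable
      rw [map_dot_unit (hu l)] at this
      exact this.symm
  simp only [e, Finset.sum_const, Finset.card_univ, Fintype.card_fin, nsmul_eq_mul]

lemma abs_entry_le {ι : Type*} [Fintype ι] {u : ι → ℝ} (hu : ∑ i, u i ^ 2 = 1) (i : ι) : |u i| ≤ 1 := by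
  rw [← abs_one (α := ℝ), ← sq_le_sq, one_pow, ← hu]
  exact Finset.single_le_sum (f := fun i => u i ^ 2) (fun j _ => sq_nonneg _) (Finset.mem_univ i)

lemma aemeasurable_fields {ι : Type*} [Fintype ι] {n : ℕ} (u : Fin n → ι → ℝ) :
    AEMeasurable (fun g : ι → ℝ => WithLp.toLp 2 fun l => dot g (u l)) (gam ι) :=
  ((WithLp.measurable_toLp 2 _).comp
    (by unfold dot; fun_prop : Measurable fun (g : ι → ℝ) l => dot g (u l))).aemeasurable

/-- Law of the fields along a tuple. -/
def fieldLaw {ι : Type*} [Fintype ι] {n : ℕ} (u : Fin n → ι → ℝ) :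
    ProbabilityMeasure (EuclideanSpace ℝ (Fin n)) :=
  ⟨(gam ι).map fun g => WithLp.toLp 2 fun l => dot g (u l),
    Measure.isProbabilityMeasure_map (aemeasurable_fields u)⟩

lemma charFun_fieldLaw {ι : Type*} [Fintype ι] {n : ℕ} (u : Fin n → ι → ℝ) (t : EuclideanSpace ℝ (Fin n)) :
    charFun (fieldLaw u : Measure (EuclideanSpace ℝ (Fin n))) t =
      ((Real.exp (-(∑ l, ∑ k, t l * t k * dot (u l) (u k)) / 2) : ℝ) : ℂ) := by
  change charFun ((gam ι).map fun g => WithLp.toLp 2 fun l => dot g (u l)) t = _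
  rw [charFun_apply, integral_map (aemeasurable_fields u) (by fun_prop)]
  have e : ∀ g : ι → ℝ, inner ℝ (WithLp.toLp 2 fun l => dot g (u l)) t =
      dot g fun i => ∑ l, t l * u l i := fun g => by
    simp only [PiLp.inner_apply, RCLike.inner_apply, conj_trivial, dot, Finset.mul_sum]
    rw [Finset.sum_comm]
    exact Finset.sum_congr rfl fun i _ => Finset.sum_congr rfl fun l _ => by ring
  simp only [e, integral_cexp_dot]
  congr 4
  have e2 : ∀ i, (∑ l, t l * u l i) ^ 2 = ∑ l, ∑ k, t l * t k * (u l i * u k i) := fun i => by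
    rw [sq, Finset.sum_mul_sum]
    exact Finset.sum_congr rfl fun l _ => Finset.sum_congr rfl fun k _ => by ring
  simp only [e2, dot, Finset.mul_sum]
  rw [Finset.sum_comm]
  exact Finset.sum_congr rfl fun l _ => Finset.sum_comm

lemma tendsto_tupMoment_of_gram {n : ℕ} {w : ℝ → ℝ} {W : ℝ} (hW : 1 ≤ W) (hw : Measurable w)
    (hwb : ∀ z, |w z| ≤ W) {Nm : ℕ → ℕ} {u : ∀ m, Fin n → Fin (Nm m) → ℝ}
    (hu : ∀ m l, ∑ i, u m l i ^ 2 = 1) {v : Fin n → Fin (n + 1) → ℝ} (hv : ∀ l, ∑ i, v l i ^ 2 = 1)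
    (hg : ∀ l k, Tendsto (fun m => dot (u m l) (u m k)) atTop (𝓝 (dot (v l) (v k)))) :
    Tendsto (fun m => tupMoment w (u m)) atTop (𝓝 (tupMoment w v)) := by
  have hconv : Tendsto (fun m => fieldLaw (u m)) atTop (𝓝 (fieldLaw v)) := by
    rw [ProbabilityMeasure.tendsto_iff_tendsto_charFun]
    intro t
    simp only [charFun_fieldLaw]
    refine (Complex.continuous_ofReal.tendsto _).comp ((Real.continuous_exp.tendsto _).comp ?_)
    exact ((tendsto_finsetSum _ fun l _ => tendsto_finsetSum _ fun k _ =>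
      (hg l k).const_mul (t l * t k)).neg).div_const 2
  rw [Metric.tendsto_atTop]
  intro ε hε
  have hWn : (0 : ℝ) < W ^ n * n + 1 := by positivity
  obtain ⟨φ0, hφ0, -⟩ := (integrable_of_abs_le (μ := gam1) hw hwb).exists_boundedContinuous_integral_sub_le
    (show 0 < ε / 4 / (W ^ n * n + 1) by positivity)
  set φ : ℝ → ℝ := fun z => max (-W) (min W (φ0 z))
  have hφc : Continuous φ := continuous_const.max (continuous_const.min φ0.continuous)
  have hφb : ∀ z, |φ z| ≤ W := fun z =>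
    abs_le.2 ⟨le_max_left _ _, max_le (by linarith) (min_le_left _ _)⟩
  have hclip : ∀ z, |w z - φ z| ≤ |w z - φ0 z| := fun z => by
    obtain ⟨h1, h2⟩ := abs_le.1 (hwb z)
    simp only [φ]
    rcases le_total (φ0 z) W with h | h
    · rw [min_eq_right h]
      rcases le_total (-W) (φ0 z) with h' | h'
      · rw [max_eq_right h']
      · rw [max_eq_left h', abs_le]
        rw [abs_of_nonneg (show 0 ≤ w z - φ0 z by linarith)]
        constructor <;> linarith
    · rw [min_eq_left h, max_eq_right (by linarith : -W ≤ W), abs_le]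
      rw [abs_of_nonpos (show w z - φ0 z ≤ 0 by linarith)]
      constructor <;> linarith
  have hwφ : W ^ n * (n * ∫ z, |w z - φ z| ∂gam1) ≤ ε / 4 := by
    have iw := integrable_of_abs_le (μ := gam1) hw hwb
    have h1 : ∫ z, |w z - φ z| ∂gam1 ≤ ε / 4 / (W ^ n * n + 1) := by
      refine le_trans ?_ hφ0
      refine integral_mono (iw.sub (integrable_of_abs_le hφc.measurable hφb)).abs
        (iw.sub' (φ0.integrable gam1)).norm fun z => ?_
      rw [Real.norm_eq_abs]
      exact hclip z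
    rw [le_div_iff₀ hWn] at h1
    have : 0 ≤ ∫ z, |w z - φ z| ∂gam1 := integral_nonneg fun z => abs_nonneg _
    linarith
  set Φ : EuclideanSpace ℝ (Fin n) →ᵇ ℝ :=
    BoundedContinuousFunction.ofNormedAddCommGroup (fun x => ∏ l, φ (x l))
      (continuous_finsetProd _ fun l _ => hφc.comp (by fun_prop)) (W ^ n) fun x => by
      rw [Real.norm_eq_abs, Finset.abs_prod]
      refine (Finset.prod_le_prod (fun _ _ => abs_nonneg _) fun l _ => hφb _).trans_eq ?_
      simp
  have heq : ∀ {d : ℕ} (x : Fin n → Fin d → ℝ),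
      ∫ y, Φ y ∂(fieldLaw x : Measure (EuclideanSpace ℝ (Fin n))) = tupMoment φ x := fun {d} x => by
    change ∫ y, Φ y ∂((gam (Fin d)).map fun g => WithLp.toLp 2 fun l => dot g (x l)) = _
    rw [integral_map (aemeasurable_fields x) Φ.continuous.aestronglyMeasurable]
    rfl
  have h2 := ProbabilityMeasure.tendsto_iff_forall_integral_tendsto.1 hconv Φ
  simp only [heq] at h2
  obtain ⟨M, hM⟩ := Metric.tendsto_atTop.1 h2 (ε / 4) (by positivity)
  refine ⟨M, fun m hm => ?_⟩
  have a1 := abs_tupMoment_sub_le hW hw hφc.measurable hwb hφb (hu m)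
  have a2 := abs_tupMoment_sub_le hW hw hφc.measurable hwb hφb hv
  have a3 := hM m hm
  rw [Real.dist_eq] at a3 ⊢
  rw [abs_le] at a1 a2
  rw [abs_lt] at a3 ⊢
  constructor <;> linarith

/-- Uniform continuity of mixed moments in the overlaps. -/
theorem tupMoment_close {n : ℕ} {w : ℝ → ℝ} {W : ℝ} (hW : 1 ≤ W) (hw : Measurable w)
    (hwb : ∀ z, |w z| ≤ W) {ε : ℝ} (hε : 0 < ε) :
    ∃ δ > 0, ∀ (N : ℕ) (u : Fin n → Fin N → ℝ) (v : Fin n → Fin (n + 1) → ℝ),
      (∀ l, ∑ i, u l i ^ 2 = 1) → (∀ l, ∑ i, v l i ^ 2 = 1) →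
      (∀ l k, l ≠ k → |dot (u l) (u k) - dot (v l) (v k)| ≤ δ) →
      |tupMoment w u - tupMoment w v| ≤ ε := by
  by_contra hcon
  push_neg at hcon
  choose Nm u v hu hv hg hbad using fun m : ℕ => hcon (1 / ((m : ℝ) + 1)) (by positivity)
  obtain ⟨vs, -, φ, hφ, hlim⟩ := (isCompact_univ_pi fun _ : Fin n => isCompact_univ_pi
    fun _ : Fin (n + 1) => isCompact_Icc (a := (-1 : ℝ)) (b := 1)).tendsto_subseq (x := v)
    fun m l _ i _ => abs_le.1 (abs_entry_le (hv m l) i)
  have hl : ∀ l i, Tendsto (fun m => v (φ m) l i) atTop (𝓝 (vs l i)) := fun l i =>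
    tendsto_pi_nhds.1 (tendsto_pi_nhds.1 hlim l) i
  have hdot : ∀ l k, Tendsto (fun m => dot (v (φ m) l) (v (φ m) k)) atTop (𝓝 (dot (vs l) (vs k))) :=
    fun l k => tendsto_finsetSum _ fun i _ => (hl l i).mul (hl k i)
  have hone : ∀ l, ∑ i, vs l i ^ 2 = 1 := fun l => by
    refine tendsto_nhds_unique (tendsto_finsetSum _ fun i _ => (hl l i).pow 2) ?_
    simp only [hv]
    exact tendsto_const_nhds
  have hdotu : ∀ l k, Tendsto (fun m => dot (u (φ m) l) (u (φ m) k)) atTop (𝓝 (dot (vs l) (vs k))) := by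
    intro l k
    rcases eq_or_ne l k with rfl | hne
    · simp only [dot, ← sq, hu, hone]
      exact tendsto_const_nhds
    · have hz : Tendsto (fun m => dot (u (φ m) l) (u (φ m) k) - dot (v (φ m) l) (v (φ m) k))
          atTop (𝓝 0) := by
        refine squeeze_zero_norm (fun m => ?_) (tendsto_one_div_add_atTop_nhds_zero_nat (𝕜 := ℝ) |>.comp
          hφ.tendsto_atTop)
        exact hg (φ m) l k hne
      simpa using hz.add (hdot l k)
  have h1 := tendsto_tupMoment_of_gram hW hw hwb (Nm := fun m => Nm (φ m)) (fun m => hu (φ m)) hone hdotu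
  have h2 := tendsto_tupMoment_of_gram hW hw hwb (Nm := fun _ => n + 1) (u := fun m => v (φ m))
    (fun m => hv (φ m)) hone hdot
  have h3 := (h1.sub h2).abs
  rw [sub_self, abs_zero] at h3
  obtain ⟨M, hM⟩ := eventually_atTop.1 (h3.eventually (gt_mem_nhds hε))
  exact absurd (hM M le_rfl) (not_lt.2 (hbad (φ M)).le)

/-- Reference tuple with all overlaps equal to `c`. -/
def refV (c : ℝ) (n : ℕ) (l : Fin n) : Fin (n + 1) → ℝ :=
  Fin.cons (Real.sqrt c) fun k => if k = l then Real.sqrt (1 - c) else 0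

lemma refV_sq {c : ℝ} (hc : c ∈ Set.Icc (0 : ℝ) 1) (n : ℕ) (l : Fin n) :
    ∑ i, refV c n l i ^ 2 = 1 := by
  rw [Fin.sum_univ_succ]
  simp only [refV, Fin.cons_zero, Fin.cons_succ, Real.sq_sqrt hc.1, ite_pow, ne_eq,
    OfNat.ofNat_ne_zero, not_false_eq_true, zero_pow, Finset.sum_ite_eq', Finset.mem_univ, if_true,
    Real.sq_sqrt (show 0 ≤ 1 - c by linarith [hc.2])]
  ring

lemma refV_dot {c : ℝ} (hc : 0 ≤ c) (n : ℕ) {l k : Fin n} (h : l ≠ k) :
    dot (refV c n l) (refV c n k) = c := by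
  simp only [dot]
  rw [Fin.sum_univ_succ]
  simp [refV, ← sq, Real.sq_sqrt hc, h, h.symm]

lemma dot_refV (c : ℝ) (n : ℕ) (l : Fin n) (g : Fin (n + 1) → ℝ) :
    dot g (refV c n l) = Real.sqrt c * g 0 + Real.sqrt (1 - c) * g l.succ := by
  simp only [dot]
  rw [Fin.sum_univ_succ]
  simp [refV, mul_comm]

end Vale.Agent.P157.Phase
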