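import Mathlib
import Vale.Agent.P157.Phase.Moments

/-!
Planted entropy of one pattern under a nearly constant overlap.
-/

noncomputable section

open MeasureTheory ProbabilityTheory Filter
open scoped Topology

namespace Vale.Agent.P157.Phase

open Vale.Agent.P157

variable {f : ℝ → ℝ} {K : ℝ} {N : ℕ} {π : Measure (Fin N → ℝ)} [IsProbabilityMeasure π]

lemma exp_bound (hb : ∀ z, |f z| ≤ K) (z : ℝ) : |Real.exp (f z)| ≤ Real.exp K := by
  rw [Real.abs_exp]; exact Real.exp_le_exp.2 ((le_abs_self _).trans (hb z))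

lemma one_le_exp_bound (hb : ∀ z, |f z| ≤ K) : 1 ≤ Real.exp K :=
  Real.one_le_exp ((abs_nonneg _).trans (hb 0))

lemma abs_tupMoment_le {ι : Type*} [Fintype ι] {n : ℕ} (hf : Measurable f) (hb : ∀ z, |f z| ≤ K)
    (u : Fin n → ι → ℝ) : |tupMoment (fun z => Real.exp (f z)) u| ≤ Real.exp K ^ n := by
  have h := norm_integral_le_of_norm_le_const (μ := gam ι)
    (f := fun g : ι → ℝ => ∏ l, Real.exp (f (dot g (u l)))) (C := Real.exp K ^ n)
    (Eventually.of_forall fun g => by
      rw [Real.norm_eq_abs, Finset.abs_prod]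
      refine (Finset.prod_le_prod (fun _ _ => abs_nonneg _) fun l _ => exp_bound hb _).trans_eq ?_
      simp)
  have := hf
  simpa [tupMoment] using h

lemma gsm_mem (hf : Measurable f) (hb : ∀ z, |f z| ≤ K) (q z : ℝ) :
    gsm f q z ∈ Set.Icc (Real.exp (-K)) (Real.exp K) :=
  integral_exp_mem (π := gam1) (hf.comp (by fun_prop : Measurable fun ξ : ℝ =>
    Real.sqrt q * z + Real.sqrt (1 - q) * ξ)) fun ξ => hb _

lemma measurable_gsm (hf : Measurable f) (q : ℝ) : Measurable (gsm f q) :=
  ((hf.exp.comp (by fun_prop : Measurable fun p : ℝ × ℝ =>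
    Real.sqrt q * p.1 + Real.sqrt (1 - q) * p.2)).stronglyMeasurable.integral_prod_right'
      (ν := gam1)).measurable

lemma integral_gsm_pow (hf : Measurable f) (hb : ∀ z, |f z| ≤ K) (q : ℝ) (n : ℕ) :
    ∫ z, gsm f q z ^ n ∂gam1 = tupMoment (fun z => Real.exp (f z)) (refV q n) := by
  have e := measurePreserving_piFinSuccAbove (fun _ : Fin (n + 1) => gaussianReal 0 1) 0
  set D : ℝ × (Fin n → ℝ) → ℝ := fun p =>
    ∏ l, Real.exp (f (Real.sqrt q * p.1 + Real.sqrt (1 - q) * p.2 l))
  have hDm : Measurable D := Finset.measurable_prod _ fun l _ => hf.exp.comp (by fun_prop)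
  have hDi : Integrable D (gam1.prod (gam (Fin n))) :=
    integrable_of_abs_le (K := Real.exp K ^ n) hDm fun p => by
      rw [Finset.abs_prod]
      refine (Finset.prod_le_prod (fun _ _ => abs_nonneg _) fun l _ => exp_bound hb _).trans_eq ?_
      simp
  have h1 : ∀ z, gsm f q z ^ n = ∫ ξ, D (z, ξ) ∂gam (Fin n) := fun z => by
    simp only [D, gsm, sm0]
    rw [integral_fintype_prod_eq_pow (fun ξ => Real.exp (f (Real.sqrt q * z + Real.sqrt (1 - q) * ξ))),
      Fintype.card_fin]
  simp only [h1]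
  rw [← integral_prod _ hDi, ← e.integral_comp' (g := D)]
  simp only [tupMoment, dot_refV]
  rfl

lemma integral_Z_pow (hf : Measurable f) (hb : ∀ z, |f z| ≤ K) (n : ℕ) :
    Integrable (fun y : Fin n → Fin N → ℝ => tupMoment (fun z => Real.exp (f z)) fun l => dir (y l))
        (Measure.pi fun _ => π) ∧
      ∫ g, Real.exp (lint π (term f dir g)) ^ n ∂gam (Fin N) =
        ∫ y : Fin n → Fin N → ℝ, tupMoment (fun z => Real.exp (f z)) (fun l => dir (y l))
          ∂Measure.pi fun _ => π := by
  have hn := nice_term hf hb (measurable_dir (ι := Fin N))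
  set D : (Fin N → ℝ) × (Fin n → Fin N → ℝ) → ℝ := fun p => ∏ l, Real.exp (term f dir p.1 (p.2 l))
  have hDm : Measurable D := Finset.measurable_prod _ fun l _ => hn.meas.exp.comp
    (measurable_fst.prodMk ((measurable_pi_apply l).comp measurable_snd))
  have hDi : Integrable D ((gam (Fin N)).prod (Measure.pi fun _ => π)) :=
    integrable_of_abs_le (K := Real.exp K ^ n) hDm fun p => by
      rw [Finset.abs_prod]
      refine (Finset.prod_le_prod (fun _ _ => abs_nonneg _) fun l _ => exp_bound hb _).trans_eq ?_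
      simp
  refine ⟨hDi.integral_prod_right, ?_⟩
  have h1 : ∀ g, Real.exp (lint π (term f dir g)) ^ n = ∫ y, D (g, y) ∂Measure.pi fun _ : Fin n => π :=
    fun g => by
      rw [exp_lint_eq hn]
      simp only [D]
      rw [integral_fintype_prod_eq_pow (fun y => Real.exp (term f dir g y)), Fintype.card_fin]
  simp only [h1]
  exact integral_integral_swap hDi

lemma integral_ovl_eq_sq : ∫ p, ovl p ∂π.prod π = sqStat vDir π := by
  have hm : ∀ i : Fin N, Measurable fun y : Fin N → ℝ => dir y i := fun i =>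
    (measurable_pi_apply i).comp measurable_dir
  have hi : ∀ i : Fin N, Integrable (fun y => dir y i) π := fun i =>
    integrable_of_abs_le (K := 1) (hm i) fun y => abs_dir_le y i
  simp only [ovl, dot]
  rw [integral_finsetSum _ fun i _ => (hi i).mul_prod (hi i)]
  refine Finset.sum_congr rfl fun i _ => ?_
  rw [integral_prod_mul (fun y => dir y i) (fun y => dir y i), sq]
  rfl

/-- Projection of a product measure to two coordinates. -/
lemma measurePreserving_pair {Y : Type*} [MeasurableSpace Y] (μ : Measure Y) [IsProbabilityMeasure μ]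
    {n : ℕ} {l k : Fin n} (h : l ≠ k) :
    MeasurePreserving (fun y : Fin n → Y => (y l, y k)) (Measure.pi fun _ => μ) (μ.prod μ) := by
  obtain ⟨m, rfl⟩ : ∃ m, n = m + 1 := ⟨n - 1, by have := l.is_lt; omega⟩
  obtain ⟨k', hk'⟩ := Fin.exists_succAbove_eq h.symm
  have e := measurePreserving_piFinSuccAbove (fun _ : Fin (m + 1) => μ) l
  have e2 := ((MeasurePreserving.id μ).prod (measurePreserving_eval (fun _ : Fin m => μ) k')).comp e
  have hfun : (fun y : Fin (m + 1) → Y => (y l, y k)) =
      Prod.map id (Function.eval k') ∘ MeasurableEquiv.piFinSuccAbove (fun _ => Y) l := by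
    funext y
    rw [← hk']
    rfl
  rw [hfun]
  exact e2

lemma sq_dev_integral (c : ℝ) :
    Integrable (fun p : (Fin N → ℝ) × (Fin N → ℝ) => (ovl p - c) ^ 2) (π.prod π) ∧
      ∫ p, (ovl p - c) ^ 2 ∂π.prod π = ovlSq π - 2 * c * sqStat vDir π + c ^ 2 := by
  have i1 : Integrable (fun p : (Fin N → ℝ) × (Fin N → ℝ) => ovl p ^ 2) (π.prod π) :=
    integrable_of_abs_le (measurable_ovl.pow_const 2) abs_ovl_le_one
  have i2 : Integrable (fun p : (Fin N → ℝ) × (Fin N → ℝ) => ovl p) (π.prod π) :=
    integrable_of_abs_le (K := 1) measurable_ovl abs_ovl_le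
  have e : ∀ p : (Fin N → ℝ) × (Fin N → ℝ), (ovl p - c) ^ 2 = ovl p ^ 2 - 2 * c * ovl p + c ^ 2 :=
    fun p => by ring
  simp only [e]
  refine ⟨(i1.sub (i2.const_mul _)).fun_add (integrable_const _), ?_⟩
  rw [integral_add (i1.sub' (i2.const_mul _)) (integrable_const _), integral_sub i1 (i2.const_mul _),
    integral_const_mul, integral_ovl_eq_sq]
  simp [ovlSq]

lemma moment_close (hf : Measurable f) (hb : ∀ z, |f z| ≤ K) (n : ℕ) {ε : ℝ} (hε : 0 < ε) :
    ∃ C : ℝ, 0 ≤ C ∧ ∀ (N : ℕ) (π : Measure (Fin N → ℝ)), IsProbabilityMeasure π → 0 < N →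
      (∀ᵐ y ∂π, ∀ i, y i ≠ 0) → ∀ c ∈ Set.Icc (0 : ℝ) 1,
        |∫ g, Real.exp (lint π (term f dir g)) ^ n ∂gam (Fin N) - ∫ z, gsm f c z ^ n ∂gam1| ≤
          ε + C * (ovlSq π - 2 * c * sqStat vDir π + c ^ 2) := by
  obtain ⟨δ, hδ, hclose⟩ := tupMoment_close (n := n) (w := fun z => Real.exp (f z)) (one_le_exp_bound hb)
    hf.exp (exp_bound hb) hε
  set B := 2 * Real.exp K ^ n / δ ^ 2
  refine ⟨B * (n * n), by positivity, fun N π hπ hN hne c hc => ?_⟩
  obtain ⟨hi, e⟩ := integral_Z_pow (π := π) hf hb n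
  obtain ⟨hdi, hde⟩ := sq_dev_integral (π := π) c
  rw [e, integral_gsm_pow hf hb, ← hde]
  have hD0 : 0 ≤ ∫ p, (ovl p - c) ^ 2 ∂π.prod π := integral_nonneg fun p => sq_nonneg _
  set P := Measure.pi fun _ : Fin n => π
  set d : Fin n → Fin n → (Fin n → Fin N → ℝ) → ℝ := fun l k y =>
    if l = k then 0 else (ovl (y l, y k) - c) ^ 2
  have hdint : ∀ l k, Integrable (d l k) P ∧ ∫ y, d l k y ∂P ≤ ∫ p, (ovl p - c) ^ 2 ∂π.prod π := by
    intro l k
    rcases eq_or_ne l k with h | h
    · simp [d, h, hD0]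
    · have hm := measurePreserving_pair π h
      simp only [d, if_neg h]
      refine ⟨hm.integrable_comp_of_integrable hdi, le_of_eq ?_⟩
      have := integral_map (μ := P) hm.measurable.aemeasurable (f := fun p => (ovl p - c) ^ 2)
        (by rw [hm.map_eq]; exact hdi.aestronglyMeasurable)
      rw [hm.map_eq] at this
      exact this.symm
  have hgood : ∀ᵐ y ∂P, ∀ l, ∑ i, dir (y l) i ^ 2 = 1 := by
    rw [ae_all_iff]
    intro l
    exact (measurePreserving_eval (fun _ : Fin n => π) l).quasiMeasurePreserving.ae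
      (hne.mono fun z hz => sum_dir_sq_of_ne hN hz)
  set T := tupMoment (fun z => Real.exp (f z)) (refV c n)
  have hS : Integrable (fun y => ε + B * ∑ l, ∑ k, d l k y) P :=
    (integrable_const ε).fun_add
      ((integrable_finsetSum _ fun l _ => integrable_finsetSum _ fun k _ => (hdint l k).1).const_mul B)
  have hpt : ∀ᵐ y ∂P, |tupMoment (fun z => Real.exp (f z)) (fun l => dir (y l)) - T| ≤
      ε + B * ∑ l, ∑ k, d l k y := by
    filter_upwards [hgood] with y hy
    have hd0 : ∀ l k, 0 ≤ d l k y := fun l k => by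
      simp only [d]; split
      · exact le_rfl
      · exact sq_nonneg _
    have hs0 : 0 ≤ B * ∑ l, ∑ k, d l k y :=
      mul_nonneg (by positivity) (Finset.sum_nonneg fun l _ => Finset.sum_nonneg fun k _ => hd0 l k)
    by_cases hall : ∀ l k, l ≠ k → |dot (dir (y l)) (dir (y k)) - c| ≤ δ
    · refine (hclose N (fun l => dir (y l)) (refV c n) hy (refV_sq hc n) fun l k h => ?_).trans
        (le_add_of_nonneg_right hs0)
      rw [refV_dot hc.1 n h]
      exact hall l k h
    · push_neg at hall
      obtain ⟨l, k, hlk, hbig⟩ := hall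
      have hdl : δ ^ 2 ≤ d l k y := by
        simp only [d, if_neg hlk, ovl]
        rw [← sq_abs (dot _ _ - c)]
        exact pow_le_pow_left₀ hδ.le hbig.le 2
      have hle : d l k y ≤ ∑ l, ∑ k, d l k y :=
        le_trans (Finset.single_le_sum (f := fun k => d l k y) (fun j _ => hd0 l j) (Finset.mem_univ k))
          (Finset.single_le_sum (f := fun l => ∑ k, d l k y)
            (fun j _ => Finset.sum_nonneg fun k _ => hd0 j k) (Finset.mem_univ l))
      have hB : 2 * Real.exp K ^ n ≤ B * ∑ l, ∑ k, d l k y := by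
        refine le_trans (le_of_eq ?_) (mul_le_mul_of_nonneg_left (hdl.trans hle) (by positivity))
        simp only [B]; field_simp
      refine (abs_sub _ _).trans ?_
      linarith [abs_tupMoment_le hf hb (fun l => dir (y l)), abs_tupMoment_le hf hb (refV c n)]
  have e2 : (∫ y, tupMoment (fun z => Real.exp (f z)) (fun l => dir (y l)) ∂P) - T =
      ∫ y, (tupMoment (fun z => Real.exp (f z)) (fun l => dir (y l)) - T) ∂P := by
    rw [integral_sub hi (integrable_const _)]; simp
  rw [e2]
  refine abs_integral_le_integral_abs.trans ((integral_mono_ae (hi.sub' (integrable_const _)).abs hS hpt).trans ?_)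
  rw [integral_add (integrable_const _) ((integrable_finsetSum _ fun l _ =>
    integrable_finsetSum _ fun k _ => (hdint l k).1).const_mul B), integral_const_mul,
    integral_finsetSum _ fun l _ => integrable_finsetSum _ fun k _ => (hdint l k).1]
  simp only [integral_finsetSum _ fun k _ => (hdint _ k).1, integral_const, probReal_univ, smul_eq_mul,
    one_mul]
  refine add_le_add le_rfl ?_
  rw [mul_assoc]
  refine mul_le_mul_of_nonneg_left ?_ (by positivity)
  refine (Finset.sum_le_sum fun l _ => Finset.sum_le_sum fun k _ => (hdint l k).2).trans (le_of_eq ?_)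
  simp [Finset.sum_const, mul_assoc]

/-- Polynomial approximation of `x log x`. -/
lemma exists_poly (K : ℝ) {ε : ℝ} (hε : 0 < ε) :
    ∃ (d : ℕ) (co : ℕ → ℝ), ∀ x ∈ Set.Icc (Real.exp (-K)) (Real.exp K),
      |x * Real.log x - ∑ i ∈ Finset.range d, co i * x ^ i| ≤ ε := by
  obtain ⟨p, hp⟩ := exists_polynomial_near_of_continuousOn (Real.exp (-K)) (Real.exp K)
    (fun x => x * Real.log x) Real.continuous_mul_log.continuousOn ε hε
  refine ⟨p.natDegree + 1, p.coeff, fun x hx => ?_⟩
  have := hp x hx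
  rw [Polynomial.eval_eq_sum_range, abs_sub_comm] at this
  exact this.le

lemma integral_poly_close {Ω : Type*} [MeasurableSpace Ω] {P : Measure Ω} [IsProbabilityMeasure P]
    {X : Ω → ℝ} (hX : Measurable X) (hXm : ∀ ω, X ω ∈ Set.Icc (Real.exp (-K)) (Real.exp K))
    {d : ℕ} {co : ℕ → ℝ} {ε : ℝ} (hp : ∀ x ∈ Set.Icc (Real.exp (-K)) (Real.exp K),
      |x * Real.log x - ∑ i ∈ Finset.range d, co i * x ^ i| ≤ ε) :
    |∫ ω, X ω * Real.log (X ω) ∂P - ∑ i ∈ Finset.range d, co i * ∫ ω, X ω ^ i ∂P| ≤ ε := by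
  have hpw : ∀ i, Integrable (fun ω => X ω ^ i) P := fun i =>
    integrable_of_abs_le (K := Real.exp K ^ i) (hX.pow_const i) fun ω => by
      rw [abs_pow, abs_of_pos ((Real.exp_pos _).trans_le (hXm ω).1)]
      exact pow_le_pow_left₀ ((Real.exp_pos _).trans_le (hXm ω).1).le (hXm ω).2 i
  have hs : Integrable (fun ω => ∑ i ∈ Finset.range d, co i * X ω ^ i) P :=
    integrable_finsetSum _ fun i _ => (hpw i).const_mul _
  obtain ⟨B, hB⟩ := IsCompact.exists_bound_of_continuousOn isCompact_Icc
    (Real.continuous_mul_log.continuousOn (s := Set.Icc (Real.exp (-K)) (Real.exp K)))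
  have hη : Integrable (fun ω => X ω * Real.log (X ω)) P :=
    integrable_of_abs_le (hX.mul (Real.measurable_log.comp hX)) fun ω => hB _ (hXm ω)
  simp only [← integral_const_mul]
  rw [← integral_finsetSum _ fun i _ => (hpw i).const_mul _, ← integral_sub hη hs]
  refine abs_integral_le_integral_abs.trans ?_
  refine (integral_mono (hη.sub hs).abs (integrable_const ε) fun ω => hp _ (hXm ω)).trans_eq ?_
  simp

theorem pattern_stmt : PatternStmt := by
  intro f K hf hb _
  have hψ : ∀ {d : ℕ} {co : ℕ → ℝ} {ε : ℝ}, (∀ x ∈ Set.Icc (Real.exp (-K)) (Real.exp K),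
      |x * Real.log x - ∑ i ∈ Finset.range d, co i * x ^ i| ≤ ε) → ∀ q,
      |psiP f q - ∑ i ∈ Finset.range d, co i * ∫ z, gsm f q z ^ i ∂gam1| ≤ ε :=
    fun hp q => integral_poly_close (measurable_gsm hf q) (gsm_mem hf hb q) hp
  constructor
  · rw [continuousOn_iff_continuous_domRestrict, continuous_iff_continuousAt]
    intro c0
    rw [ContinuousAt, Metric.tendsto_nhds]
    intro ε hε
    obtain ⟨d, co, hp⟩ := exists_poly K (show 0 < ε / 4 by positivity)
    set S := ∑ i ∈ Finset.range d, |co i|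
    have hS : 0 ≤ S := Finset.sum_nonneg fun i _ => abs_nonneg _
    have hev : ∀ᶠ c : Set.Icc (0 : ℝ) 1 in 𝓝 c0, ∀ i ∈ Finset.range d,
        |∫ z, gsm f c z ^ i ∂gam1 - ∫ z, gsm f c0 z ^ i ∂gam1| ≤ ε / 4 / (S + 1) := by
      rw [Finset.eventually_all]
      intro i _
      obtain ⟨δ, hδ, hclose⟩ := tupMoment_close (n := i) (w := fun z => Real.exp (f z))
        (one_le_exp_bound hb) hf.exp (exp_bound hb) (show 0 < ε / 4 / (S + 1) by positivity)
      filter_upwards [Metric.ball_mem_nhds c0 hδ] with c hc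
      rw [integral_gsm_pow hf hb, integral_gsm_pow hf hb]
      refine hclose (i + 1) _ _ (refV_sq c.2 i) (refV_sq c0.2 i) fun l k h => ?_
      rw [refV_dot c.2.1 i h, refV_dot c0.2.1 i h]
      exact le_of_lt hc
    filter_upwards [hev] with c hc
    have h1 := abs_le.1 (hψ hp (c : ℝ))
    have h2 := abs_le.1 (hψ hp (c0 : ℝ))
    have h3 : |∑ i ∈ Finset.range d, co i * ∫ z, gsm f c z ^ i ∂gam1 -
        ∑ i ∈ Finset.range d, co i * ∫ z, gsm f c0 z ^ i ∂gam1| ≤ ε / 4 := by
      rw [← Finset.sum_sub_distrib]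
      refine (Finset.abs_sum_le_sum_abs _ _).trans ?_
      refine (Finset.sum_le_sum (g := fun i => |co i| * (ε / 4 / (S + 1))) fun i hi => ?_).trans ?_
      · rw [← mul_sub, abs_mul]
        exact mul_le_mul_of_nonneg_left (hc i hi) (abs_nonneg _)
      · rw [← Finset.sum_mul, ← mul_div_assoc, div_le_iff₀ (by positivity), mul_comm]
        exact mul_le_mul_of_nonneg_left (le_add_of_nonneg_right zero_le_one) (by positivity)
    rw [Real.dist_eq]
    simp only [Set.domRestrict_apply]
    rw [abs_le] at h3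
    rw [abs_lt]
    constructor <;> linarith
  · intro ε hε
    obtain ⟨d, co, hp⟩ := exists_poly K (show 0 < ε / 3 by positivity)
    set S := ∑ i ∈ Finset.range d, |co i|
    have hS : 0 ≤ S := Finset.sum_nonneg fun i _ => abs_nonneg _
    choose C hC0 hC using fun i : ℕ => moment_close hf hb i (show 0 < ε / 3 / (S + 1) by positivity)
    refine ⟨∑ i ∈ Finset.range d, |co i| * C i,
      Finset.sum_nonneg fun i _ => mul_nonneg (abs_nonneg _) (hC0 i), fun N π hπ hN hne c hc => ?_⟩
    have hn := nice_term hf hb (measurable_dir (ι := Fin N))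
    have h1 : |ent (gam (Fin N)) (term f dir) π - ∑ i ∈ Finset.range d,
        co i * ∫ g, Real.exp (lint π (term f dir g)) ^ i ∂gam (Fin N)| ≤ ε / 3 := by
      have h := integral_poly_close (P := gam (Fin N)) (X := fun g => Real.exp (lint π (term f dir g)))
        (measurable_lint π hn.meas).exp (fun g => by
          have := abs_le.1 (abs_lint_le (π := π) (hn.meas_left g) (hn.bound g))
          exact ⟨Real.exp_le_exp.2 this.1, Real.exp_le_exp.2 this.2⟩) hp
      simpa [ent, Real.log_exp] using h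
    have h2 := hψ hp c
    set D := ovlSq π - 2 * c * sqStat vDir π + c ^ 2
    have h3 : |∑ i ∈ Finset.range d, co i * ∫ g, Real.exp (lint π (term f dir g)) ^ i ∂gam (Fin N) -
        ∑ i ∈ Finset.range d, co i * ∫ z, gsm f c z ^ i ∂gam1| ≤
        ε / 3 + (∑ i ∈ Finset.range d, |co i| * C i) * D := by
      rw [← Finset.sum_sub_distrib]
      refine (Finset.abs_sum_le_sum_abs _ _).trans ?_
      refine (Finset.sum_le_sum (g := fun i => |co i| * (ε / 3 / (S + 1)) + |co i| * C i * D)
        fun i _ => ?_).trans ?_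
      · rw [← mul_sub, abs_mul, mul_assoc, ← mul_add]
        exact mul_le_mul_of_nonneg_left (hC i N π hπ hN hne c hc) (abs_nonneg _)
      · rw [Finset.sum_add_distrib, ← Finset.sum_mul, ← Finset.sum_mul]
        refine add_le_add ?_ le_rfl
        rw [← mul_div_assoc, div_le_iff₀ (by positivity), mul_comm]
        exact mul_le_mul_of_nonneg_left (le_add_of_nonneg_right zero_le_one) (by positivity)
    rw [abs_le] at h1 h2 h3 ⊢
    constructor <;> linarith

end Vale.Agent.P157.Phase
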