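import Mathlib
import Vale.Agent.P157.Phase.Defs

/-!
Planted expectations of squared posterior means: composition and monotonicity.
-/

noncomputable section

open MeasureTheory ProbabilityTheory Filter
open scoped Topology

namespace Vale.Agent.P157.Phase

open Vale.Agent.P157

variable {C Y Ω Ω' : Type*} [Fintype C] [MeasurableSpace Y] [MeasurableSpace Ω] [MeasurableSpace Ω']
  {P : Measure Ω} [IsProbabilityMeasure P] {P' : Measure Ω'} [IsProbabilityMeasure P']
  {π : Measure Y} [IsProbabilityMeasure π] {K K' B : ℝ} {H : Ω → Y → ℝ} {H' : Ω' → Y → ℝ}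
  {v : C → Y → ℝ}

lemma measurable_mean_tilted (h : Nice K H) (hv : ∀ c, Measurable (v c)) (c : C) :
    Measurable fun ω => ∫ y, v c y ∂π.tilted (H ω) := by
  have e : (fun ω => ∫ y, v c y ∂π.tilted (H ω)) =
      fun ω => (∫ y, Real.exp (H ω y) * v c y ∂π) / ∫ y, Real.exp (H ω y) ∂π := by
    funext ω
    rw [integral_tilted, ← integral_div]
    congr 1; ext y; rw [smul_eq_mul]; ring
  rw [e]
  exact ((h.meas.exp.mul ((hv c).comp measurable_snd)).stronglyMeasurable.integral_prod_right'
    (ν := π)).measurable.div ((h.meas.exp.stronglyMeasurable.integral_prod_right' (ν := π)).measurable)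

lemma measurable_sqStat_tilted (h : Nice K H) (hv : ∀ c, Measurable (v c)) :
    Measurable fun ω => sqStat v (π.tilted (H ω)) :=
  Finset.measurable_sum _ fun c _ => (measurable_mean_tilted h hv c).pow_const 2

lemma sqStat_nonneg (v : C → Y → ℝ) (π : Measure Y) : 0 ≤ sqStat v π :=
  Finset.sum_nonneg fun _ _ => sq_nonneg _

lemma sqStat_le (hv : ∀ c, Measurable (v c)) (hb : ∀ y, ∑ c, v c y ^ 2 ≤ B) : sqStat v π ≤ B := by
  have hi2 : ∀ c, Integrable (fun y => v c y ^ 2) π := fun c =>
    integrable_of_abs_le (K := B) ((hv c).pow_const 2) fun y => by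
      rw [abs_of_nonneg (sq_nonneg _)]
      exact (Finset.single_le_sum (f := fun c => v c y ^ 2) (fun _ _ => sq_nonneg _) (Finset.mem_univ c)).trans (hb y)
  have hi : ∀ c, Integrable (v c) π := fun c =>
    integrable_of_abs_le (K := Real.sqrt B) (hv c) fun y => by
      rw [← Real.sqrt_sq_eq_abs]
      exact Real.sqrt_le_sqrt ((Finset.single_le_sum (f := fun c => v c y ^ 2) (fun _ _ => sq_nonneg _)
        (Finset.mem_univ c)).trans (hb y))
  calc sqStat v π ≤ ∑ c, ∫ y, v c y ^ 2 ∂π := Finset.sum_le_sum fun c _ => by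
        set m := ∫ y, v c y ∂π with hm
        have h0 : 0 ≤ ∫ y, (v c y ^ 2 - 2 * m * v c y + m ^ 2) ∂π := integral_nonneg fun y => by
          simp only [Pi.zero_apply]; nlinarith [sq_nonneg (v c y - m)]
        rw [integral_add ((hi2 c).sub' ((hi c).const_mul _)) (integrable_const _),
          integral_sub (hi2 c) ((hi c).const_mul _), integral_const_mul, ← hm] at h0
        simp only [integral_const, probReal_univ, smul_eq_mul, one_mul] at h0
        linarith
    _ = ∫ y, ∑ c, v c y ^ 2 ∂π := (integral_finsetSum _ fun c _ => hi2 c).symm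
    _ ≤ ∫ _, B ∂π := integral_mono (integrable_finsetSum _ fun c _ => hi2 c) (integrable_const _) hb
    _ = B := by simp

lemma integrable_plq (h : Nice K H) (hv : ∀ c, Measurable (v c)) (hb : ∀ y, ∑ c, v c y ^ 2 ≤ B) :
    Integrable (fun ω => Real.exp (lint π (H ω)) * sqStat v (π.tilted (H ω))) P :=
  (integrable_exp_lint h).mul_bdd (measurable_sqStat_tilted h hv).aestronglyMeasurable (c := B)
    (Eventually.of_forall fun ω => by
      have := isProb_tilted (π := π) (h.meas_left ω) (h.bound ω)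
      rw [Real.norm_eq_abs, abs_of_nonneg (sqStat_nonneg _ _)]
      exact sqStat_le hv hb)

lemma plq_le (h : Nice K H) (hy : ∀ᵐ y ∂π, ∫ ω, Real.exp (H ω y) ∂P = 1)
    (hv : ∀ c, Measurable (v c)) (hb : ∀ y, ∑ c, v c y ^ 2 ≤ B) : plq P H v π ≤ B := by
  refine (integral_mono (integrable_plq (π := π) h hv hb) ((integrable_exp_lint (π := π) h).mul_const B) fun ω => ?_).trans_eq ?_
  · have := isProb_tilted (π := π) (h.meas_left ω) (h.bound ω)
    exact mul_le_mul_of_nonneg_left (sqStat_le hv hb) (Real.exp_pos _).le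
  · rw [integral_mul_const, mass_one h hy, one_mul]

lemma plq_nonneg : 0 ≤ plq P H v π :=
  integral_nonneg fun _ => mul_nonneg (Real.exp_pos _).le (sqStat_nonneg _ _)

lemma tilted_add (h : Nice K H) (h' : Nice K' H') (ω : Ω) (ω' : Ω') :
    π.tilted (fun y => H ω y + H' ω' y) = (π.tilted (H' ω')).tilted (H ω) := by
  rw [tilted_tilted (integrable_exp_of_abs_le (h'.meas_left ω') (h'.bound ω'))]
  congr 1
  funext y
  simp only [Pi.add_apply]
  ring

lemma plq_add (h : Nice K H) (h' : Nice K' H') (hv : ∀ c, Measurable (v c))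
    (hb : ∀ y, ∑ c, v c y ^ 2 ≤ B) :
    Integrable (fun ω' => Real.exp (lint π (H' ω')) * plq P H v (π.tilted (H' ω'))) P' ∧
      plq (P.prod P') (fun p y => H p.1 y + H' p.2 y) v π =
        ∫ ω', Real.exp (lint π (H' ω')) * plq P H v (π.tilted (H' ω')) ∂P' := by
  have hadd := h.add h'
  have hi := integrable_plq (P := P.prod P') (π := π) hadd hv hb
  have key : ∀ ω', ∫ ω, Real.exp (lint π fun y => H ω y + H' ω' y) *
      sqStat v (π.tilted fun y => H ω y + H' ω' y) ∂P =
      Real.exp (lint π (H' ω')) * plq P H v (π.tilted (H' ω')) := fun ω' => by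
    have e : ∀ ω, lint π (fun y => H ω y + H' ω' y) =
        lint π (H' ω') + lint (π.tilted (H' ω')) (H ω) := fun ω => by
      rw [← lint_add (h'.meas_left ω') (h'.bound ω') (h.meas_left ω) (h.bound ω)]
      simp only [add_comm]
    simp only [e, Real.exp_add, tilted_add h h', mul_assoc, integral_const_mul]
    rfl
  refine ⟨hi.integral_prod_right.congr (Eventually.of_forall key), ?_⟩
  rw [plq, integral_prod_symm _ hi]
  exact integral_congr_ae (Eventually.of_forall key)

/-- The gain of a squared posterior mean. -/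
lemma plq_eq_add (h : Nice K H) (hy : ∀ᵐ y ∂π, ∫ ω, Real.exp (H ω y) ∂P = 1)
    (hv : ∀ c, Measurable (v c)) (hb : ∀ y, ∑ c, v c y ^ 2 ≤ B) :
    Integrable (fun ω => Real.exp (lint π (H ω)) *
        ∑ c, (∫ y, v c y ∂π.tilted (H ω) - ∫ y, v c y ∂π) ^ 2) P ∧
      plq P H v π = sqStat v π + ∫ ω, Real.exp (lint π (H ω)) *
        ∑ c, (∫ y, v c y ∂π.tilted (H ω) - ∫ y, v c y ∂π) ^ 2 ∂P := by
  set m : C → ℝ := fun c => ∫ y, v c y ∂π
  have hvi : ∀ c (ν : Measure Y), IsProbabilityMeasure ν → |∫ y, v c y ∂ν| ≤ Real.sqrt B := fun c ν hν => by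
    rw [← Real.sqrt_sq_eq_abs]
    exact Real.sqrt_le_sqrt ((Finset.single_le_sum (f := fun c => (∫ y, v c y ∂ν) ^ 2)
      (fun _ _ => sq_nonneg _) (Finset.mem_univ c)).trans (sqStat_le (π := ν) hv hb))
  have hvb : ∀ c y, |v c y| ≤ Real.sqrt B := fun c y => by
    rw [← Real.sqrt_sq_eq_abs]
    exact Real.sqrt_le_sqrt ((Finset.single_le_sum (f := fun c => v c y ^ 2)
      (fun _ _ => sq_nonneg _) (Finset.mem_univ c)).trans (hb y))
  -- the mean of the posterior mean
  have hmean : ∀ c, Integrable (fun ω => Real.exp (lint π (H ω)) * ∫ y, v c y ∂π.tilted (H ω)) P ∧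
      ∫ ω, Real.exp (lint π (H ω)) * ∫ y, v c y ∂π.tilted (H ω) ∂P = m c := by
    intro c
    refine ⟨(integrable_exp_lint h).mul_bdd (measurable_mean_tilted h hv c).aestronglyMeasurable
      (c := Real.sqrt B) (Eventually.of_forall fun ω => hvi c _ (isProb_tilted (h.meas_left ω) (h.bound ω))), ?_⟩
    have e : ∀ ω, Real.exp (lint π (H ω)) * ∫ y, v c y ∂π.tilted (H ω) =
        ∫ y, Real.exp (H ω y) * v c y ∂π := fun ω => by
      rw [exp_lint_eq h, integral_tilted, ← integral_const_mul]
      congr 1; ext y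
      have hp : 0 < ∫ x, Real.exp (H ω x) ∂π :=
        (Real.exp_pos _).trans_le (integral_exp_mem (h.meas_left ω) (h.bound ω)).1
      rw [smul_eq_mul]; field_simp
    simp only [e]
    have hDi : Integrable (fun q : Ω × Y => Real.exp (H q.1 q.2) * v c q.2) (P.prod π) :=
      integrable_of_abs_le (K := Real.exp K * Real.sqrt B) (h.meas.exp.mul ((hv c).comp measurable_snd))
        fun q => by
          rw [abs_mul, Real.abs_exp]
          exact mul_le_mul (Real.exp_le_exp.2 ((le_abs_self _).trans (h.bound _ _))) (hvb c _)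
            (abs_nonneg _) (Real.exp_pos _).le
    rw [integral_integral_swap hDi]
    refine integral_congr_ae ?_
    filter_upwards [hy] with y hy
    rw [integral_mul_const, hy, one_mul]
  have hW := integrable_exp_lint (P := P) (π := π) h
  have hsq := integrable_plq (P := P) (π := π) h hv hb
  have e : ∀ ω, Real.exp (lint π (H ω)) *
      ∑ c, (∫ y, v c y ∂π.tilted (H ω) - ∫ y, v c y ∂π) ^ 2 =
      Real.exp (lint π (H ω)) * sqStat v (π.tilted (H ω)) -
        ∑ c, 2 * m c * (Real.exp (lint π (H ω)) * ∫ y, v c y ∂π.tilted (H ω)) +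
        sqStat v π * Real.exp (lint π (H ω)) := fun ω => by
    simp only [sqStat, Finset.mul_sum, Finset.sum_mul, ← Finset.sum_sub_distrib, ← Finset.sum_add_distrib]
    exact Finset.sum_congr rfl fun c _ => by ring
  have hsum : Integrable (fun ω => ∑ c, 2 * m c * (Real.exp (lint π (H ω)) * ∫ y, v c y ∂π.tilted (H ω))) P :=
    integrable_finsetSum _ fun c _ => (hmean c).1.const_mul _
  simp only [e]
  refine ⟨(hsq.sub' hsum).fun_add (hW.const_mul _), ?_⟩
  rw [integral_add (hsq.sub' hsum) (hW.const_mul _), integral_sub hsq hsum,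
    integral_finsetSum _ fun c _ => (hmean c).1.const_mul _, integral_const_mul, mass_one h hy]
  simp only [integral_const_mul, (hmean _).2]
  simp only [plq, sqStat, m, mul_assoc, ← sq, ← Finset.mul_sum]
  ring

lemma plq_ge (h : Nice K H) (hy : ∀ᵐ y ∂π, ∫ ω, Real.exp (H ω y) ∂P = 1)
    (hv : ∀ c, Measurable (v c)) (hb : ∀ y, ∑ c, v c y ^ 2 ≤ B) : sqStat v π ≤ plq P H v π := by
  rw [(plq_eq_add h hy hv hb).2]
  exact le_add_of_nonneg_right (integral_nonneg fun ω =>
    mul_nonneg (Real.exp_pos _).le (Finset.sum_nonneg fun c _ => sq_nonneg _))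

lemma ent_congr {φ : Ω' → Ω} (hφ : MeasurePreserving φ P' P) (h : Nice K H) :
    ent P' (fun ω => H (φ ω)) π = ent P H π := by
  have e := integral_map (μ := P') hφ.measurable.aemeasurable
    (f := fun ω => Real.exp (lint π (H ω)) * lint π (H ω))
    (((measurable_lint π h.meas).exp.mul (measurable_lint π h.meas)).aestronglyMeasurable)
  rw [hφ.map_eq] at e
  exact e.symm

lemma plq_congr {φ : Ω' → Ω} (hφ : MeasurePreserving φ P' P) (h : Nice K H)
    (hv : ∀ c, Measurable (v c)) :
    plq P' (fun ω => H (φ ω)) v π = plq P H v π := by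
  have e := integral_map (μ := P') hφ.measurable.aemeasurable
    (f := fun ω => Real.exp (lint π (H ω)) * sqStat v (π.tilted (H ω)))
    (((measurable_lint π h.meas).exp.mul (measurable_sqStat_tilted h hv)).aestronglyMeasurable)
  rw [hφ.map_eq] at e
  exact e.symm

end Vale.Agent.P157.Phase
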