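import Mathlib
import Vale.Agent.P157.Phase.Planted
import Vale.Agent.P157.Phase.Pattern

/-!
One weak side slot: entropy gain and gain of the squared posterior mean.
-/

noncomputable section

open MeasureTheory ProbabilityTheory Filter
open scoped Topology

namespace Vale.Agent.P157.Phase

open Vale.Agent.P157

/-- Covariance of two side statistics at overlap `r`. -/
def kern (a r : ℝ) : ℝ := Real.exp (-a ^ 2) * Real.sinh (a ^ 2 * r) / a ^ 2

lemma kern_close {a : ℝ} (ha : 0 < a) (ha1 : a ≤ 1) {r : ℝ} (hr : |r| ≤ 1) : |kern a r - r| ≤ 2 * a ^ 2 := by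
  have ha2 : 0 < a ^ 2 := by positivity
  have ha2' : a ^ 2 ≤ 1 := pow_le_one₀ ha.le ha1
  obtain ⟨x, hx⟩ : ∃ x, x = a ^ 2 * r := ⟨_, rfl⟩
  have hxa : |x| ≤ a ^ 2 := by
    rw [hx, abs_mul, abs_of_pos ha2]; exact mul_le_of_le_one_right ha2.le hr
  have h1 := abs_le.1 (Real.abs_exp_sub_one_sub_id_le (hxa.trans ha2'))
  have h2 := abs_le.1 (Real.abs_exp_sub_one_sub_id_le (x := -x) (by rw [abs_neg]; exact hxa.trans ha2'))
  rw [neg_sq] at h2
  have hs : |Real.sinh x - x| ≤ x ^ 2 := by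
    rw [Real.sinh_eq, abs_le]; constructor <;> linarith [h1.1, h1.2, h2.1, h2.2]
  have hxsq : x ^ 2 ≤ a ^ 2 * a ^ 2 := by
    rw [← sq_abs x, sq |x|]; exact mul_le_mul hxa hxa (abs_nonneg _) ha2.le
  have e1 : |Real.exp (-a ^ 2) - 1| ≤ a ^ 2 := by
    rw [abs_le]
    constructor
    · linarith [Real.add_one_le_exp (-a ^ 2)]
    · linarith [Real.exp_le_one_iff.2 (show -a ^ 2 ≤ 0 by linarith)]
  have e : kern a r - r = Real.exp (-a ^ 2) * ((Real.sinh x - x) / a ^ 2) + (Real.exp (-a ^ 2) - 1) * r := by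
    simp only [kern, hx]; field_simp; ring
  rw [e]
  refine (abs_add_le _ _).trans ?_
  rw [abs_mul, abs_mul, abs_div, abs_of_pos ha2, Real.abs_exp]
  have b1 : |Real.sinh x - x| / a ^ 2 ≤ a ^ 2 := by rw [div_le_iff₀ ha2]; linarith
  have b2 := mul_le_mul (Real.exp_le_one_iff.2 (show -a ^ 2 ≤ 0 by linarith)) b1 (by positivity) zero_le_one
  have b3 := mul_le_mul e1 hr (abs_nonneg _) ha2.le
  linarith

lemma integral_sine_pair {ι : Type*} [Fintype ι] {a : ℝ} (ha : 0 < a) {u u' : ι → ℝ}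
    (h1 : ∑ i, u i ^ 2 = 1) (h2 : ∑ i, u' i ^ 2 = 1) :
    ∫ g, (Real.sin (a * dot g u) / a) * (Real.sin (a * dot g u') / a) ∂gam ι = kern a (dot u u') := by
  have e : ∀ g : ι → ℝ, (Real.sin (a * dot g u) / a) * (Real.sin (a * dot g u') / a) =
      (Real.cos (dot g fun i => a * (u i - u' i)) - Real.cos (dot g fun i => a * (u i + u' i))) /
        (2 * a ^ 2) := fun g => by
    have a1 : dot g (fun i => a * (u i - u' i)) = a * dot g u - a * dot g u' := by
      simp only [dot, Finset.mul_sum, ← Finset.sum_sub_distrib]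
      exact Finset.sum_congr rfl fun i _ => by ring
    have a2 : dot g (fun i => a * (u i + u' i)) = a * dot g u + a * dot g u' := by
      simp only [dot, Finset.mul_sum, ← Finset.sum_add_distrib]
      exact Finset.sum_congr rfl fun i _ => by ring
    rw [a1, a2, Real.cos_sub, Real.cos_add]; field_simp; ring
  have hi : ∀ v : ι → ℝ, Integrable (fun g => Real.cos (dot g v)) (gam ι) := fun v =>
    integrable_of_abs_le (K := 1) (by unfold dot; fun_prop) fun g => Real.abs_cos_le_one _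
  simp only [e]
  rw [integral_div, integral_sub (hi _) (hi _), integral_cos_dot, integral_cos_dot]
  obtain ⟨r, hr⟩ : ∃ r, r = dot u u' := ⟨_, rfl⟩
  have s1 : ∑ i, (a * (u i - u' i)) ^ 2 = 2 * a ^ 2 - 2 * (a ^ 2 * r) := by
    calc ∑ i, (a * (u i - u' i)) ^ 2
        = ∑ i, (a ^ 2 * u i ^ 2 + a ^ 2 * u' i ^ 2 - 2 * (a ^ 2 * (u i * u' i))) :=
          Finset.sum_congr rfl fun i _ => by ring
      _ = _ := by
          simp only [Finset.sum_sub_distrib, Finset.sum_add_distrib, ← Finset.mul_sum, h1, h2, hr, dot]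
          ring
  have s2 : ∑ i, (a * (u i + u' i)) ^ 2 = 2 * a ^ 2 + 2 * (a ^ 2 * r) := by
    calc ∑ i, (a * (u i + u' i)) ^ 2
        = ∑ i, (a ^ 2 * u i ^ 2 + a ^ 2 * u' i ^ 2 + 2 * (a ^ 2 * (u i * u' i))) :=
          Finset.sum_congr rfl fun i _ => by ring
      _ = _ := by
          simp only [Finset.sum_add_distrib, ← Finset.mul_sum, h1, h2, hr, dot]
          ring
  rw [s1, s2, ← hr]
  simp only [kern, Real.sinh_eq]
  rw [show -(2 * a ^ 2 - 2 * (a ^ 2 * r)) / 2 = -a ^ 2 + a ^ 2 * r by ring,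
    show -(2 * a ^ 2 + 2 * (a ^ 2 * r)) / 2 = -a ^ 2 + -(a ^ 2 * r) by ring,
    Real.exp_add, Real.exp_add]
  field_simp

lemma sineF_facts {t a : ℝ} (ha : 0 < a) (ht : 0 ≤ t) (hta : t ≤ a / 2) :
    Measurable (sineF t a) ∧ (∀ z, |sineF t a z| ≤ 2 * (t / a)) ∧
      (∀ z, Real.exp (sineF t a z) = 1 + t / a * Real.sin (a * z)) ∧
      ∫ z, Real.exp (sineF t a z) ∂gam1 = 1 := by
  obtain ⟨c, hc⟩ : ∃ c, c = t / a := ⟨_, rfl⟩
  have hc0 : 0 ≤ c := hc ▸ div_nonneg ht ha.le
  have hc1 : c ≤ 1 / 2 := by rw [hc, div_le_iff₀ ha]; linarith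
  have hb : ∀ z, |c * Real.sin (a * z)| ≤ c := fun z => by
    rw [abs_mul, abs_of_nonneg hc0]; exact mul_le_of_le_one_right hc0 (Real.abs_sin_le_one _)
  have hp : ∀ z, 0 < 1 + c * Real.sin (a * z) := fun z => by linarith [(abs_le.1 (hb z)).1]
  have hm : Measurable (sineF t a) := Real.measurable_log.comp (by fun_prop)
  have he : ∀ z, Real.exp (sineF t a z) = 1 + t / a * Real.sin (a * z) := fun z => by
    rw [sineF, Real.exp_log]; rw [← hc]; exact hp z
  refine ⟨hm, fun z => ?_, he, ?_⟩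
  · rw [sineF, ← hc, abs_le]
    have h1 := Real.log_le_sub_one_of_pos (hp z)
    have h2 := Real.one_sub_inv_le_log_of_pos (hp z)
    obtain ⟨b1, b2⟩ := abs_le.1 (hb z)
    have h3 : (1 + c * Real.sin (a * z))⁻¹ ≤ 1 + 2 * c := by
      rw [inv_le_iff_one_le_mul₀ (hp z)]
      nlinarith [mul_le_mul_of_nonneg_left hc1 hc0]
    constructor <;> linarith
  · simp only [he]
    have hs : Integrable (fun z => Real.sin (a * z)) gam1 :=
      integrable_of_abs_le (by fun_prop) fun z => Real.abs_sin_le_one _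
    rw [integral_add (integrable_const _) (hs.const_mul _), integral_const_mul]
    have : ∫ z, Real.sin (a * z) ∂gam1 = 0 := by
      have h : MeasurePreserving (fun z : ℝ => -z) gam1 gam1 := ⟨measurable_neg, by simp [gaussianReal_map_neg]⟩
      have e := integral_map (μ := gam1) h.measurable.aemeasurable (f := fun z => Real.sin (a * z))
        (by fun_prop : Measurable fun z => Real.sin (a * z)).aestronglyMeasurable
      rw [h.map_eq] at e
      simp only [mul_neg, Real.sin_neg, integral_neg] at e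
      linarith
    simp [this]

lemma mul_log_third {x : ℝ} (hx : |x| ≤ 1 / 2) :
    |(1 + x) * Real.log (1 + x) - x - x ^ 2 / 2| ≤ 4 * |x| ^ 3 := by
  have h := Real.abs_log_sub_add_sum_range_le (x := -x) (by rw [abs_neg]; linarith) 2
  simp only [Finset.sum_range_succ, Finset.sum_range_zero, zero_add, sub_neg_eq_add, abs_neg] at h
  norm_num at h
  have h3 : |x| ^ 3 / (1 - |x|) ≤ 2 * |x| ^ 3 := by
    rw [div_le_iff₀ (by linarith)]
    nlinarith [pow_nonneg (abs_nonneg x) 3]
  have e : (1 + x) * Real.log (1 + x) - x - x ^ 2 / 2 =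
      (1 + x) * (-x + x ^ 2 / 2 + Real.log (1 + x)) - x ^ 3 / 2 := by ring
  rw [e]
  refine (abs_sub _ _).trans ?_
  rw [abs_mul, abs_div, abs_two, abs_pow]
  have hb : |1 + x| ≤ 3 / 2 := (abs_add_le _ _).trans (by rw [abs_one]; linarith)
  have := mul_le_mul hb (h.trans h3) (abs_nonneg _) (by norm_num)
  linarith [pow_nonneg (abs_nonneg x) 3]

variable {N : ℕ} {π : Measure (Fin N → ℝ)} [IsProbabilityMeasure π] {t a : ℝ}

lemma measurable_vDir (i : Fin N) : Measurable (vDir (N := N) i) :=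
  (measurable_pi_apply i).comp measurable_dir

lemma measurable_vDir2 (p : Fin N × Fin N) : Measurable (vDir2 (N := N) p) :=
  (measurable_vDir p.1).mul (measurable_vDir p.2)

lemma vDir_bound (y : Fin N → ℝ) : ∑ i, vDir i y ^ 2 ≤ 1 := sum_dir_sq_le y

lemma vDir2_bound (y : Fin N → ℝ) : ∑ p, vDir2 (N := N) p y ^ 2 ≤ 1 := by
  simp only [vDir2, mul_pow, Fintype.sum_prod_type, ← Finset.mul_sum, ← Finset.sum_mul]
  exact mul_le_one₀ (sum_dir_sq_le y) (Finset.sum_nonneg fun i _ => sq_nonneg _) (sum_dir_sq_le y)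

lemma abs_vDir_le (i : Fin N) (y : Fin N → ℝ) : |vDir i y| ≤ 1 := abs_dir_le y i

lemma ovlSq_eq_sqStat : ovlSq π = sqStat vDir2 π := by
  have hi : ∀ p : Fin N × Fin N, Integrable (vDir2 p) π := fun p =>
    integrable_of_abs_le (K := 1) (measurable_vDir2 p) fun y => by
      rw [vDir2, abs_mul]; exact mul_le_one₀ (abs_dir_le y _) (abs_nonneg _) (abs_dir_le y _)
  have e : ∀ q : (Fin N → ℝ) × (Fin N → ℝ), ovl q ^ 2 =
      ∑ p, vDir2 p q.1 * vDir2 p q.2 := fun q => by
    rw [ovl, dot, sq, Finset.sum_mul_sum, Fintype.sum_prod_type]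
    exact Finset.sum_congr rfl fun i _ => Finset.sum_congr rfl fun j _ => by simp only [vDir2]; ring
  simp only [ovlSq, e]
  rw [integral_finsetSum _ fun p _ => (hi p).mul_prod (hi p)]
  refine Finset.sum_congr rfl fun p _ => ?_
  rw [integral_prod_mul (vDir2 p) (vDir2 p), sq]

/-- Averaged side statistic. -/
def sStat (a : ℝ) (π : Measure (Fin N → ℝ)) (v : (Fin N → ℝ) → ℝ) (g : Fin N → ℝ) : ℝ :=
  ∫ y, Real.sin (a * dot g (dir y)) / a * v y ∂π

lemma measurable_sin_field :
    Measurable fun q : (Fin N → ℝ) × (Fin N → ℝ) => Real.sin (a * dot q.1 (dir q.2)) / a :=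
  (Real.measurable_sin.comp ((measurable_dot.comp
    (measurable_fst.prodMk (measurable_dir.comp measurable_snd))).const_mul a)).div_const a

lemma measurable_sin_fixed (g : Fin N → ℝ) :
    Measurable fun y : Fin N → ℝ => Real.sin (a * dot g (dir y)) / a :=
  (Real.measurable_sin.comp ((measurable_dot.comp
    (measurable_const.prodMk measurable_dir)).const_mul a)).div_const a

lemma abs_sin_div_le (ha : 0 < a) (z : ℝ) : |Real.sin z / a| ≤ 1 / a := by
  rw [abs_div, abs_of_pos ha]; exact div_le_div_of_nonneg_right (Real.abs_sin_le_one z) ha.le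

lemma sStat_facts (ha : 0 < a) (hN : 0 < N) (hne : ∀ᵐ y ∂π, ∀ i, y i ≠ 0) {v : (Fin N → ℝ) → ℝ}
    (hv : Measurable v) {B : ℝ} (hB : ∀ y, |v y| ≤ B) :
    Measurable (sStat a π v) ∧ (∀ g, |sStat a π v g| ≤ B / a) ∧
      ∫ g, sStat a π v g ∂gam (Fin N) = 0 ∧
      ∫ g, sStat a π v g ^ 2 ∂gam (Fin N) = ∫ p, kern a (ovl p) * (v p.1 * v p.2) ∂π.prod π := by
  set D : (Fin N → ℝ) × (Fin N → ℝ) → ℝ := fun q => Real.sin (a * dot q.1 (dir q.2)) / a * v q.2
  have hDm : Measurable D := measurable_sin_field.mul (hv.comp measurable_snd)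
  have hDb : ∀ q, |D q| ≤ B / a := fun q => by
    refine (abs_mul _ _).trans_le ((mul_le_mul (abs_sin_div_le ha _) (hB _) (abs_nonneg _)
      (by positivity)).trans (le_of_eq ?_))
    ring
  have hm : Measurable (sStat a π v) := (hDm.stronglyMeasurable.integral_prod_right' (ν := π)).measurable
  refine ⟨hm, fun g => ?_, integral_odd hm fun g => ?_, ?_⟩
  · have := norm_integral_le_of_norm_le_const (μ := π) (f := fun y => D (g, y)) (C := B / a)
      (Eventually.of_forall fun y => hDb _)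
    simpa [sStat, D] using this
  · simp only [sStat, dot, neg_mul, Finset.sum_neg_distrib, mul_neg, Real.sin_neg, neg_div, neg_mul,
      integral_neg]
  · have e : ∀ g, sStat a π v g ^ 2 = ∫ p, D (g, p.1) * D (g, p.2) ∂π.prod π := fun g => by
      rw [sq]; exact (integral_prod_mul (fun y => D (g, y)) fun y => D (g, y)).symm
    simp only [e]
    rw [integral_integral_swap
      (f := fun g (p : (Fin N → ℝ) × (Fin N → ℝ)) => D (g, p.1) * D (g, p.2))]
    · refine integral_congr_ae ?_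
      filter_upwards [(Measure.quasiMeasurePreserving_fst (μ := π) (ν := π)).ae hne,
        (Measure.quasiMeasurePreserving_snd (μ := π) (ν := π)).ae hne] with p a1 a2
      have h := integral_sine_pair ha (sum_dir_sq_of_ne hN a1) (sum_dir_sq_of_ne hN a2)
      rw [ovl, ← h, ← integral_mul_const]
      congr 1; ext g
      simp only [D]; ring
    · refine integrable_of_abs_le (K := B / a * (B / a)) ?_ fun q => ?_
      · exact (hDm.comp (measurable_fst.prodMk (measurable_fst.comp measurable_snd))).mul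
          (hDm.comp (measurable_fst.prodMk (measurable_snd.comp measurable_snd)))
      · change |D (q.1, q.2.1) * D (q.1, q.2.2)| ≤ _
        rw [abs_mul]
        exact mul_le_mul (hDb _) (hDb _) (abs_nonneg _) ((abs_nonneg _).trans (hDb (q.1, q.2.1)))

lemma integrable_kern_mul (ha : 0 < a) (ha1 : a ≤ 1) {φ : (Fin N → ℝ) × (Fin N → ℝ) → ℝ} (hφ : Measurable φ)
    {B : ℝ} (hB : ∀ p, |φ p| ≤ B) : Integrable (fun p => kern a (ovl p) * φ p) (π.prod π) := by
  refine integrable_of_abs_le (K := 3 * B)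
    (Measurable.mul (by unfold kern; exact (Real.measurable_sinh.comp (measurable_ovl.const_mul _)).const_mul _ |>.div_const _) hφ)
    fun p => ?_
  rw [abs_mul]
  refine mul_le_mul ?_ (hB p) (abs_nonneg _) (by norm_num)
  have h := abs_le.1 (kern_close ha ha1 (abs_ovl_le p))
  have h2 := abs_le.1 (abs_ovl_le p)
  have : a ^ 2 ≤ 1 := pow_le_one₀ ha.le ha1
  rw [abs_le]; constructor <;> linarith

lemma exp_lint_sine (ha : 0 < a) (ht : 0 ≤ t) (hta : t ≤ a / 2) (g : Fin N → ℝ) :
    Real.exp (lint π (term (sineF t a) dir g)) = 1 + t * sStat a π (fun _ => 1) g := by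
  obtain ⟨hm, hb, he, -⟩ := sineF_facts ha ht hta
  rw [exp_lint_eq (nice_term hm hb (measurable_dir (ι := Fin N)))]
  have hi : Integrable (fun y => Real.sin (a * dot g (dir y)) / a) π :=
    integrable_of_abs_le (measurable_sin_fixed g) fun y => abs_sin_div_le ha _
  have e : (fun y => Real.exp (term (sineF t a) dir g y)) =
      fun y => 1 + t * (Real.sin (a * dot g (dir y)) / a) := funext fun y => by
    rw [term, he]; ring
  rw [e, integral_add (integrable_const _) (hi.const_mul t), integral_const_mul]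
  simp [sStat]

lemma abs_t_mul_sStat (ha : 0 < a) (ht : 0 ≤ t) (hta : t ≤ a / 2) (hN : 0 < N)
    (hne : ∀ᵐ y ∂π, ∀ i, y i ≠ 0) (g : Fin N → ℝ) :
    |t * sStat a π (fun _ => 1) g| ≤ t / a ∧ |t * sStat a π (fun _ => 1) g| ≤ 1 / 2 := by
  have h := (sStat_facts (π := π) ha hN hne (v := fun _ => (1 : ℝ)) measurable_const (B := 1) fun _ => (abs_one).le).2.1 g
  have h' : |t * sStat a π (fun _ => 1) g| ≤ t / a := by
    rw [abs_mul, abs_of_nonneg ht]
    exact (mul_le_mul_of_nonneg_left h ht).trans (le_of_eq (by ring))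
  exact ⟨h', h'.trans (by rw [div_le_iff₀ ha]; linarith)⟩

/-- Entropy gain of a side slot. -/
theorem side_ent (ha : 0 < a) (ha1 : a ≤ 1) (ht : 0 ≤ t) (hta : t ≤ a / 2) (hN : 0 < N)
    (hne : ∀ᵐ y ∂π, ∀ i, y i ≠ 0) :
    |ent (gam (Fin N)) (term (sineF t a) dir) π - t ^ 2 / 2 * sqStat vDir π| ≤
      t ^ 2 * a ^ 2 + 4 * (t / a) ^ 3 := by
  obtain ⟨hm, hb, -, -⟩ := sineF_facts ha ht hta
  have hn := nice_term hm hb (measurable_dir (ι := Fin N))
  obtain ⟨hSm, hSb, hS0, hS2⟩ := sStat_facts (π := π) ha hN hne (v := fun _ => (1 : ℝ)) measurable_const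
    (B := 1) fun _ => by simp
  simp only [mul_one] at hS2
  set S := sStat a π fun _ => (1 : ℝ)
  have hSi : Integrable S (gam (Fin N)) := integrable_of_abs_le hSm hSb
  have hS2i : Integrable (fun g => S g ^ 2) (gam (Fin N)) :=
    integrable_of_abs_le (K := (1 / a) ^ 2) (hSm.pow_const 2) fun g => by
      rw [abs_pow]; exact pow_le_pow_left₀ (abs_nonneg _) (hSb g) 2
  have hei := integrable_ent (P := gam (Fin N)) (π := π) hn
  have hpt : ∀ g, |Real.exp (lint π (term (sineF t a) dir g)) * lint π (term (sineF t a) dir g) -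
      (t * S g + t ^ 2 / 2 * S g ^ 2)| ≤ 4 * (t / a) ^ 3 := fun g => by
    obtain ⟨hx, hx2⟩ := abs_t_mul_sStat (π := π) ha ht hta hN hne g
    have h := mul_log_third hx2
    rw [← exp_lint_sine ha ht hta g, Real.log_exp] at h
    refine (le_of_eq ?_).trans (h.trans (mul_le_mul_of_nonneg_left (pow_le_pow_left₀ (abs_nonneg _) hx 3)
      (by norm_num)))
    congr 1; ring
  have hIk : |(∫ g, S g ^ 2 ∂gam (Fin N)) - sqStat vDir π| ≤ 2 * a ^ 2 := by
    have i1 := integrable_kern_mul (π := π) ha ha1 (φ := fun _ => (1 : ℝ)) measurable_const (B := 1)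
      fun _ => by simp
    simp only [mul_one] at i1
    have i2 : Integrable (fun p : (Fin N → ℝ) × (Fin N → ℝ) => ovl p) (π.prod π) :=
      integrable_of_abs_le (K := 1) measurable_ovl abs_ovl_le
    rw [hS2, ← integral_ovl_eq_sq, ← integral_sub i1 i2]
    refine abs_integral_le_integral_abs.trans ((integral_mono (i1.sub i2).abs
      (integrable_const (2 * a ^ 2)) fun p => kern_close ha ha1 (abs_ovl_le p)).trans_eq ?_)
    simp
  have hmain : |ent (gam (Fin N)) (term (sineF t a) dir) π - t ^ 2 / 2 * ∫ g, S g ^ 2 ∂gam (Fin N)| ≤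
      4 * (t / a) ^ 3 := by
    have e : ent (gam (Fin N)) (term (sineF t a) dir) π - t ^ 2 / 2 * ∫ g, S g ^ 2 ∂gam (Fin N) =
        ∫ g, (Real.exp (lint π (term (sineF t a) dir g)) * lint π (term (sineF t a) dir g) -
          (t * S g + t ^ 2 / 2 * S g ^ 2)) ∂gam (Fin N) := by
      rw [integral_sub hei ((hSi.const_mul t).fun_add (hS2i.const_mul _)),
        integral_add (hSi.const_mul t) (hS2i.const_mul _), integral_const_mul, integral_const_mul, hS0]
      simp [ent]
    rw [e]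
    refine abs_integral_le_integral_abs.trans ((integral_mono
      ((hei.sub' ((hSi.const_mul t).fun_add (hS2i.const_mul _)))).abs (integrable_const _) hpt).trans_eq ?_)
    simp
  have h2 : |t ^ 2 / 2 * (∫ g, S g ^ 2 ∂gam (Fin N)) - t ^ 2 / 2 * sqStat vDir π| ≤ t ^ 2 * a ^ 2 := by
    rw [← mul_sub, abs_mul, abs_of_nonneg (show 0 ≤ t ^ 2 / 2 by positivity)]
    exact (mul_le_mul_of_nonneg_left hIk (by positivity)).trans (le_of_eq (by ring))
  rw [abs_le] at hmain h2 ⊢
  constructor <;> linarith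

/-- Total squared covariance of the direction. -/
def covSq (π : Measure (Fin N → ℝ)) : ℝ :=
  ∑ i, ∑ j, (∫ y, vDir2 (i, j) y ∂π - (∫ y, vDir i y ∂π) * ∫ y, vDir j y ∂π) ^ 2

lemma covSq_nonneg : 0 ≤ covSq π := Finset.sum_nonneg fun _ _ => Finset.sum_nonneg fun _ _ => sq_nonneg _

lemma sqStat2_le (l : ℝ) (hl : 0 < l) :
    sqStat vDir2 π - sqStat vDir π ^ 2 ≤ covSq π + l + covSq π / l := by
  have hQ0 := sqStat_nonneg vDir π
  have hQ1 : sqStat vDir π ≤ 1 := sqStat_le measurable_vDir vDir_bound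
  set C : Fin N → Fin N → ℝ := fun i j => ∫ y, vDir2 (i, j) y ∂π - (∫ y, vDir i y ∂π) * ∫ y, vDir j y ∂π
  set m : Fin N → ℝ := fun i => ∫ y, vDir i y ∂π
  have hm : sqStat vDir π ^ 2 = ∑ i, ∑ j, (m i * m j) ^ 2 := by
    rw [sqStat, sq, Finset.sum_mul_sum]
    exact Finset.sum_congr rfl fun i _ => Finset.sum_congr rfl fun j _ => by simp only [m]; ring
  have hT : sqStat vDir2 π = ∑ i, ∑ j, (C i j + m i * m j) ^ 2 := by
    rw [sqStat, Fintype.sum_prod_type]
    exact Finset.sum_congr rfl fun i _ => Finset.sum_congr rfl fun j _ => by simp only [C, m]; ring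
  have h2 : ∀ i j, (C i j + m i * m j) ^ 2 - (m i * m j) ^ 2 ≤
      C i j ^ 2 + (l * (m i * m j) ^ 2 + C i j ^ 2 / l) := fun i j => by
    have : 2 * (C i j * (m i * m j)) ≤ l * (m i * m j) ^ 2 + C i j ^ 2 / l := by
      rw [← sub_nonneg, show l * (m i * m j) ^ 2 + C i j ^ 2 / l - 2 * (C i j * (m i * m j)) =
        (l * (m i * m j) - C i j) ^ 2 / l by field_simp; ring]
      exact div_nonneg (sq_nonneg _) hl.le
    nlinarith
  calc sqStat vDir2 π - sqStat vDir π ^ 2
      = ∑ i, ∑ j, ((C i j + m i * m j) ^ 2 - (m i * m j) ^ 2) := by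
        simp only [hT, hm, Finset.sum_sub_distrib]
    _ ≤ ∑ i, ∑ j, (C i j ^ 2 + (l * (m i * m j) ^ 2 + C i j ^ 2 / l)) :=
        Finset.sum_le_sum fun i _ => Finset.sum_le_sum fun j _ => h2 i j
    _ = covSq π + (l * sqStat vDir π ^ 2 + covSq π / l) := by
        simp only [Finset.sum_add_distrib, ← Finset.mul_sum, ← Finset.sum_div, hm]; rfl
    _ ≤ _ := by
        have : l * sqStat vDir π ^ 2 ≤ l := mul_le_of_le_one_right hl.le (pow_le_one₀ hQ0 hQ1)
        linarith

/-- The posterior mean after a side slot. -/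
lemma tilt_mean_sine (ha : 0 < a) (ht : 0 ≤ t) (hta : t ≤ a / 2) (g : Fin N → ℝ) (i : Fin N) :
    ∫ y, vDir i y ∂π.tilted (term (sineF t a) dir g) - ∫ y, vDir i y ∂π =
      t * sStat a π (fun y => vDir i y - ∫ y, vDir i y ∂π) g /
        Real.exp (lint π (term (sineF t a) dir g)) := by
  obtain ⟨hm, hb, he, -⟩ := sineF_facts ha ht hta
  have hn := nice_term hm hb (measurable_dir (ι := Fin N))
  have hZ := exp_lint_sine (π := π) ha ht hta g
  have hi1 : Integrable (fun y => Real.sin (a * dot g (dir y)) / a * vDir i y) π :=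
    integrable_of_abs_le (K := 1 / a * 1) ((measurable_sin_fixed g).mul (measurable_vDir i)) fun y => by
      rw [abs_mul]; exact mul_le_mul (abs_sin_div_le ha _) (abs_vDir_le i y) (abs_nonneg _) (by positivity)
  have hi0 : Integrable (fun y => Real.sin (a * dot g (dir y)) / a) π :=
    integrable_of_abs_le (measurable_sin_fixed g) fun y => abs_sin_div_le ha _
  have hiv : Integrable (vDir i) π :=
    integrable_of_abs_le (K := 1) (measurable_vDir i) (abs_vDir_le i)
  obtain ⟨m, hmdef⟩ : ∃ m, m = ∫ y, vDir i y ∂π := ⟨_, rfl⟩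
  have e : (fun y => Real.exp (term (sineF t a) dir g y) * vDir i y) =
      fun y => vDir i y + t * (Real.sin (a * dot g (dir y)) / a * vDir i y) := funext fun y => by
    rw [term, he]; ring
  have hnum : ∫ y, Real.exp (term (sineF t a) dir g y) * vDir i y ∂π =
      m + t * ∫ y, Real.sin (a * dot g (dir y)) / a * vDir i y ∂π := by
    rw [e, integral_add hiv (hi1.const_mul t), integral_const_mul, hmdef]
  have htilt : ∫ y, vDir i y ∂π.tilted (term (sineF t a) dir g) =
      (∫ y, Real.exp (term (sineF t a) dir g y) * vDir i y ∂π) /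
        Real.exp (lint π (term (sineF t a) dir g)) := by
    rw [exp_lint_eq hn g, integral_tilted, ← integral_div]
    congr 1; ext y; rw [smul_eq_mul]; ring
  have hsv : sStat a π (fun y => vDir i y - m) g = (∫ y, Real.sin (a * dot g (dir y)) / a * vDir i y ∂π) -
      m * sStat a π (fun _ => 1) g := by
    simp only [sStat, mul_one, mul_sub]
    rw [integral_sub hi1 (hi0.mul_const _), integral_mul_const, mul_comm]
  rw [← hmdef, hsv, htilt, hnum, eq_div_iff (Real.exp_pos _).ne', sub_mul,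
    div_mul_cancel₀ _ (Real.exp_pos _).ne', hZ]
  ring

lemma sum_centred_sq_le (π : Measure (Fin N → ℝ)) [IsProbabilityMeasure π] :
    ∑ i, ∫ y, (vDir i y - ∫ y, vDir i y ∂π) ^ 2 ∂π ≤ 1 := by
  have hi2 : ∀ i, Integrable (fun y => vDir i y ^ 2) π := fun i =>
    integrable_of_abs_le (K := 1) ((measurable_vDir i).pow_const 2) fun y => by
      rw [abs_pow]; exact pow_le_one₀ (abs_nonneg _) (abs_vDir_le i y)
  have hi1 : ∀ i, Integrable (vDir i) π := fun i =>
    integrable_of_abs_le (K := 1) (measurable_vDir i) (abs_vDir_le i)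
  have hv2 : ∀ i, ∫ y, (vDir i y - ∫ y, vDir i y ∂π) ^ 2 ∂π ≤ ∫ y, vDir i y ^ 2 ∂π := fun i => by
    obtain ⟨m, hm⟩ : ∃ m, m = ∫ y, vDir i y ∂π := ⟨_, rfl⟩
    rw [← hm]
    have e : ∀ y, (vDir i y - m) ^ 2 = vDir i y ^ 2 - 2 * m * vDir i y + m ^ 2 := fun y => by ring
    simp only [e]
    rw [integral_add ((hi2 i).sub' ((hi1 i).const_mul _)) (integrable_const _),
      integral_sub (hi2 i) ((hi1 i).const_mul _), integral_const_mul, ← hm]
    simp only [integral_const, probReal_univ, smul_eq_mul, one_mul]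
    nlinarith [sq_nonneg m]
  refine (Finset.sum_le_sum fun i _ => hv2 i).trans ?_
  rw [← integral_finsetSum _ fun i _ => hi2 i]
  refine (integral_mono (integrable_finsetSum _ fun i _ => hi2 i) (integrable_const (1 : ℝ))
    fun y => vDir_bound y).trans_eq ?_
  simp

lemma ovl_cov_eq :
    ∑ i, ∫ p, ovl p * ((vDir i p.1 - ∫ y, vDir i y ∂π) * (vDir i p.2 - ∫ y, vDir i y ∂π)) ∂π.prod π =
      covSq π := by
  refine Finset.sum_congr rfl fun i _ => ?_
  obtain ⟨m, hm⟩ : ∃ m : Fin N → ℝ, m = fun i => ∫ y, vDir i y ∂π := ⟨_, rfl⟩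
  have hm' : ∀ i, ∫ y, vDir i y ∂π = m i := fun i => by rw [hm]
  simp only [hm']
  have hvb : ∀ y, |vDir i y - m i| ≤ 1 + |m i| := fun y =>
    (abs_sub _ _).trans (by linarith [abs_vDir_le i y])
  have hij : ∀ j, Integrable (fun y => vDir j y * (vDir i y - m i)) π := fun j =>
    integrable_of_abs_le (K := 1 * (1 + |m i|)) ((measurable_vDir j).mul ((measurable_vDir i).sub_const _))
      fun y => by
        rw [abs_mul]; exact mul_le_mul (abs_vDir_le j y) (hvb y) (abs_nonneg _) zero_le_one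
  have e : ∀ p : (Fin N → ℝ) × (Fin N → ℝ), ovl p * ((vDir i p.1 - m i) * (vDir i p.2 - m i)) =
      ∑ j, (vDir j p.1 * (vDir i p.1 - m i)) * (vDir j p.2 * (vDir i p.2 - m i)) := fun p => by
    simp only [ovl, dot, Finset.sum_mul, vDir]
    exact Finset.sum_congr rfl fun j _ => by ring
  simp only [e]
  rw [integral_finsetSum _ fun j _ => (hij j).mul_prod (hij j)]
  refine Finset.sum_congr rfl fun j _ => ?_
  rw [integral_prod_mul (fun y => vDir j y * (vDir i y - m i)) (fun y => vDir j y * (vDir i y - m i)), sq]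
  have i2 : Integrable (vDir2 (i, j)) π :=
    integrable_of_abs_le (K := 1) (measurable_vDir2 _) fun y => by
      rw [vDir2, abs_mul]; exact mul_le_one₀ (abs_dir_le y _) (abs_nonneg _) (abs_dir_le y _)
  have i1 : Integrable (vDir j) π := integrable_of_abs_le (K := 1) (measurable_vDir j) (abs_vDir_le j)
  have e3 : (fun y => vDir j y * (vDir i y - m i)) = fun y => vDir2 (i, j) y - m i * vDir j y :=
    funext fun y => by simp only [vDir2, vDir]; ring
  rw [e3, integral_sub i2 (i1.const_mul _), integral_const_mul]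
  simp only [hm']

lemma kern_cov_ge (ha : 0 < a) (ha1 : a ≤ 1) :
    covSq π - 8 * a ^ 2 ≤ ∑ i, ∫ p, kern a (ovl p) *
      ((vDir i p.1 - ∫ y, vDir i y ∂π) * (vDir i p.2 - ∫ y, vDir i y ∂π)) ∂π.prod π := by
  obtain ⟨m, hm⟩ : ∃ m : Fin N → ℝ, m = fun i => ∫ y, vDir i y ∂π := ⟨_, rfl⟩
  have hm' : ∀ i, ∫ y, vDir i y ∂π = m i := fun i => by rw [hm]
  have hc := sum_centred_sq_le π
  have hexact := ovl_cov_eq (π := π)
  simp only [hm'] at hc hexact ⊢
  have hvm : ∀ i, Measurable fun y => vDir i y - m i := fun i => (measurable_vDir i).sub_const _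
  have hvb : ∀ i y, |vDir i y - m i| ≤ 1 + |m i| := fun i y =>
    (abs_sub _ _).trans (by linarith [abs_vDir_le i y])
  have hpm : ∀ i, Measurable fun p : (Fin N → ℝ) × (Fin N → ℝ) => (vDir i p.1 - m i) * (vDir i p.2 - m i) :=
    fun i => ((hvm i).comp measurable_fst).mul ((hvm i).comp measurable_snd)
  have hpb : ∀ i (p : (Fin N → ℝ) × (Fin N → ℝ)),
      |(vDir i p.1 - m i) * (vDir i p.2 - m i)| ≤ (1 + |m i|) * (1 + |m i|) := fun i p => by
    rw [abs_mul]; exact mul_le_mul (hvb i _) (hvb i _) (abs_nonneg _) (by positivity)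
  have hvi : ∀ i, Integrable (fun y => (vDir i y - m i) ^ 2) π := fun i =>
    integrable_of_abs_le (K := (1 + |m i|) ^ 2) ((hvm i).pow_const 2) fun y => by
      rw [abs_pow]; exact pow_le_pow_left₀ (abs_nonneg _) (hvb i y) 2
  have ik := fun i => integrable_kern_mul (π := π) ha ha1 (hpm i) (hpb i)
  have io : ∀ i, Integrable (fun p => ovl p * ((vDir i p.1 - m i) * (vDir i p.2 - m i))) (π.prod π) := fun i =>
    integrable_of_abs_le (K := 1 * ((1 + |m i|) * (1 + |m i|))) (measurable_ovl.mul (hpm i)) fun p => by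
      rw [abs_mul]; exact mul_le_mul (abs_ovl_le p) (hpb i p) (abs_nonneg _) zero_le_one
  have hb2 : ∀ i, ∫ p, ovl p * ((vDir i p.1 - m i) * (vDir i p.2 - m i)) ∂π.prod π -
      2 * a ^ 2 * ∫ y, (vDir i y - m i) ^ 2 ∂π ≤
      ∫ p, kern a (ovl p) * ((vDir i p.1 - m i) * (vDir i p.2 - m i)) ∂π.prod π := by
    intro i
    have i1 : Integrable (fun p : (Fin N → ℝ) × (Fin N → ℝ) =>
        a ^ 2 * ((vDir i p.1 - m i) ^ 2 + (vDir i p.2 - m i) ^ 2)) (π.prod π) :=
      (((hvi i).comp_fst π).fun_add ((hvi i).comp_snd π)).const_mul _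
    have e : 2 * a ^ 2 * ∫ y, (vDir i y - m i) ^ 2 ∂π = ∫ p : (Fin N → ℝ) × (Fin N → ℝ),
        a ^ 2 * ((vDir i p.1 - m i) ^ 2 + (vDir i p.2 - m i) ^ 2) ∂π.prod π := by
      rw [integral_const_mul, integral_add ((hvi i).comp_fst π) ((hvi i).comp_snd π),
        integral_fun_fst (fun y => (vDir i y - m i) ^ 2), integral_fun_snd (fun y => (vDir i y - m i) ^ 2)]
      simp; ring
    rw [e, ← integral_sub (io i) i1]
    refine integral_mono ((io i).sub i1) (ik i) fun p => ?_
    simp only [Pi.sub_apply]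
    obtain ⟨A, hA⟩ : ∃ A, A = vDir i p.1 - m i := ⟨_, rfl⟩
    obtain ⟨B, hB⟩ : ∃ B, B = vDir i p.2 - m i := ⟨_, rfl⟩
    rw [← hA, ← hB]
    have hk := kern_close ha ha1 (abs_ovl_le p)
    have h2 : 2 * (|A| * |B|) ≤ A ^ 2 + B ^ 2 := by
      rw [← sq_abs A, ← sq_abs B]; linarith [two_mul_le_add_sq |A| |B|]
    have h3 := mul_le_mul_of_nonneg_right hk (mul_nonneg (abs_nonneg A) (abs_nonneg B))
    have h4 := mul_le_mul_of_nonneg_left h2 (sq_nonneg a)
    have h5 := neg_abs_le ((kern a (ovl p) - ovl p) * (A * B))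
    rw [abs_mul, abs_mul] at h5
    linarith
  refine le_trans ?_ (Finset.sum_le_sum fun i _ => hb2 i)
  rw [Finset.sum_sub_distrib, ← Finset.mul_sum, hexact]
  linarith [mul_le_mul_of_nonneg_left hc (show 0 ≤ 2 * a ^ 2 by positivity), sq_nonneg a]

/-- A side slot raises the squared posterior mean by the squared covariance. -/
theorem side_gain (ha : 0 < a) (ha1 : a ≤ 1) (ht : 0 ≤ t) (hta : t ≤ a / 2) (hN : 0 < N)
    (hne : ∀ᵐ y ∂π, ∀ i, y i ≠ 0) :
    sqStat vDir π + t ^ 2 / 2 * (covSq π - 8 * a ^ 2) ≤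
      plq (gam (Fin N)) (term (sineF t a) dir) vDir π := by
  obtain ⟨hm, hb, he, h1⟩ := sineF_facts ha ht hta
  have hn := nice_term hm hb (measurable_dir (ι := Fin N))
  have hy := hne.mono fun y hy => mean_term_eq_one hm h1 hN hy
  obtain ⟨hgi, hge⟩ := plq_eq_add (P := gam (Fin N)) hn hy measurable_vDir (fun y => vDir_bound y)
  rw [hge]
  refine add_le_add le_rfl ?_
  set m : Fin N → ℝ := fun i => ∫ y, vDir i y ∂π
  set v : Fin N → (Fin N → ℝ) → ℝ := fun i y => vDir i y - m i
  have hmb : ∀ i, |m i| ≤ 1 := fun i => by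
    have := norm_integral_le_of_norm_le_const (μ := π) (f := fun y => vDir i y) (C := 1)
      (Eventually.of_forall fun y => abs_vDir_le i y)
    simpa [m] using this
  have hvb : ∀ i y, |v i y| ≤ 2 := fun i y => (abs_sub _ _).trans (by linarith [abs_vDir_le i y, hmb i])
  have hvm : ∀ i, Measurable (v i) := fun i => (measurable_vDir i).sub_const _
  have hs := fun i => sStat_facts (π := π) ha hN hne (hvm i) (hvb i)
  have hsi : ∀ i, Integrable (fun g => sStat a π (v i) g ^ 2) (gam (Fin N)) := fun i =>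
    integrable_of_abs_le (K := (2 / a) ^ 2) ((hs i).1.pow_const 2) fun g => by
      rw [abs_pow]; exact pow_le_pow_left₀ (abs_nonneg _) ((hs i).2.1 g) 2
  have hpt : ∀ g, t ^ 2 / 2 * ∑ i, sStat a π (v i) g ^ 2 ≤ Real.exp (lint π (term (sineF t a) dir g)) *
      ∑ i, (∫ y, vDir i y ∂π.tilted (term (sineF t a) dir g) - ∫ y, vDir i y ∂π) ^ 2 := fun g => by
    obtain ⟨-, hx2⟩ := abs_t_mul_sStat (π := π) ha ht hta hN hne g
    have hZ := exp_lint_sine (π := π) ha ht hta g
    set Z := Real.exp (lint π (term (sineF t a) dir g))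
    have hZ0 : 0 < Z := Real.exp_pos _
    have hZ2 : Z ≤ 2 := by rw [hZ]; linarith [(abs_le.1 hx2).2]
    rw [Finset.mul_sum, Finset.mul_sum]
    refine Finset.sum_le_sum fun i _ => ?_
    have hd : ∫ y, vDir i y ∂π.tilted (term (sineF t a) dir g) - ∫ y, vDir i y ∂π =
        t * sStat a π (v i) g / Z := tilt_mean_sine ha ht hta g i
    rw [hd, div_pow, mul_pow]
    have hcalc : Z * (t ^ 2 * sStat a π (v i) g ^ 2 / Z ^ 2) = t ^ 2 * sStat a π (v i) g ^ 2 / Z := by
      field_simp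
    rw [hcalc, le_div_iff₀ hZ0]
    nlinarith [mul_le_mul_of_nonneg_left hZ2 (mul_nonneg (sq_nonneg t) (sq_nonneg (sStat a π (v i) g)))]
  refine le_trans ?_ (integral_mono ((integrable_finsetSum _ fun i _ => hsi i).const_mul _) hgi hpt)
  rw [integral_const_mul, integral_finsetSum _ fun i _ => hsi i]
  refine mul_le_mul_of_nonneg_left ?_ (by positivity)
  simp only [(hs _).2.2.2]
  have ik : ∀ i, Integrable (fun p => kern a (ovl p) * (v i p.1 * v i p.2)) (π.prod π) := fun i =>
    integrable_kern_mul ha ha1 (((hvm i).comp measurable_fst).mul ((hvm i).comp measurable_snd))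
      (B := 2 * 2) fun p => by
        change |v i p.1 * v i p.2| ≤ _
        rw [abs_mul]; exact mul_le_mul (hvb i _) (hvb i _) (abs_nonneg _) zero_le_two
  have io : ∀ i, Integrable (fun p => ovl p * (v i p.1 * v i p.2)) (π.prod π) := fun i =>
    integrable_of_abs_le (K := 1 * (2 * 2))
      (measurable_ovl.mul (((hvm i).comp measurable_fst).mul ((hvm i).comp measurable_snd))) fun p => by
      change |ovl p * (v i p.1 * v i p.2)| ≤ _
      rw [abs_mul, abs_mul]
      exact mul_le_mul (abs_ovl_le p) (mul_le_mul (hvb i _) (hvb i _) (abs_nonneg _) zero_le_two)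
        (by positivity) zero_le_one
  exact kern_cov_ge ha ha1

end Vale.Agent.P157.Phase
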