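import Mathlib
import Vale.Agent.P157.Phase.Side
import Vale.Agent.P157.PlantedTransfer

/-!
States of the planted model: splitting slots and the resulting recursions.
-/

noncomputable section

open MeasureTheory ProbabilityTheory Filter
open scoped Topology

namespace Vale.Agent.P157.Phase

open Vale.Agent.P157

/-- Planted expectation of a functional of the posterior of a state. -/
def stE {N : ℕ} (π : Measure (Fin N → ℝ)) (f s : ℝ → ℝ) (Φ : Measure (Fin N → ℝ) → ℝ) (k x : ℕ) : ℝ :=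
  ∫ p, Real.exp (lint π (stH f s k x p)) * Φ (π.tilted (stH f s k x p)) ∂stP N k x

/-- The integrand of `stE` is integrable. -/
def StInt {N : ℕ} (π : Measure (Fin N → ℝ)) (f s : ℝ → ℝ) (Φ : Measure (Fin N → ℝ) → ℝ) (k x : ℕ) : Prop :=
  Integrable (fun p => Real.exp (lint π (stH f s k x p)) * Φ (π.tilted (stH f s k x p))) (stP N k x)

/-- Standing assumptions on a pair of slot log-weights. -/
structure Slot2 (f s : ℝ → ℝ) (K K' : ℝ) : Prop where
  mf : Measurable f
  ms : Measurable s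
  bf : ∀ z, |f z| ≤ K
  bs : ∀ z, |s z| ≤ K'
  of : ∫ z, Real.exp (f z) ∂gam1 = 1
  os : ∫ z, Real.exp (s z) ∂gam1 = 1

lemma measurePreserving_finSplit {α : Type*} [MeasurableSpace α] (μ : Measure α) [IsProbabilityMeasure μ]
    (m n : ℕ) :
    MeasurePreserving (fun g : Fin (m + n) → α => (fun b => g (Fin.natAdd m b), fun b => g (Fin.castAdd n b)))
      (Measure.pi fun _ => μ) ((Measure.pi fun _ : Fin n => μ).prod (Measure.pi fun _ : Fin m => μ)) := by
  have h1 := (measurePreserving_piCongrLeft (fun _ : Fin (m + n) => μ) finSumFinEquiv).symm _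
  have h2 := measurePreserving_sumPiEquivProdPi (fun _ : Fin m ⊕ Fin n => μ)
  have h3 := Measure.measurePreserving_swap (μ := Measure.pi fun _ : Fin m => μ)
    (ν := Measure.pi fun _ : Fin n => μ)
  have e : (fun g : Fin (m + n) → α => (fun b => g (Fin.natAdd m b), fun b => g (Fin.castAdd n b))) =
      Prod.swap ∘ (MeasurableEquiv.sumPiEquivProdPi fun _ : Fin m ⊕ Fin n => α) ∘
        (MeasurableEquiv.piCongrLeft (fun _ : Fin (m + n) => α) finSumFinEquiv).symm := by
    funext g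
    rfl
  rw [e]
  exact h3.comp (h2.comp h1)

lemma measurePreserving_prodComm₄ {A B C D : Type*} [MeasurableSpace A] [MeasurableSpace B]
    [MeasurableSpace C] [MeasurableSpace D] (μa : Measure A) (μb : Measure B) (μc : Measure C) (μd : Measure D)
    [IsProbabilityMeasure μa] [IsProbabilityMeasure μb] [IsProbabilityMeasure μc] [IsProbabilityMeasure μd] :
    MeasurePreserving (fun q : (A × B) × (C × D) => ((q.1.1, q.2.1), (q.1.2, q.2.2)))
      ((μa.prod μb).prod (μc.prod μd)) ((μa.prod μc).prod (μb.prod μd)) := by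
  have h1 := measurePreserving_prodAssoc μa μb (μc.prod μd)
  have h2 := (MeasurePreserving.id μa).prod
    (((measurePreserving_prodAssoc μb μc μd).symm _))
  have h3 := (MeasurePreserving.id μa).prod
    ((Measure.measurePreserving_swap (μ := μb) (ν := μc)).prod (MeasurePreserving.id μd))
  have h4 := (MeasurePreserving.id μa).prod (measurePreserving_prodAssoc μc μb μd)
  have h5 := (measurePreserving_prodAssoc μa μc (μb.prod μd)).symm _
  exact h5.comp (h4.comp (h3.comp (h2.comp h1)))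

variable {N : ℕ} {π : Measure (Fin N → ℝ)} [IsProbabilityMeasure π] {f s : ℝ → ℝ} {K K' : ℝ}

instance isProb_stP (k x : ℕ) : IsProbabilityMeasure (stP N k x) := by unfold stP; infer_instance

lemma nice_state (h : Slot2 f s K K') (k x : ℕ) : Nice (k * K + x * K') (stH (N := N) f s k x) :=
  (nice_slots (N := N) (M := k) (F := fun _ => f) (fun _ => h.mf) fun _ => h.bf).add
    (nice_slots (N := N) (M := x) (F := fun _ => s) (fun _ => h.ms) fun _ => h.bs)

lemma mean_stH_eq_one (h : Slot2 f s K K') (hN : 0 < N) {y : Fin N → ℝ} (hy : ∀ i, y i ≠ 0) (k x : ℕ) :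
    ∫ p, Real.exp (stH f s k x p y) ∂stP N k x = 1 := by
  simp only [stH, stP, Real.exp_add]
  rw [integral_prod_mul (fun g : Fin k → Fin N → ℝ => Real.exp (slots (fun _ => f) g y))
    (fun g : Fin x → Fin N → ℝ => Real.exp (slots (fun _ => s) g y)),
    mean_slots_eq_one (fun _ => h.mf) (fun _ => h.of) hN hy,
    mean_slots_eq_one (fun _ => h.ms) (fun _ => h.os) hN hy, mul_one]

lemma ae_mean_stH (h : Slot2 f s K K') (hN : 0 < N) (hne : ∀ᵐ y ∂π, ∀ i, y i ≠ 0) (k x : ℕ) :
    ∀ᵐ y ∂π, ∫ p, Real.exp (stH f s k x p y) ∂stP N k x = 1 :=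
  hne.mono fun _ hy => mean_stH_eq_one h hN hy k x

lemma mass_stP (h : Slot2 f s K K') (hN : 0 < N) (hne : ∀ᵐ y ∂π, ∀ i, y i ≠ 0) (k x : ℕ) :
    ∫ p, Real.exp (lint π (stH f s k x p)) ∂stP N k x = 1 :=
  mass_one (nice_state h k x) (ae_mean_stH h hN hne k x)

/-- A posterior of a state is again an admissible prior. -/
lemma post_ok (h : Slot2 f s K K') (hne : ∀ᵐ y ∂π, ∀ i, y i ≠ 0) (k x : ℕ)
    (p : (Fin k → Fin N → ℝ) × (Fin x → Fin N → ℝ)) :
    IsProbabilityMeasure (π.tilted (stH f s k x p)) ∧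
      ∀ᵐ y ∂π.tilted (stH f s k x p), ∀ i, y i ≠ 0 :=
  ⟨isProb_tilted ((nice_state h k x).meas_left p) ((nice_state h k x).bound p),
    (tilted_absolutelyContinuous _ _).ae_le hne⟩

/-- Splitting map of a state. -/
def stSplit {N : ℕ} (k k' x x' : ℕ) (p : (Fin (k + k') → Fin N → ℝ) × (Fin (x + x') → Fin N → ℝ)) :
    ((Fin k' → Fin N → ℝ) × (Fin x' → Fin N → ℝ)) × ((Fin k → Fin N → ℝ) × (Fin x → Fin N → ℝ)) :=
  ((fun b => p.1 (Fin.natAdd k b), fun b => p.2 (Fin.natAdd x b)),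
    (fun b => p.1 (Fin.castAdd k' b), fun b => p.2 (Fin.castAdd x' b)))

lemma measurePreserving_stSplit (k k' x x' : ℕ) :
    MeasurePreserving (stSplit (N := N) k k' x x') (stP N (k + k') (x + x'))
      ((stP N k' x').prod (stP N k x)) := by
  have h1 := (measurePreserving_finSplit (gam (Fin N)) k k').prod (measurePreserving_finSplit (gam (Fin N)) x x')
  refine MeasurePreserving.comp (g := fun q :
      ((Fin k' → Fin N → ℝ) × (Fin k → Fin N → ℝ)) × ((Fin x' → Fin N → ℝ) × (Fin x → Fin N → ℝ)) =>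
      ((q.1.1, q.2.1), (q.1.2, q.2.2))) ?_ h1
  exact measurePreserving_prodComm₄ _ _ _ _

lemma stH_split (k k' x x' : ℕ) (p : (Fin (k + k') → Fin N → ℝ) × (Fin (x + x') → Fin N → ℝ))
    (y : Fin N → ℝ) :
    stH f s (k + k') (x + x') p y =
      stH f s k' x' (stSplit k k' x x' p).1 y + stH f s k x (stSplit k k' x x' p).2 y := by
  simp only [stH, slots, stSplit, Fin.sum_univ_add]
  ring

/-- Entropy of a joined state. -/
lemma stJ_add (h : Slot2 f s K K') (hN : 0 < N) (hne : ∀ᵐ y ∂π, ∀ i, y i ≠ 0) (k k' x x' : ℕ) :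
    StInt π f s (fun σ => stJ σ f s k' x') k x ∧
      stJ π f s (k + k') (x + x') = stJ π f s k x + stE π f s (fun σ => stJ σ f s k' x') k x := by
  have hn := nice_state (N := N) h k x
  have hn' := nice_state (N := N) h k' x'
  obtain ⟨hi, he⟩ := ent_add (P := stP N k' x') (P' := stP N k x) (π := π) hn' hn
    (ae_mean_stH h hN hne k' x')
  have hie := integrable_ent (P := stP N k x) (π := π) hn
  have hint : StInt π f s (fun σ => stJ σ f s k' x') k x :=
    (hi.sub' hie).congr (Eventually.of_forall fun p => by simp only [stJ]; ring)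
  refine ⟨hint, ?_⟩
  have hc := ent_congr (π := π) (measurePreserving_stSplit (N := N) k k' x x') (hn'.add hn)
  simp only [← stH_split] at hc
  rw [stJ, hc, he]
  simp only [mul_add]
  exact integral_add hie hint

/-- Squared posterior means of a joined state. -/
lemma plq_st_add (h : Slot2 f s K K') {C : Type*} [Fintype C] {v : C → (Fin N → ℝ) → ℝ} {B : ℝ}
    (hv : ∀ c, Measurable (v c)) (hb : ∀ y, ∑ c, v c y ^ 2 ≤ B) (k k' x x' : ℕ) :
    StInt π f s (fun σ => plq (stP N k' x') (stH f s k' x') v σ) k x ∧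
      plq (stP N (k + k') (x + x')) (stH f s (k + k') (x + x')) v π =
        stE π f s (fun σ => plq (stP N k' x') (stH f s k' x') v σ) k x := by
  have hn := nice_state (N := N) h k x
  have hn' := nice_state (N := N) h k' x'
  obtain ⟨hi, he⟩ := plq_add (P := stP N k' x') (P' := stP N k x) (π := π) hn' hn hv hb
  refine ⟨hi, ?_⟩
  have hc := plq_congr (π := π) (v := v) (measurePreserving_stSplit (N := N) k k' x x') (hn'.add hn) hv
  simp only [← stH_split] at hc
  rw [hc, he]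
  rfl

lemma stH_pattern (p : (Fin 1 → Fin N → ℝ) × (Fin 0 → Fin N → ℝ)) :
    stH f s 1 0 p = term f dir (p.1 0) := by
  funext y; simp [stH, slots]

lemma stH_side (p : (Fin 0 → Fin N → ℝ) × (Fin 1 → Fin N → ℝ)) :
    stH f s 0 1 p = term s dir (p.2 0) := by
  funext y; simp [stH, slots]

lemma measurePreserving_one (μ : Measure (Fin N → ℝ)) [IsProbabilityMeasure μ] :
    MeasurePreserving (fun g : Fin 1 → Fin N → ℝ => g 0) (Measure.pi fun _ => μ) μ :=
  measurePreserving_eval (fun _ : Fin 1 => μ) 0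

lemma stJ_pattern (h : Slot2 f s K K') : stJ π f s 1 0 = ent (gam (Fin N)) (term f dir) π := by
  have hφ : MeasurePreserving (fun p : (Fin 1 → Fin N → ℝ) × (Fin 0 → Fin N → ℝ) => p.1 0) (stP N 1 0)
      (gam (Fin N)) := (measurePreserving_one _).comp measurePreserving_fst
  have e := ent_congr (π := π) hφ (nice_term h.mf h.bf (measurable_dir (ι := Fin N)))
  simp only [← stH_pattern (f := f) (s := s)] at e
  exact e

lemma stJ_side (h : Slot2 f s K K') : stJ π f s 0 1 = ent (gam (Fin N)) (term s dir) π := by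
  have hφ : MeasurePreserving (fun p : (Fin 0 → Fin N → ℝ) × (Fin 1 → Fin N → ℝ) => p.2 0) (stP N 0 1)
      (gam (Fin N)) := (measurePreserving_one _).comp measurePreserving_snd
  have e := ent_congr (π := π) hφ (nice_term h.ms h.bs (measurable_dir (ι := Fin N)))
  simp only [← stH_side (f := f) (s := s)] at e
  exact e

lemma stQ_side (h : Slot2 f s K K') : stQ π f s 0 1 = plq (gam (Fin N)) (term s dir) vDir π := by
  have hφ : MeasurePreserving (fun p : (Fin 0 → Fin N → ℝ) × (Fin 1 → Fin N → ℝ) => p.2 0) (stP N 0 1)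
      (gam (Fin N)) := (measurePreserving_one _).comp measurePreserving_snd
  have e := plq_congr (π := π) (v := vDir) hφ (nice_term h.ms h.bs (measurable_dir (ι := Fin N))) measurable_vDir
  simp only [← stH_side (f := f) (s := s)] at e
  exact e

lemma stH_zero (p : (Fin 0 → Fin N → ℝ) × (Fin 0 → Fin N → ℝ)) : stH f s 0 0 p = fun _ => 0 := by
  funext y; simp [stH, slots]

lemma stJ_zero : stJ π f s 0 0 = 0 := by
  simp [stJ, ent, stH_zero, lint]

lemma stQ_zero : stQ π f s 0 0 = sqStat vDir π := by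
  simp [stQ, plq, stH_zero, lint, tilted_zero']

lemma stInt_stat (h : Slot2 f s K K') {C : Type*} [Fintype C] {v : C → (Fin N → ℝ) → ℝ} {B : ℝ}
    (hv : ∀ c, Measurable (v c)) (hb : ∀ y, ∑ c, v c y ^ 2 ≤ B) (k x : ℕ) :
    StInt π f s (sqStat v) k x :=
  integrable_plq (nice_state h k x) hv hb

lemma stInt_const (h : Slot2 f s K K') (c : ℝ) (k x : ℕ) : StInt π f s (fun _ => c) k x :=
  (integrable_exp_lint (nice_state h k x)).mul_const c

lemma stE_const (h : Slot2 f s K K') (hN : 0 < N) (hne : ∀ᵐ y ∂π, ∀ i, y i ≠ 0) (c : ℝ) (k x : ℕ) :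
    stE π f s (fun _ => c) k x = c := by
  rw [stE, integral_mul_const, mass_stP h hN hne, one_mul]

lemma StInt.add {Φ Ψ : Measure (Fin N → ℝ) → ℝ} {k x : ℕ} (h1 : StInt π f s Φ k x)
    (h2 : StInt π f s Ψ k x) : StInt π f s (fun σ => Φ σ + Ψ σ) k x :=
  (Integrable.fun_add h1 h2).congr (Eventually.of_forall fun p => by ring)

lemma StInt.smul {Φ : Measure (Fin N → ℝ) → ℝ} {k x : ℕ} (h1 : StInt π f s Φ k x) (c : ℝ) :
    StInt π f s (fun σ => c * Φ σ) k x :=
  (Integrable.const_mul h1 c).congr (Eventually.of_forall fun p => by ring)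

lemma stE_add {Φ Ψ : Measure (Fin N → ℝ) → ℝ} {k x : ℕ} (h1 : StInt π f s Φ k x)
    (h2 : StInt π f s Ψ k x) :
    stE π f s (fun σ => Φ σ + Ψ σ) k x = stE π f s Φ k x + stE π f s Ψ k x := by
  simp only [stE, mul_add]; exact integral_add h1 h2

lemma stE_smul (Φ : Measure (Fin N → ℝ) → ℝ) (c : ℝ) (k x : ℕ) :
    stE π f s (fun σ => c * Φ σ) k x = c * stE π f s Φ k x := by
  rw [stE, stE, ← integral_const_mul]; congr 1; funext p; ring

lemma stE_le (h : Slot2 f s K K') (hne : ∀ᵐ y ∂π, ∀ i, y i ≠ 0) {Φ Ψ : Measure (Fin N → ℝ) → ℝ}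
    {k x : ℕ} (h1 : StInt π f s Φ k x) (h2 : StInt π f s Ψ k x)
    (hle : ∀ σ : Measure (Fin N → ℝ), IsProbabilityMeasure σ → (∀ᵐ y ∂σ, ∀ i, y i ≠ 0) → Φ σ ≤ Ψ σ) :
    stE π f s Φ k x ≤ stE π f s Ψ k x :=
  integral_mono h1 h2 fun p =>
    mul_le_mul_of_nonneg_left (hle _ (post_ok h hne k x p).1 (post_ok h hne k x p).2) (Real.exp_pos _).le

/-- Admissible parameters of a side slot. -/
structure SideOK (t a : ℝ) : Prop where
  ha : 0 < a
  ha1 : a ≤ 1
  ht : 0 < t
  hta : t ≤ a / 2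

/-- Error of one side slot. -/
def sideErr (t a : ℝ) : ℝ := t ^ 2 * a ^ 2 + 4 * (t / a) ^ 3

variable {t a : ℝ}

lemma SideOK.slot2 (hp : SideOK t a) (hf : Measurable f) (hb : ∀ z, |f z| ≤ K)
    (h1 : ∫ z, Real.exp (f z) ∂gam1 = 1) : Slot2 f (sineF t a) K (2 * (t / a)) := by
  obtain ⟨m, b, -, o⟩ := sineF_facts hp.ha hp.ht.le hp.hta
  exact ⟨hf, m, hb, b, h1, o⟩

lemma SideOK.err_nonneg (hp : SideOK t a) : 0 ≤ sideErr t a := by
  have := hp.ha; have := hp.ht
  unfold sideErr; positivity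

lemma ent_nonneg {Ω : Type*} [MeasurableSpace Ω] {P : Measure Ω} [IsProbabilityMeasure P] {H : Ω → (Fin N → ℝ) → ℝ}
    {B : ℝ} (h : Nice B H) (hy : ∀ᵐ y ∂π, ∫ ω, Real.exp (H ω y) ∂P = 1) : 0 ≤ ent P H π := by
  have e := le_ent (P := P) (π := π) h hy (q := fun _ => 0) (integrable_const _) (by simp)
  simpa using e

lemma stJ_nonneg (h : Slot2 f s K K') (hN : 0 < N) (hne : ∀ᵐ y ∂π, ∀ i, y i ≠ 0) (k x : ℕ) :
    0 ≤ stJ π f s k x := ent_nonneg (nice_state h k x) (ae_mean_stH h hN hne k x)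

lemma stE_nonneg (h : Slot2 f s K K') (hne : ∀ᵐ y ∂π, ∀ i, y i ≠ 0) {Φ : Measure (Fin N → ℝ) → ℝ}
    {k x : ℕ}
    (hle : ∀ σ : Measure (Fin N → ℝ), IsProbabilityMeasure σ → (∀ᵐ y ∂σ, ∀ i, y i ≠ 0) → 0 ≤ Φ σ) :
    0 ≤ stE π f s Φ k x :=
  integral_nonneg fun p =>
    mul_nonneg (Real.exp_pos _).le (hle _ (post_ok h hne k x p).1 (post_ok h hne k x p).2)

lemma stJ_succ_f (h : Slot2 f s K K') (hN : 0 < N) (hne : ∀ᵐ y ∂π, ∀ i, y i ≠ 0) (k x : ℕ) :
    StInt π f s (fun σ => ent (gam (Fin N)) (term f dir) σ) k x ∧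
      stJ π f s (k + 1) x = stJ π f s k x + stE π f s (fun σ => ent (gam (Fin N)) (term f dir) σ) k x := by
  obtain ⟨hi, he⟩ := stJ_add h hN hne k 1 x 0
  have e : ∀ p, stJ (π.tilted (stH f s k x p)) f s 1 0 =
      ent (gam (Fin N)) (term f dir) (π.tilted (stH f s k x p)) := fun p => by
    have := (post_ok h hne k x p).1
    exact stJ_pattern h
  refine ⟨hi.congr (Eventually.of_forall fun p => by simp only [e]), ?_⟩
  rw [show x + 0 = x from rfl] at he
  simpa only [stE, e] using he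

lemma stJ_le_k (h : Slot2 f s K K') (hN : 0 < N) (hne : ∀ᵐ y ∂π, ∀ i, y i ≠ 0) (k k' x x' : ℕ) :
    stJ π f s k x ≤ stJ π f s (k + k') (x + x') := by
  rw [(stJ_add h hN hne k k' x x').2, le_add_iff_nonneg_right]
  exact stE_nonneg h hne fun σ hσ hσne => stJ_nonneg h hN hσne k' x'

lemma stQ_mem (h : Slot2 f s K K') (hN : 0 < N) (hne : ∀ᵐ y ∂π, ∀ i, y i ≠ 0) (k x : ℕ) :
    stQ π f s k x ∈ Set.Icc (0 : ℝ) 1 :=
  ⟨plq_nonneg, plq_le (nice_state h k x) (ae_mean_stH h hN hne k x) measurable_vDir fun y => vDir_bound y⟩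

lemma stQ_add (h : Slot2 f s K K') (k x P : ℕ) :
    StInt π f s (fun σ => stQ σ f s 0 P) k x ∧
      stQ π f s k (x + P) = stE π f s (fun σ => stQ σ f s 0 P) k x :=
  plq_st_add h measurable_vDir (fun y => vDir_bound y) k 0 x P

lemma stQ_mono (h : Slot2 f s K K') (hN : 0 < N) (hne : ∀ᵐ y ∂π, ∀ i, y i ≠ 0) (k : ℕ) :
    Monotone fun x => stQ π f s k x := by
  refine monotone_nat_of_le_succ fun x => ?_
  rw [(stQ_add (π := π) h k x 1).2]
  exact stE_le h hne (stInt_stat h measurable_vDir (fun y => vDir_bound y) k x) (stQ_add (π := π) h k x 1).1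
    fun σ hσ hσne => plq_ge (nice_state h 0 1) (ae_mean_stH h hN hσne 0 1) measurable_vDir fun y => vDir_bound y

variable (hp : SideOK t a)

include hp

/-- Entropy gain of one side slot in a state. -/
lemma stJ_succ_s (h : Slot2 f (sineF t a) K K') (hN : 0 < N) (hne : ∀ᵐ y ∂π, ∀ i, y i ≠ 0) (k x : ℕ) :
    |stJ π f (sineF t a) k (x + 1) - stJ π f (sineF t a) k x - t ^ 2 / 2 * stQ π f (sineF t a) k x| ≤
      sideErr t a := by
  obtain ⟨hi, he⟩ := stJ_add h hN hne k 0 x 1
  rw [show k + 0 = k from rfl] at he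
  have hQ := stInt_stat (π := π) h measurable_vDir (fun y => vDir_bound y) k x
  have hd := hQ.smul (t ^ 2 / 2)
  have hside : ∀ σ : Measure (Fin N → ℝ), IsProbabilityMeasure σ → (∀ᵐ y ∂σ, ∀ i, y i ≠ 0) →
      |stJ σ f (sineF t a) 0 1 - t ^ 2 / 2 * sqStat vDir σ| ≤ sideErr t a := fun σ hσ hσne => by
    rw [stJ_side h]; exact side_ent hp.ha hp.ha1 hp.ht.le hp.hta hN hσne
  have h1 := stE_le h hne hi (hd.add (stInt_const h (sideErr t a) k x)) fun σ hσ hσne => by
    linarith [(abs_le.1 (hside σ hσ hσne)).2]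
  have h2 := stE_le h hne (hd.add (stInt_const h (-sideErr t a) k x)) hi fun σ hσ hσne => by
    linarith [(abs_le.1 (hside σ hσ hσne)).1]
  rw [stE_add hd (stInt_const h _ k x), stE_smul, stE_const h hN hne] at h1 h2
  change |_ - _ - t ^ 2 / 2 * stE π f (sineF t a) (sqStat vDir) k x| ≤ _
  rw [he, abs_le]
  constructor <;> linarith

/-- Entropy gain of a block of side slots. -/
lemma stJ_block (h : Slot2 f (sineF t a) K K') (hN : 0 < N) (hne : ∀ᵐ y ∂π, ∀ i, y i ≠ 0) (k x : ℕ) :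
    ∀ P : ℕ, (P : ℝ) * (t ^ 2 / 2 * stQ π f (sineF t a) k x - sideErr t a) ≤
        stJ π f (sineF t a) k (x + P) - stJ π f (sineF t a) k x ∧
      stJ π f (sineF t a) k (x + P) - stJ π f (sineF t a) k x ≤
        (P : ℝ) * (t ^ 2 / 2 * stQ π f (sineF t a) k (x + P) + sideErr t a) := by
  intro P
  induction P with
  | zero => simp
  | succ P ih =>
    have hs := abs_le.1 (stJ_succ_s (π := π) hp h hN hne k (x + P))
    have hm : Monotone fun x => stQ π f (sineF t a) k x := stQ_mono h hN hne k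
    have m1 := mul_le_mul_of_nonneg_left (hm (Nat.le_add_right x P)) (show 0 ≤ t ^ 2 / 2 by positivity)
    have m2 := mul_le_mul_of_nonneg_left (hm (Nat.le_succ (x + P))) (show 0 ≤ t ^ 2 / 2 by positivity)
    have m3 := mul_le_mul_of_nonneg_left m2 (show (0 : ℝ) ≤ P + 1 by positivity)
    simp only [Nat.succ_eq_add_one] at m1 m2 m3
    rw [← add_assoc]
    push_cast
    constructor <;> nlinarith [hs.1, hs.2, ih.1, ih.2]

end Vale.Agent.P157.Phase
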