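import Mathlib
import Vale.Agent.P157.Phase.States
import Vale.Agent.P157.Phase.Interfaces

/-!
Concentration of the overlap, on average over the number of side slots.
-/

noncomputable section

open MeasureTheory ProbabilityTheory Filter
open scoped Topology

namespace Vale.Agent.P157.Phase

open Vale.Agent.P157

variable {N : ℕ} {π : Measure (Fin N → ℝ)} [IsProbabilityMeasure π] {f : ℝ → ℝ} {K t a : ℝ}

/-- Fluctuation of the overlap in a state. -/
def stD {N : ℕ} (π : Measure (Fin N → ℝ)) (f s : ℝ → ℝ) (k x : ℕ) : ℝ :=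
  stT π f s k x - stQ π f s k x ^ 2

/-- Bound on the planted variance of the log-partition function. -/
def varBound (K t a : ℝ) (k x : ℕ) : ℝ := k * (2 * K) ^ 2 + x * (2 * (2 * (t / a))) ^ 2

lemma stInt_sq {s : ℝ → ℝ} {K' : ℝ} (h : Slot2 f s K K') (c : ℝ) (k x : ℕ) :
    StInt π f s (fun σ => (sqStat vDir σ - c) ^ 2) k x := by
  refine (integrable_exp_lint (nice_state h k x)).mul_bdd
    (((measurable_sqStat_tilted (nice_state h k x) measurable_vDir).sub_const c).pow_const 2).aestronglyMeasurable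
    (c := (1 + |c|) ^ 2) (Eventually.of_forall fun p => ?_)
  have := isProb_tilted (π := π) ((nice_state h k x).meas_left p) ((nice_state h k x).bound p)
  have h0 := sqStat_nonneg vDir (π.tilted (stH f s k x p))
  have h1 := sqStat_le (π := π.tilted (stH f s k x p)) measurable_vDir fun y => vDir_bound y
  rw [Real.norm_eq_abs, abs_pow]
  exact pow_le_pow_left₀ (abs_nonneg _) ((abs_sub _ _).trans (by rw [abs_of_nonneg h0]; linarith)) 2

lemma stD_split {s : ℝ → ℝ} {K' : ℝ} (h : Slot2 f s K K') (hN : 0 < N)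
    (hne : ∀ᵐ y ∂π, ∀ i, y i ≠ 0) (k x : ℕ) :
    StInt π f s (fun σ => sqStat vDir2 σ - sqStat vDir σ ^ 2) k x ∧
      stD π f s k x = stE π f s (fun σ => sqStat vDir2 σ - sqStat vDir σ ^ 2) k x +
        stE π f s (fun σ => (sqStat vDir σ - stQ π f s k x) ^ 2) k x := by
  have hT := stInt_stat (π := π) h measurable_vDir2 (fun y => vDir2_bound y) k x
  have hq := stInt_stat (π := π) h measurable_vDir (fun y => vDir_bound y) k x
  have hs : StInt π f s (fun σ => sqStat vDir σ ^ 2) k x := by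
    simpa using stInt_sq (π := π) h 0 k x
  have hi : StInt π f s (fun σ => sqStat vDir2 σ - sqStat vDir σ ^ 2) k x :=
    (Integrable.sub' hT hs).congr (Eventually.of_forall fun p => by ring)
  refine ⟨hi, ?_⟩
  obtain ⟨c, hc⟩ : ∃ c, c = stQ π f s k x := ⟨_, rfl⟩
  rw [← stE_add hi (stInt_sq h _ k x), ← hc]
  have e : stE π f s (fun σ => sqStat vDir2 σ - sqStat vDir σ ^ 2 + (sqStat vDir σ - c) ^ 2) k x =
      stE π f s (fun σ => sqStat vDir2 σ + ((-2 * c) * sqStat vDir σ + c ^ 2)) k x := by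
    congr 1; funext σ; ring
  rw [e, stE_add hT ((hq.smul _).add (stInt_const h _ k x)), stE_add (hq.smul _) (stInt_const h _ k x),
    stE_smul, stE_const h hN hne]
  change _ = stT π f s k x + (-2 * c * stQ π f s k x + c ^ 2)
  simp only [stD, ← hc]; ring

/-- The thermal part is paid by the growth of the mean overlap. -/
lemma thermal_le (hp : SideOK t a) (h : Slot2 f (sineF t a) K (2 * (t / a))) (hN : 0 < N)
    (hne : ∀ᵐ y ∂π, ∀ i, y i ≠ 0) {l : ℝ} (hl : 0 < l) (k x : ℕ) :
    stE π f (sineF t a) (fun σ => sqStat vDir2 σ - sqStat vDir σ ^ 2) k x ≤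
      (1 + 1 / l) * (2 / t ^ 2 * (stQ π f (sineF t a) k (x + 1) - stQ π f (sineF t a) k x) + 8 * a ^ 2) + l := by
  obtain ⟨hi1, he1⟩ := stQ_add (π := π) h k x 1
  have hq := stInt_stat (π := π) h measurable_vDir (fun y => vDir_bound y) k x
  obtain ⟨c, hc⟩ : ∃ c, c = (1 + 1 / l) * (2 / t ^ 2) := ⟨_, rfl⟩
  have ht2 : 0 < t ^ 2 := pow_pos hp.ht 2
  have hR : StInt π f (sineF t a) (fun σ => c * stQ σ f (sineF t a) 0 1 +
      ((-c) * sqStat vDir σ + ((1 + 1 / l) * (8 * a ^ 2) + l))) k x :=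
    (hi1.smul c).add ((hq.smul _).add (stInt_const h _ k x))
  have hle := stE_le h hne (stD_split h hN hne k x).1 hR fun σ hσ hσne => by
    have h1 := sqStat2_le (π := σ) l hl
    have h2 := side_gain (π := σ) hp.ha hp.ha1 hp.ht.le hp.hta hN hσne
    rw [← stQ_side h] at h2
    have h3 : covSq σ ≤ 2 / t ^ 2 * (stQ σ f (sineF t a) 0 1 - sqStat vDir σ) + 8 * a ^ 2 := by
      rw [div_mul_eq_mul_div, ← sub_le_iff_le_add, le_div_iff₀ ht2]
      linarith
    have h4 := mul_le_mul_of_nonneg_left h3 (show 0 ≤ 1 + 1 / l by positivity)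
    have e4 : (1 + 1 / l) * covSq σ = covSq σ + covSq σ / l := by ring
    rw [hc]; linarith
  rw [stE_add (hi1.smul c) ((hq.smul _).add (stInt_const h _ k x)), stE_smul,
    stE_add (hq.smul _) (stInt_const h _ k x), stE_smul, stE_const h hN hne, ← he1] at hle
  refine hle.trans (le_of_eq ?_)
  change c * _ + (-c * stQ π f (sineF t a) k x + _) = _
  rw [hc]; ring

/-- The conditional mean entropy of a block is almost constant over states. -/
lemma block_var_le (hv : VarStmt) (hp : SideOK t a) (h : Slot2 f (sineF t a) K (2 * (t / a))) (hN : 0 < N)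
    (hne : ∀ᵐ y ∂π, ∀ i, y i ≠ 0) (hsym : PairSym π) (k x P : ℕ) :
    StInt π f (sineF t a) (fun σ => (stJ σ f (sineF t a) 0 P -
        (stJ π f (sineF t a) k (x + P) - stJ π f (sineF t a) k x)) ^ 2) k x ∧
      stE π f (sineF t a) (fun σ => (stJ σ f (sineF t a) 0 P -
          (stJ π f (sineF t a) k (x + P) - stJ π f (sineF t a) k x)) ^ 2) k x ≤
        2 * varBound K t a k (x + P) + 2 * varBound K t a k x := by
  obtain ⟨s, hs⟩ : ∃ s, s = sineF t a := ⟨_, rfl⟩
  simp only [← hs] at h ⊢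
  have hn := nice_state (N := N) h k x
  have hn' := nice_state (N := N) h 0 P
  have hn2 := hn'.add hn
  obtain ⟨J1, hJ1⟩ : ∃ J, J = stJ π f s k x := ⟨_, rfl⟩
  obtain ⟨J2, hJ2⟩ : ∃ J, J = stJ π f s k (x + P) := ⟨_, rfl⟩
  simp only [← hJ1, ← hJ2]
  have v1 := hv N π inferInstance hN hne hsym f s K _ h.mf h.ms h.bf h.bs h.of h.os k x
  have v2 := hv N π inferInstance hN hne hsym f s K _ h.mf h.ms h.bf h.bs h.of h.os k (x + P)
  simp only [← hJ1] at v1
  simp only [← hJ2] at v2
  set G : ((Fin 0 → Fin N → ℝ) × (Fin P → Fin N → ℝ)) × ((Fin k → Fin N → ℝ) × (Fin x → Fin N → ℝ)) → ℝ :=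
    fun q => Real.exp (lint π fun y => stH f s 0 P q.1 y + stH f s k x q.2 y) *
      ((lint π fun y => stH f s 0 P q.1 y + stH f s k x q.2 y) - J2) ^ 2
  have hGm : Measurable G :=
    (measurable_lint π hn2.meas).exp.mul (((measurable_lint π hn2.meas).sub_const J2).pow_const 2)
  have hGi : Integrable G ((stP N 0 P).prod (stP N k x)) :=
    (integrable_exp_lint hn2).mul_bdd (((measurable_lint π hn2.meas).sub_const J2).pow_const 2).aestronglyMeasurable
      (Eventually.of_forall fun q => by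
        rw [Real.norm_eq_abs, abs_pow]
        exact pow_le_pow_left₀ (abs_nonneg _) ((abs_sub _ _).trans
          (add_le_add (abs_lint_le (hn2.meas_left q) (hn2.bound q)) le_rfl)) 2)
  have hG : ∫ q, G q ∂(stP N 0 P).prod (stP N k x) ≤ varBound K t a k (x + P) := by
    have hφ := measurePreserving_stSplit (N := N) k 0 x P
    rw [← hφ.map_eq, integral_map hφ.measurable.aemeasurable hGm.aestronglyMeasurable]
    simp only [G, ← stH_split]
    exact v2
  have hF : Integrable (fun p => Real.exp (lint π (stH f s k x p)) * (lint π (stH f s k x p) - J1) ^ 2) (stP N k x) :=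
    (integrable_exp_lint hn).mul_bdd (((measurable_lint π hn.meas).sub_const J1).pow_const 2).aestronglyMeasurable
      (Eventually.of_forall fun q => by
        rw [Real.norm_eq_abs, abs_pow]
        exact pow_le_pow_left₀ (abs_nonneg _) ((abs_sub _ _).trans
          (add_le_add (abs_lint_le (hn.meas_left q) (hn.bound q)) le_rfl)) 2)
  have hpt : ∀ᵐ p ∂stP N k x, Real.exp (lint π (stH f s k x p)) *
      (stJ (π.tilted (stH f s k x p)) f s 0 P - (J2 - J1)) ^ 2 ≤
      2 * ∫ p', G (p', p) ∂stP N 0 P +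
        2 * (Real.exp (lint π (stH f s k x p)) * (lint π (stH f s k x p) - J1) ^ 2) := by
    filter_upwards [hGi.prod_left_ae] with p hGp
    obtain ⟨hσ, hσne⟩ := post_ok (π := π) h hne k x p
    set σ := π.tilted (stH f s k x p)
    obtain ⟨L, hL⟩ : ∃ L, L = lint π (stH f s k x p) := ⟨_, rfl⟩
    rw [← hL]
    set ℓ : (Fin 0 → Fin N → ℝ) × (Fin P → Fin N → ℝ) → ℝ := fun p' => lint σ (stH f s 0 P p')
    have hmass : ∫ p', Real.exp (ℓ p') ∂stP N 0 P = 1 := mass_stP h hN hσne 0 P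
    have he : ∀ p', (lint π fun y => stH f s 0 P p' y + stH f s k x p y) = L + ℓ p' := fun p' => by
      rw [hL]
      change _ = _ + lint (π.tilted (stH f s k x p)) (stH f s 0 P p')
      rw [← lint_add (hn.meas_left p) (hn.bound p) (hn'.meas_left p') (hn'.bound p')]
      simp only [add_comm]
    obtain ⟨m, hm⟩ : ∃ m, m = stJ σ f s 0 P - (J2 - J1) := ⟨_, rfl⟩
    rw [← hm]
    have i1 : Integrable (fun p' => Real.exp (ℓ p')) (stP N 0 P) := integrable_exp_lint hn'
    have i2 : Integrable (fun p' => Real.exp (ℓ p') * ℓ p') (stP N 0 P) := integrable_ent hn'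
    have il := (i2.const_mul (2 * m)).sub' (i1.const_mul (2 * m * (J2 - J1) + m ^ 2))
    have e1 : ∫ p', (2 * m * (Real.exp (ℓ p') * ℓ p') - (2 * m * (J2 - J1) + m ^ 2) * Real.exp (ℓ p'))
        ∂stP N 0 P = m ^ 2 := by
      rw [integral_sub (i2.const_mul _) (i1.const_mul _), integral_const_mul, integral_const_mul, hmass]
      change 2 * m * stJ σ f s 0 P - _ = _
      rw [hm]; ring
    have ir : Integrable (fun p' => 2 * (G (p', p) / Real.exp L) + 2 * (L - J1) ^ 2 * Real.exp (ℓ p'))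
        (stP N 0 P) := ((hGp.div_const _).const_mul 2).fun_add (i1.const_mul _)
    have hmono := integral_mono il ir fun p' => by
      simp only [G, he, Real.exp_add]
      rw [mul_assoc (Real.exp L), mul_div_cancel_left₀ _ (Real.exp_pos L).ne']
      have hpoly : 2 * m * ℓ p' - (2 * m * (J2 - J1) + m ^ 2) ≤ 2 * (L + ℓ p' - J2) ^ 2 + 2 * (L - J1) ^ 2 := by
        nlinarith [sq_nonneg (ℓ p' - (J2 - J1) - m), sq_nonneg (L + ℓ p' - J2 + (L - J1))]
      have := mul_le_mul_of_nonneg_left hpoly (Real.exp_pos (ℓ p')).le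
      linarith
    rw [e1, integral_add ((hGp.div_const _).const_mul 2) (i1.const_mul _), integral_const_mul,
      integral_const_mul, integral_div, hmass, mul_one] at hmono
    have := mul_le_mul_of_nonneg_left hmono (Real.exp_pos L).le
    rw [mul_add, ← mul_assoc (Real.exp L), mul_comm (Real.exp L) 2, mul_assoc 2 (Real.exp L),
      mul_div_cancel₀ _ (Real.exp_pos L).ne'] at this
    linarith
  obtain ⟨hi, -⟩ := stJ_add (π := π) h hN hne k 0 x P
  have hint : StInt π f s (fun σ => (stJ σ f s 0 P - (J2 - J1)) ^ 2) k x := by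
    refine Integrable.mono' (((hGi.integral_prod_right).const_mul 2).fun_add (hF.const_mul 2)) ?_ ?_
    · have hms : AEMeasurable (fun p => stJ (π.tilted (stH f s k x p)) f s 0 P) (stP N k x) := by
        have := hi.aemeasurable.div (measurable_lint π hn.meas).exp.aemeasurable
        refine this.congr (Eventually.of_forall fun p => ?_)
        simp only [Pi.div_apply]
        rw [mul_div_cancel_left₀ _ (Real.exp_pos _).ne']
      exact ((measurable_lint π hn.meas).exp.aemeasurable.mul ((hms.sub_const _).pow_const 2)).aestronglyMeasurable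
    · filter_upwards [hpt] with p hp
      rwa [Real.norm_eq_abs, abs_of_nonneg (mul_nonneg (Real.exp_pos _).le (sq_nonneg _))]
  refine ⟨hint, ?_⟩
  refine (integral_mono_ae hint ((hGi.integral_prod_right.const_mul 2).fun_add (hF.const_mul 2)) hpt).trans ?_
  rw [integral_add (hGi.integral_prod_right.const_mul 2) (hF.const_mul 2), integral_const_mul,
    integral_const_mul, ← integral_prod_symm _ hGi]
  have : varBound K t a k x = (k : ℝ) * (2 * K) ^ 2 + x * (2 * (2 * (t / a))) ^ 2 := rfl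
  linarith

/-- The disorder part is paid by a block of side slots. -/
lemma disorder_le (hv : VarStmt) (hp : SideOK t a) (h : Slot2 f (sineF t a) K (2 * (t / a))) (hN : 0 < N)
    (hne : ∀ᵐ y ∂π, ∀ i, y i ≠ 0) (hsym : PairSym π) (k x : ℕ) {P : ℕ} (hP : 0 < P) :
    stE π f (sineF t a) (fun σ => (sqStat vDir σ - stQ π f (sineF t a) k x) ^ 2) k x ≤
      4 * (stQ π f (sineF t a) k (x + P) - stQ π f (sineF t a) k x) + 16 * (sideErr t a / t ^ 2) ^ 2 +
        8 * (2 * varBound K t a k (x + P) + 2 * varBound K t a k x) / ((P : ℝ) * t ^ 2) ^ 2 := by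
  obtain ⟨w, hw⟩ : ∃ w, w = (P : ℝ) * t ^ 2 / 2 := ⟨_, rfl⟩
  have hw0 : 0 < w := by
    have : (0 : ℝ) < P := Nat.cast_pos.2 hP
    have := hp.ht
    rw [hw]; positivity
  obtain ⟨Jd, hJd⟩ : ∃ J, J = stJ π f (sineF t a) k (x + P) - stJ π f (sineF t a) k x := ⟨_, rfl⟩
  obtain ⟨hvi, hvle⟩ := block_var_le (π := π) hv hp h hN hne hsym k x P
  obtain ⟨hdi, hde⟩ := stQ_add (π := π) h k x P
  rw [← hJd] at hvi hvle
  obtain ⟨c, hc⟩ : ∃ c, c = Jd / w := ⟨_, rfl⟩
  have hq := stInt_stat (π := π) h measurable_vDir (fun y => vDir_bound y) k x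
  -- moving the centre to the mean only helps
  have hcentre : stE π f (sineF t a) (fun σ => (sqStat vDir σ - stQ π f (sineF t a) k x) ^ 2) k x ≤
      stE π f (sineF t a) (fun σ => (sqStat vDir σ - c) ^ 2) k x := by
    obtain ⟨Q, hQ⟩ : ∃ Q, Q = stQ π f (sineF t a) k x := ⟨_, rfl⟩
    rw [← hQ]
    have e : (fun σ : Measure (Fin N → ℝ) => (sqStat vDir σ - c) ^ 2) =
        fun σ => (sqStat vDir σ - Q) ^ 2 + (2 * (Q - c) * sqStat vDir σ + ((Q - c) ^ 2 - 2 * (Q - c) * Q)) :=
      funext fun σ => by ring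
    rw [e, stE_add (stInt_sq h Q k x) ((hq.smul _).add (stInt_const h _ k x)),
      stE_add (hq.smul _) (stInt_const h _ k x), stE_smul, stE_const h hN hne]
    change _ ≤ _ + (2 * (Q - c) * stQ π f (sineF t a) k x + _)
    rw [← hQ]; nlinarith [sq_nonneg (Q - c)]
  refine hcentre.trans ?_
  have hR : StInt π f (sineF t a) (fun σ => 4 * stQ σ f (sineF t a) 0 P + ((-4) * sqStat vDir σ +
      ((16 * (sideErr t a / t ^ 2) ^ 2) + 2 / w ^ 2 * (stJ σ f (sineF t a) 0 P - Jd) ^ 2))) k x :=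
    (hdi.smul 4).add ((hq.smul _).add ((stInt_const h _ k x).add (hvi.smul _)))
  refine (stE_le h hne (stInt_sq h c k x) hR fun σ hσ hσne => ?_).trans ?_
  · have hb := stJ_block (π := σ) hp h hN hσne 0 0 P
    rw [zero_add, stJ_zero, stQ_zero, sub_zero] at hb
    have hd0 : sqStat vDir σ ≤ stQ σ f (sineF t a) 0 P :=
      plq_ge (nice_state h 0 P) (ae_mean_stH h hN hσne 0 P) measurable_vDir fun y => vDir_bound y
    have hd1 : stQ σ f (sineF t a) 0 P - sqStat vDir σ ≤ 1 := by
      linarith [(stQ_mem (π := σ) h hN hσne 0 P).2, sqStat_nonneg vDir σ]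
    obtain ⟨m, hm⟩ : ∃ m, m = stJ σ f (sineF t a) 0 P := ⟨_, rfl⟩
    obtain ⟨d, hd⟩ : ∃ d, d = stQ σ f (sineF t a) 0 P - sqStat vDir σ := ⟨_, rfl⟩
    obtain ⟨e', he'⟩ : ∃ e', e' = 2 * (sideErr t a / t ^ 2) := ⟨_, rfl⟩
    rw [← hm] at hb ⊢
    have he0 : 0 ≤ e' := by have := hp.err_nonneg; rw [he']; positivity
    have hwe : (P : ℝ) * sideErr t a = w * e' := by
      rw [hw, he']; field_simp [hp.ht.ne']
    have h1 : |sqStat vDir σ - m / w| ≤ d + e' := by
      rw [show sqStat vDir σ - m / w = (w * sqStat vDir σ - m) / w by field_simp, abs_div,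
        abs_of_pos hw0, div_le_iff₀ hw0, abs_le]
      have f1 : (P : ℝ) * (t ^ 2 / 2 * sqStat vDir σ) = w * sqStat vDir σ := by rw [hw]; ring
      have f2 : (P : ℝ) * (t ^ 2 / 2 * stQ σ f (sineF t a) 0 P) = w * sqStat vDir σ + d * w := by
        rw [hw, hd]; ring
      have f3 := mul_nonneg hw0.le (show 0 ≤ d by linarith)
      constructor <;> linarith [hb.1, hb.2]
    have hsplit : sqStat vDir σ - c = (sqStat vDir σ - m / w) + (m - Jd) / w := by rw [hc]; ring
    have h2 : (sqStat vDir σ - m / w) ^ 2 ≤ (d + e') ^ 2 := by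
      rw [← sq_abs]; exact pow_le_pow_left₀ (abs_nonneg _) h1 2
    have h3 : d ^ 2 ≤ d := by nlinarith [show 0 ≤ d by linarith]
    have h4 : ((m - Jd) / w) ^ 2 = (m - Jd) ^ 2 / w ^ 2 := div_pow _ _ _
    rw [hsplit, show 2 / w ^ 2 * (m - Jd) ^ 2 = 2 * ((m - Jd) / w) ^ 2 by rw [h4]; ring]
    have h5 : (16 : ℝ) * (sideErr t a / t ^ 2) ^ 2 = 4 * e' ^ 2 := by rw [he']; ring
    rw [h5]
    nlinarith [sq_nonneg (sqStat vDir σ - m / w - (m - Jd) / w), sq_nonneg (d - e')]
  rw [stE_add (hdi.smul 4) ((hq.smul _).add ((stInt_const h _ k x).add (hvi.smul _))), stE_smul, ← hde,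
    stE_add (hq.smul _) ((stInt_const h _ k x).add (hvi.smul _)), stE_smul,
    stE_add (stInt_const h _ k x) (hvi.smul _), stE_const h hN hne, stE_smul]
  change 4 * _ + (-4 * stQ π f (sineF t a) k x + _) ≤ _
  have hw2 : 2 / w ^ 2 = 8 / ((P : ℝ) * t ^ 2) ^ 2 := by rw [hw]; field_simp; ring
  have := mul_le_mul_of_nonneg_left hvle (show 0 ≤ 2 / w ^ 2 by positivity)
  rw [hw2] at this
  rw [hw2]
  simp only [div_mul_eq_mul_div] at this ⊢
  linarith

/-- Averaged over the number of side slots the overlap concentrates. -/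
theorem sum_stD_le (hv : VarStmt) (hp : SideOK t a) (h : Slot2 f (sineF t a) K (2 * (t / a))) (hN : 0 < N)
    (hne : ∀ᵐ y ∂π, ∀ i, y i ≠ 0) (hsym : PairSym π) (k X : ℕ) {P : ℕ} (hP : 0 < P) {l : ℝ} (hl : 0 < l) :
    ∑ x ∈ Finset.range X, stD π f (sineF t a) k x ≤
      (1 + 1 / l) * (2 / t ^ 2 + 8 * a ^ 2 * X) + l * X + 4 * P + 16 * (sideErr t a / t ^ 2) ^ 2 * X +
        32 * varBound K t a k (X + P) / ((P : ℝ) * t ^ 2) ^ 2 * X := by
  obtain ⟨Q, hQ⟩ : ∃ Q : ℕ → ℝ, Q = fun x => stQ π f (sineF t a) k x := ⟨_, rfl⟩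
  have hQ' : ∀ x, stQ π f (sineF t a) k x = Q x := fun x => by rw [hQ]
  have h01 : ∀ x, Q x ∈ Set.Icc (0 : ℝ) 1 := fun x => hQ' x ▸ stQ_mem h hN hne k x
  have hvmono : ∀ x, x ≤ X + P → varBound K t a k x ≤ varBound K t a k (X + P) := fun x hx => by
    unfold varBound
    have : (x : ℝ) ≤ ((X + P : ℕ) : ℝ) := Nat.cast_le.2 hx
    gcongr
  have hx : ∀ x ∈ Finset.range X, stD π f (sineF t a) k x ≤
      (1 + 1 / l) * (2 / t ^ 2) * (Q (x + 1) - Q x) + 4 * (Q (x + P) - Q x) +
        ((1 + 1 / l) * (8 * a ^ 2) + l + 16 * (sideErr t a / t ^ 2) ^ 2 +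
          32 * varBound K t a k (X + P) / ((P : ℝ) * t ^ 2) ^ 2) := fun x hx => by
    rw [Finset.mem_range] at hx
    have h1 := thermal_le (π := π) hp h hN hne hl k x
    have h2 := disorder_le (π := π) hv hp h hN hne hsym k x hP
    rw [(stD_split h hN hne k x).2]
    simp only [hQ'] at h1 h2 ⊢
    have h3 : 8 * (2 * varBound K t a k (x + P) + 2 * varBound K t a k x) / ((P : ℝ) * t ^ 2) ^ 2 ≤
        32 * varBound K t a k (X + P) / ((P : ℝ) * t ^ 2) ^ 2 :=
      div_le_div_of_nonneg_right (by linarith [hvmono (x + P) (by omega), hvmono x (by omega)]) (sq_nonneg _)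
    linarith
  refine (Finset.sum_le_sum hx).trans ?_
  rw [Finset.sum_add_distrib, Finset.sum_add_distrib, ← Finset.mul_sum, ← Finset.mul_sum,
    Finset.sum_range_sub Q, Finset.sum_const, Finset.card_range, nsmul_eq_mul]
  have hblock : ∑ x ∈ Finset.range X, (Q (x + P) - Q x) ≤ (P : ℝ) := by
    have e : ∑ x ∈ Finset.range X, (Q (x + P) - Q x) =
        ∑ i ∈ Finset.range P, (Q (X + i) - Q i) := by
      have a1 := Finset.sum_range_add Q X P
      have a2 := Finset.sum_range_add Q P X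
      rw [Nat.add_comm P X] at a2
      have a3 : ∑ x ∈ Finset.range X, Q (x + P) = ∑ x ∈ Finset.range X, Q (P + x) :=
        Finset.sum_congr rfl fun x _ => by rw [Nat.add_comm]
      simp only [Finset.sum_sub_distrib]
      linarith
    rw [e]
    refine (Finset.sum_le_sum fun i _ => show Q (X + i) - Q i ≤ 1 by
      linarith [(h01 (X + i)).2, (h01 i).1]).trans_eq ?_
    simp
  have hfirst : (1 + 1 / l) * (2 / t ^ 2) * (Q X - Q 0) ≤ (1 + 1 / l) * (2 / t ^ 2) := by
    refine mul_le_of_le_one_right ?_ (by linarith [(h01 X).2, (h01 0).1])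
    have := hp.ht; positivity
  linarith

end Vale.Agent.P157.Phase
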