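import Mathlib
import Vale.Agent.P157.Phase.Interfaces

/-!
The statement proved by the adaptive interpolation.
-/

noncomputable section

open MeasureTheory ProbabilityTheory Filter
open scoped Topology

namespace Vale.Agent.P157.Phase

open Vale.Agent.P157

/-- The scalar condition decides whether the planted entropy is sublinear. -/
def AdaptStmt : Prop :=
  ∀ (ρ : Measure ℝ), IsProbabilityMeasure ρ → ρ {0} = 0 →
    (∀ N : ℕ, PairSym (Measure.pi fun _ : Fin N => ρ)) →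
    ∀ ψ : ℝ → ℝ, BaseStmt ρ ψ →
    ∀ (f : ℝ → ℝ) (K : ℝ), Measurable f → (∀ z, |f z| ≤ K) → ∫ z, Real.exp (f z) ∂gam1 = 1 →
    ∀ α : ℝ, 0 < α →
      ((∀ q ∈ Set.Ico (0 : ℝ) 1, ∀ ε > 0, ∃ r ≥ (0 : ℝ), α * psiP f q ≤ r * q / 2 - ψ r + ε) →
        ∀ δ > 0, ∀ᶠ N : ℕ in atTop, planted ρ f N ⌊α * N⌋₊ ≤ δ * N) ∧
      ((∃ q ∈ Set.Ico (0 : ℝ) 1, ∃ ε > 0, ∀ r ≥ (0 : ℝ), r * q / 2 - ψ r + ε < α * psiP f q) →
        ∃ δ > 0, ∀ᶠ N : ℕ in atTop, δ * N ≤ planted ρ f N ⌊α * N⌋₊)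

end Vale.Agent.P157.Phase
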