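import Mathlib
import Vale.Agent.P157.Phase.Conc
import Vale.Agent.P157.Phase.Goal

/-!
Adaptive paths of side slots at a fixed dimension.
-/

noncomputable section

open MeasureTheory ProbabilityTheory Filter
open scoped Topology

namespace Vale.Agent.P157.Phase

open Vale.Agent.P157

variable {N : ℕ} {π : Measure (Fin N → ℝ)} [IsProbabilityMeasure π] {f : ℝ → ℝ} {K t a : ℝ}

lemma sum_injOn_le {h : ℕ → ℝ} (h0 : ∀ x, 0 ≤ h x) {g : ℕ → ℕ} (hg : StrictMono g) {L X : ℕ}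
    (hX : ∀ l < L, g l < X) : ∑ l ∈ Finset.range L, h (g l) ≤ ∑ x ∈ Finset.range X, h x := by
  rw [← Finset.sum_image fun i _ j _ hij => hg.injective hij]
  refine Finset.sum_le_sum_of_subset_of_nonneg (fun x hx => ?_) fun x _ _ => h0 x
  obtain ⟨l, hl, rfl⟩ := Finset.mem_image.1 hx
  exact Finset.mem_range.2 (hX l (Finset.mem_range.1 hl))

/-- Slots used to trade one of `M` patterns at side strength `r`. -/
def blockSize (r t : ℝ) (N M : ℕ) : ℕ := ⌊r * N / (M * t ^ 2)⌋₊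

lemma blockSize_le {r t : ℝ} (hr : 0 ≤ r) {N M : ℕ} (hM : 0 < M) (ht : 0 < t) :
    (M : ℝ) * blockSize r t N M ≤ r * N / t ^ 2 ∧
      r * N / t ^ 2 ≤ (M : ℝ) * blockSize r t N M + M := by
  have hM' : (0 : ℝ) < M := Nat.cast_pos.2 hM
  have h1 := Nat.floor_le (show 0 ≤ r * N / (M * t ^ 2) by positivity)
  have h2 := Nat.lt_floor_add_one (r * N / (M * t ^ 2))
  have e : (M : ℝ) * (r * N / (M * t ^ 2)) = r * N / t ^ 2 := by field_simp
  have g1 := mul_le_mul_of_nonneg_left h1 hM'.le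
  have g2 := mul_le_mul_of_nonneg_left h2.le hM'.le
  rw [e] at g1 g2
  unfold blockSize
  constructor <;> linarith

lemma stD_nonneg {s : ℝ → ℝ} {K' : ℝ} (h : Slot2 f s K K') (hN : 0 < N)
    (hne : ∀ᵐ y ∂π, ∀ i, y i ≠ 0) (k x : ℕ) : 0 ≤ stD π f s k x := by
  rw [(stD_split h hN hne k x).2]
  refine add_nonneg (stE_nonneg h hne fun σ hσ hσne => ?_) (stE_nonneg h hne fun σ _ _ => sq_nonneg _)
  rw [← ovlSq_eq_sqStat, ← integral_ovl_eq_sq, sub_nonneg]
  have hi : Integrable (fun p : (Fin N → ℝ) × (Fin N → ℝ) => ovl p) (σ.prod σ) :=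
    integrable_of_abs_le (K := 1) measurable_ovl abs_ovl_le
  have hi2 : Integrable (fun p : (Fin N → ℝ) × (Fin N → ℝ) => ovl p ^ 2) (σ.prod σ) :=
    integrable_of_abs_le (K := 1) (measurable_ovl.pow_const 2) abs_ovl_le_one
  set m := ∫ p, ovl p ∂σ.prod σ
  have h0 : 0 ≤ ∫ p, (ovl p ^ 2 - 2 * m * ovl p + m ^ 2) ∂σ.prod σ := integral_nonneg fun p => by
    simp only [Pi.zero_apply]; nlinarith [sq_nonneg (ovl p - m)]
  rw [integral_add (hi2.sub' (hi.const_mul _)) (integrable_const _), integral_sub hi2 (hi.const_mul _),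
    integral_const_mul] at h0
  simp only [integral_const, probReal_univ, smul_eq_mul, one_mul] at h0
  change m ^ 2 ≤ ∫ p, ovl p ^ 2 ∂σ.prod σ
  linarith

/-- Gain of one pattern in a state. -/
lemma pattern_step {s : ℝ → ℝ} {K' : ℝ} (h : Slot2 f s K K') (hN : 0 < N)
    (hne : ∀ᵐ y ∂π, ∀ i, y i ≠ 0) {ε C : ℝ}
    (hC : ∀ σ : Measure (Fin N → ℝ), IsProbabilityMeasure σ → (∀ᵐ y ∂σ, ∀ i, y i ≠ 0) →
      ∀ c ∈ Set.Icc (0 : ℝ) 1, |ent (gam (Fin N)) (term f dir) σ - psiP f c| ≤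
        ε + C * (ovlSq σ - 2 * c * sqStat vDir σ + c ^ 2)) (k x : ℕ) :
    |stJ π f s (k + 1) x - stJ π f s k x - psiP f (stQ π f s k x)| ≤ ε + C * stD π f s k x := by
  obtain ⟨hi, he⟩ := stJ_succ_f (π := π) h hN hne k x
  obtain ⟨c, hc⟩ : ∃ c, c = stQ π f s k x := ⟨_, rfl⟩
  have hc01 : c ∈ Set.Icc (0 : ℝ) 1 := hc ▸ stQ_mem h hN hne k x
  rw [← hc]
  have hT := stInt_stat (π := π) h measurable_vDir2 (fun y => vDir2_bound y) k x
  have hq := stInt_stat (π := π) h measurable_vDir (fun y => vDir_bound y) k x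
  have hr1 : StInt π f s (fun σ => C * sqStat vDir2 σ +
      ((-(2 * C * c)) * sqStat vDir σ + (ε + C * c ^ 2 + psiP f c))) k x :=
    (hT.smul C).add ((hq.smul _).add (stInt_const h _ k x))
  have hr2 : StInt π f s (fun σ => (-C) * sqStat vDir2 σ +
      ((2 * C * c) * sqStat vDir σ + (psiP f c - ε - C * c ^ 2))) k x :=
    (hT.smul _).add ((hq.smul _).add (stInt_const h _ k x))
  have h1 := stE_le h hne hi hr1 fun σ hσ hσne => by
    have := abs_le.1 (hC σ hσ hσne c hc01)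
    rw [ovlSq_eq_sqStat] at this
    linarith [this.2]
  have h2 := stE_le h hne hr2 hi fun σ hσ hσne => by
    have := abs_le.1 (hC σ hσ hσne c hc01)
    rw [ovlSq_eq_sqStat] at this
    linarith [this.1]
  rw [stE_add (hT.smul _) ((hq.smul _).add (stInt_const h _ k x)), stE_smul,
    stE_add (hq.smul _) (stInt_const h _ k x), stE_smul, stE_const h hN hne] at h1 h2
  have eT : stE π f s (sqStat vDir2) k x = stD π f s k x + c ^ 2 := by rw [stD, hc]; unfold stT plq stE; ring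
  have eQ : stE π f s (sqStat vDir) k x = c := hc ▸ rfl
  rw [eT, eQ] at h1 h2
  rw [he, abs_le]
  constructor <;> linarith

/-- A supporting line of the side entropy. -/
lemma stJ_line (hp : SideOK t a) (h : Slot2 f (sineF t a) K (2 * (t / a))) (hN : 0 < N)
    (hne : ∀ᵐ y ∂π, ∀ i, y i ≠ 0) (k X y : ℕ) :
    stJ π f (sineF t a) k X + t ^ 2 / 2 * stQ π f (sineF t a) k X * ((y : ℝ) - X) -
      |(y : ℝ) - X| * sideErr t a ≤ stJ π f (sineF t a) k y := by
  rcases le_total X y with hy | hy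
  · obtain ⟨d, rfl⟩ := Nat.exists_eq_add_of_le hy
    have := (stJ_block (π := π) hp h hN hne k X d).1
    push_cast
    rw [add_sub_cancel_left, abs_of_nonneg (Nat.cast_nonneg d)]
    linarith
  · obtain ⟨d, rfl⟩ := Nat.exists_eq_add_of_le hy
    have := (stJ_block (π := π) hp h hN hne k y d).2
    push_cast
    rw [show (y : ℝ) - ((y : ℝ) + d) = -(d : ℝ) by ring, abs_neg, abs_of_nonneg (Nat.cast_nonneg d)]
    linarith

lemma stJ_prefix_le (hp : SideOK t a) (h : Slot2 f (sineF t a) K (2 * (t / a))) (hN : 0 < N)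
    (hne : ∀ᵐ y ∂π, ∀ i, y i ≠ 0) (k x ℓ : ℕ) :
    stJ π f (sineF t a) k (x + ℓ) ≤ stJ π f (sineF t a) k x + ℓ * (t ^ 2 / 2 + sideErr t a) := by
  have h1 := (stJ_block (π := π) hp h hN hne k x ℓ).2
  have h2 := mul_le_mul_of_nonneg_left (mul_le_mul_of_nonneg_left
    (stQ_mem (π := π) h hN hne k (x + ℓ)).2 (show 0 ≤ t ^ 2 / 2 by positivity)) (Nat.cast_nonneg (α := ℝ) ℓ)
  linarith

/-- Bound on the summed fluctuations of a row of states. -/
def rowBound (K t a l : ℝ) (M X P₀ : ℕ) : ℝ :=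
  (1 + 1 / l) * (2 / t ^ 2 + 8 * a ^ 2 * X) + l * X + 4 * P₀ + 16 * (sideErr t a / t ^ 2) ^ 2 * X +
    32 * varBound K t a M (X + P₀) / ((P₀ : ℝ) * t ^ 2) ^ 2 * X

lemma row_le (hv : VarStmt) (hp : SideOK t a) (h : Slot2 f (sineF t a) K (2 * (t / a))) (hN : 0 < N)
    (hne : ∀ᵐ y ∂π, ∀ i, y i ≠ 0) (hsym : PairSym π) {k M : ℕ} (hk : k ≤ M) (X : ℕ) {P₀ : ℕ} (hP : 0 < P₀)
    {l : ℝ} (hl : 0 < l) :
    ∑ x ∈ Finset.range X, stD π f (sineF t a) k x ≤ rowBound K t a l M X P₀ := by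
  have hkM : (k : ℝ) ≤ M := Nat.cast_le.2 hk
  refine (sum_stD_le hv hp h hN hne hsym k X hP hl).trans ?_
  unfold rowBound varBound
  gcongr

/-- Slots used after `i` trades from the start `ℓ`. -/
def pathX (step : ℕ → ℕ → ℕ) (ℓ : ℕ) : ℕ → ℕ
  | 0 => ℓ
  | i + 1 => pathX step ℓ i + step i (pathX step ℓ i)

lemma pathX_strictMono {step : ℕ → ℕ → ℕ} (hs : ∀ i, Monotone (step i)) :
    ∀ i, StrictMono fun ℓ => pathX step ℓ i := by
  intro i
  induction i with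
  | zero => exact fun a b h => h
  | succ i ih =>
    intro a b h
    exact add_lt_add_of_lt_of_le (ih h) (hs i (ih h).le)

lemma pathX_eq_sum (step : ℕ → ℕ → ℕ) (ℓ : ℕ) :
    ∀ i, pathX step ℓ i = ℓ + ∑ j ∈ Finset.range i, step j (pathX step ℓ j) := by
  intro i
  induction i with
  | zero => simp [pathX]
  | succ i ih => rw [pathX, Finset.sum_range_succ, ← add_assoc, ← ih]

/-- Upper bound: trade each pattern against an adapted block of side slots. -/
theorem upper_N (hv : VarStmt) (hp : SideOK t a) (h : Slot2 f (sineF t a) K (2 * (t / a))) (hN : 0 < N)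
    (hne : ∀ᵐ y ∂π, ∀ i, y i ≠ 0) (hsym : PairSym π) {ε C : ℝ} (hC0 : 0 ≤ C)
    (hC : ∀ σ : Measure (Fin N → ℝ), IsProbabilityMeasure σ → (∀ᵐ y ∂σ, ∀ i, y i ≠ 0) →
      ∀ c ∈ Set.Icc (0 : ℝ) 1, |ent (gam (Fin N)) (term f dir) σ - psiP f c| ≤
        ε + C * (ovlSq σ - 2 * c * sqStat vDir σ + c ^ 2))
    (hψ0 : ∀ q ∈ Set.Icc (0 : ℝ) 1, 0 ≤ psiP f q)
    {α η R : ℝ} {ψ : ℝ → ℝ} {rs : ℝ → ℝ} (hmono : Monotone rs) (hrs : ∀ Q, rs Q ∈ Set.Icc 0 R)
    (hcov : ∀ Q ∈ Set.Icc (0 : ℝ) 1, α * psiP f Q ≤ rs Q * Q / 2 - ψ (rs Q) + η)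
    (hbase : ∀ Q, stJ π f (sineF t a) 0 ⌊rs Q * (N : ℝ) / t ^ 2⌋₊ ≤ N * (ψ (rs Q) + η))
    {M : ℕ} (hM : 0 < M) (hMα : (M : ℝ) ≤ α * N) {L : ℕ} (hL : 0 < L) {P₀ : ℕ} (hP : 0 < P₀)
    {l : ℝ} (hl : 0 < l) :
    stJ π f (sineF t a) M 0 ≤ 2 * η * N + ε * M + M * (t ^ 2 / 2) + 2 * (R * N / t ^ 2) * sideErr t a +
      L * (t ^ 2 / 2 + sideErr t a) + C * M * rowBound K t a l M (L + ⌊R * (N : ℝ) / t ^ 2⌋₊) P₀ / L := by
  obtain ⟨J, hJ⟩ : ∃ J : ℕ → ℕ → ℝ, J = stJ π f (sineF t a) := ⟨_, rfl⟩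
  obtain ⟨Q, hQ⟩ : ∃ Q : ℕ → ℕ → ℝ, Q = stQ π f (sineF t a) := ⟨_, rfl⟩
  obtain ⟨D, hD⟩ : ∃ D : ℕ → ℕ → ℝ, D = stD π f (sineF t a) := ⟨_, rfl⟩
  have ht2 : 0 < t ^ 2 := pow_pos hp.ht 2
  have hM' : (0 : ℝ) < M := Nat.cast_pos.2 hM
  have hN' : (0 : ℝ) < N := Nat.cast_pos.2 hN
  set step : ℕ → ℕ → ℕ := fun i x => blockSize (rs (Q (M - 1 - i) x)) t N M
  have hQm : ∀ k, Monotone (Q k) := fun k => hQ ▸ stQ_mono h hN hne k
  have hstep : ∀ i, Monotone (step i) := fun i x y hxy => by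
    refine Nat.floor_le_floor (div_le_div_of_nonneg_right ?_ (by positivity))
    exact mul_le_mul_of_nonneg_right (hmono (hQm _ hxy)) hN'.le
  set X := L + ⌊R * (N : ℝ) / t ^ 2⌋₊
  have hblk : ∀ i x, (M : ℝ) * step i x ≤ rs (Q (M - 1 - i) x) * N / t ^ 2 :=
    fun i x => (blockSize_le (hrs _).1 hM hp.ht).1
  have hsumP : ∀ ℓ i, i ≤ M → pathX step ℓ i ≤ ℓ + ⌊R * (N : ℝ) / t ^ 2⌋₊ := fun ℓ i hi => by
    rw [pathX_eq_sum]
    refine Nat.add_le_add_left ((Nat.le_floor_iff (by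
      have := (hrs 0).1.trans (hrs 0).2; positivity)).2 ?_) ℓ
    push_cast
    have hj : ∀ j ∈ Finset.range i, (step j (pathX step ℓ j) : ℝ) ≤ R * N / t ^ 2 / M := fun j _ => by
      rw [le_div_iff₀ hM', mul_comm]
      exact (hblk _ _).trans (div_le_div_of_nonneg_right
        (mul_le_mul_of_nonneg_right (hrs _).2 hN'.le) ht2.le)
    refine (Finset.sum_le_sum hj).trans ?_
    rw [Finset.sum_const, Finset.card_range, nsmul_eq_mul]
    refine (mul_le_mul_of_nonneg_right (Nat.cast_le.2 hi) (div_nonneg (div_nonneg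
      (mul_nonneg ((hrs 0).1.trans (hrs 0).2) hN'.le) ht2.le) hM'.le)).trans (le_of_eq ?_)
    field_simp
  have hℓ : ∀ ℓ < L, J M 0 ≤ 2 * η * N + ε * M + M * (t ^ 2 / 2) +
      2 * (R * N / t ^ 2) * sideErr t a + L * (t ^ 2 / 2 + sideErr t a) +
      C * ∑ i ∈ Finset.range M, D (M - 1 - i) (pathX step ℓ i) := by
    intro ℓ hℓ
    set x : ℕ → ℕ := pathX step ℓ
    set P : ℕ → ℕ := fun i => step i (x i)
    set r : ℕ → ℝ := fun i => rs (Q (M - 1 - i) (x i))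
    have hrec : ∀ i ∈ Finset.range M, J (M - i) (x i) - J (M - (i + 1)) (x (i + 1)) ≤
        ε + C * D (M - 1 - i) (x i) + t ^ 2 / 2 + (P i : ℝ) * sideErr t a +
          (N : ℝ) / M * η - (N : ℝ) / M * ψ (r i) := by
      intro i hi
      rw [Finset.mem_range] at hi
      obtain ⟨k, hk⟩ : ∃ k, k = M - 1 - i := ⟨_, rfl⟩
      rw [show M - i = k + 1 by omega, show M - (i + 1) = k by omega, ← hk]
      have h1 := (abs_le.1 (pattern_step (π := π) h hN hne hC k (x i))).2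
      have h2 := (stJ_block (π := π) hp h hN hne k (x i) (P i)).1
      rw [← hJ, ← hQ, ← hD] at h1
      rw [← hJ, ← hQ] at h2
      have hx : x (i + 1) = x i + P i := rfl
      rw [hx]
      have hQ01 : Q k (x i) ∈ Set.Icc (0 : ℝ) 1 := hQ ▸ stQ_mem h hN hne k (x i)
      have hcv := hcov _ hQ01
      have hr : r i = rs (Q k (x i)) := by simp only [r, hk]
      rw [← hr] at hcv
      have hP2 : r i * N / t ^ 2 ≤ (M : ℝ) * P i + M := by
        have := (blockSize_le (N := N) (hrs (Q (M - 1 - i) (x i))).1 hM hp.ht).2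
        simpa only [P, step, r] using this
      have g1 := mul_le_mul_of_nonneg_right hMα (hψ0 _ hQ01)
      have g2 := mul_le_mul_of_nonneg_left hcv hN'.le
      have g3 := mul_le_mul_of_nonneg_right hP2 (show 0 ≤ t ^ 2 / 2 * Q k (x i) by
        exact mul_nonneg (by positivity) hQ01.1)
      have g4 := mul_le_mul_of_nonneg_left hQ01.2 (show 0 ≤ (M : ℝ) * (t ^ 2 / 2) by positivity)
      have e3 : r i * N / t ^ 2 * (t ^ 2 / 2 * Q k (x i)) = N * (r i * Q k (x i) / 2) := by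
        rw [← mul_assoc, ← mul_div_assoc, div_mul_cancel₀ _ ht2.ne']
        ring
      rw [e3] at g3
      obtain ⟨Δ, hΔ⟩ : ∃ Δ, Δ = psiP f (Q k (x i)) - (P i : ℝ) * (t ^ 2 / 2 * Q k (x i)) := ⟨_, rfl⟩
      have hMΔ : (M : ℝ) * Δ ≤ M * (t ^ 2 / 2) + N * η - N * ψ (r i) := by rw [hΔ]; linarith
      have hΔ' : Δ ≤ t ^ 2 / 2 + (N : ℝ) / M * η - (N : ℝ) / M * ψ (r i) := by
        refine le_of_mul_le_mul_left (hMΔ.trans (le_of_eq ?_)) hM'
        field_simp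
      linarith
    have htel := Finset.sum_le_sum hrec
    rw [Finset.sum_range_sub' (fun i => J (M - i) (x i)) M] at htel
    simp only [Nat.sub_zero, Nat.sub_self, Finset.sum_add_distrib, Finset.sum_sub_distrib, Finset.sum_const,
      Finset.card_range, nsmul_eq_mul, ← Finset.mul_sum, ← Finset.sum_mul] at htel
    -- the side-only state at the end
    obtain ⟨S, hS⟩ : ∃ S, S = ∑ i ∈ Finset.range M, P i := ⟨_, rfl⟩
    have hxM : x M = S + ℓ := by
      rw [hS, add_comm]; exact pathX_eq_sum step ℓ M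
    have hS' : (S : ℝ) ≤ R * N / t ^ 2 := by
      have := hsumP 0 M le_rfl
      have h' := hsumP ℓ M le_rfl
      change x M ≤ _ at h'
      rw [hxM] at h'
      refine le_trans (Nat.cast_le.2 (show S ≤ ⌊R * (N : ℝ) / t ^ 2⌋₊ by omega)) (Nat.floor_le ?_)
      have := (hrs 0).1.trans (hrs 0).2; positivity
    have hend : J 0 (x M) ≤ J 0 S + L * (t ^ 2 / 2 + sideErr t a) := by
      rw [hxM, hJ]
      refine (stJ_prefix_le hp h hN hne 0 S ℓ).trans ?_
      have := mul_le_mul_of_nonneg_right (Nat.cast_le (α := ℝ).2 hℓ.le)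
        (show 0 ≤ t ^ 2 / 2 + sideErr t a by linarith [hp.err_nonneg])
      linarith
    have hconv : (M : ℝ) * J 0 S ≤ N * ∑ i ∈ Finset.range M, ψ (r i) + N * η * M +
        M * (R * N / t ^ 2) * sideErr t a := by
      have hi : ∀ i ∈ Finset.range M, J 0 S + t ^ 2 / 2 * Q 0 S * (((M * P i : ℕ) : ℝ) - S) -
          R * N / t ^ 2 * sideErr t a ≤ N * ψ (r i) + N * η := fun i _ => by
        have hb : ((M * P i : ℕ) : ℝ) ≤ r i * N / t ^ 2 := by push_cast; exact hblk i (x i)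
        have h1 := stJ_line (π := π) hp h hN hne 0 S (M * P i)
        have h2 : stJ π f (sineF t a) 0 (M * P i) ≤ stJ π f (sineF t a) 0 ⌊r i * (N : ℝ) / t ^ 2⌋₊ := by
          obtain ⟨d, hd⟩ := Nat.exists_eq_add_of_le ((Nat.le_floor_iff (by
            have := (hrs (Q (M - 1 - i) (x i))).1; positivity)).2 hb)
          rw [hd]; exact stJ_le_k h hN hne 0 0 (M * P i) d
        have h3 : |((M * P i : ℕ) : ℝ) - S| ≤ R * N / t ^ 2 := by
          have hbR : ((M * P i : ℕ) : ℝ) ≤ R * N / t ^ 2 := hb.trans (div_le_div_of_nonneg_right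
            (mul_le_mul_of_nonneg_right (hrs _).2 hN'.le) ht2.le)
          rw [abs_le]; constructor <;> linarith [Nat.cast_nonneg (α := ℝ) (M * P i), Nat.cast_nonneg (α := ℝ) S]
        have h4 := mul_le_mul_of_nonneg_right h3 hp.err_nonneg
        have h5 := hbase (Q (M - 1 - i) (x i))
        change _ ≤ (N : ℝ) * (ψ (r i) + η) at h5
        rw [hJ, hQ]
        linarith
      have := Finset.sum_le_sum hi
      simp only [Finset.sum_add_distrib, Finset.sum_sub_distrib, Finset.sum_const, Finset.card_range,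
        nsmul_eq_mul, ← Finset.mul_sum] at this
      have e : ∑ i ∈ Finset.range M, ((M * P i : ℕ) : ℝ) = (M : ℝ) * S := by
        rw [hS]; push_cast; rw [Finset.mul_sum]
      rw [e] at this
      linarith
    have hconv' : J 0 S ≤ (N : ℝ) / M * ∑ i ∈ Finset.range M, ψ (r i) + N * η +
        R * N / t ^ 2 * sideErr t a := by
      refine le_of_mul_le_mul_left (hconv.trans (le_of_eq ?_)) hM'
      field_simp
    have hx0 : J M 0 ≤ J M (x 0) := by
      rw [show x 0 = ℓ from rfl, hJ]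
      simpa using stJ_le_k (π := π) h hN hne M 0 0 ℓ
    have hPe : (∑ i ∈ Finset.range M, (P i : ℝ)) * sideErr t a ≤ R * N / t ^ 2 * sideErr t a := by
      refine mul_le_mul_of_nonneg_right ?_ hp.err_nonneg
      rw [hS] at hS'; push_cast at hS'; exact hS'
    have eN : (M : ℝ) * ((N : ℝ) / M * η) = N * η := by field_simp
    linarith
  have havg := Finset.sum_le_sum (f := fun _ : ℕ => J M 0) fun ℓ (hℓ' : ℓ ∈ Finset.range L) =>
    hℓ ℓ (Finset.mem_range.1 hℓ')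
  simp only [Finset.sum_add_distrib, Finset.sum_const, Finset.card_range, nsmul_eq_mul,
    ← Finset.mul_sum] at havg
  rw [Finset.sum_comm] at havg
  have hrows : ∑ i ∈ Finset.range M, ∑ ℓ ∈ Finset.range L, D (M - 1 - i) (pathX step ℓ i) ≤
      (M : ℝ) * rowBound K t a l M X P₀ := by
    refine (Finset.sum_le_sum (g := fun _ => rowBound K t a l M X P₀) fun i hi => ?_).trans_eq (by simp)
    rw [Finset.mem_range] at hi
    rw [hD]
    refine (sum_injOn_le (fun x => stD_nonneg h hN hne _ x) (pathX_strictMono hstep i) (X := X)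
      fun ℓ hℓ => ?_).trans (row_le hv hp h hN hne hsym (by omega) X hP hl)
    have := hsumP ℓ i hi.le
    simp only [X]; omega
  have hL' : (0 : ℝ) < L := Nat.cast_pos.2 hL
  have := mul_le_mul_of_nonneg_left hrows hC0
  rw [← hJ]
  refine le_of_mul_le_mul_left (?_ : (L : ℝ) * J M 0 ≤ _) hL'
  rw [mul_add, mul_div_cancel₀ _ hL'.ne']
  linarith

/-- Lower bound: trade each pattern against a fixed block along a supporting line. -/
theorem lower_N (hv : VarStmt) (hp : SideOK t a) (h : Slot2 f (sineF t a) K (2 * (t / a))) (hN : 0 < N)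
    (hne : ∀ᵐ y ∂π, ∀ i, y i ≠ 0) (hsym : PairSym π) {ε C : ℝ} (hC0 : 0 ≤ C)
    (hC : ∀ σ : Measure (Fin N → ℝ), IsProbabilityMeasure σ → (∀ᵐ y ∂σ, ∀ i, y i ≠ 0) →
      ∀ c ∈ Set.Icc (0 : ℝ) 1, |ent (gam (Fin N)) (term f dir) σ - psiP f c| ≤
        ε + C * (ovlSq σ - 2 * c * sqStat vDir σ + c ^ 2))
    {α η q p v : ℝ} (hp0 : 0 ≤ p) (hα : 0 < α)
    (hline : ∀ Q ∈ Set.Icc (0 : ℝ) 1, psiP f q + p * (Q - q) ≤ psiP f Q)
    (hbase : (N : ℝ) * (v - η) ≤ stJ π f (sineF t a) 0 ⌊2 * α * p * (N : ℝ) / t ^ 2⌋₊)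
    {M : ℕ} (hM : 0 < M) (hMα : (M : ℝ) ≤ α * N) (hMα' : α * N ≤ M + 1) {L : ℕ} (hL : 0 < L) {P₀ : ℕ}
    (hP : 0 < P₀) {l : ℝ} (hl : 0 < l) :
    (N : ℝ) * (v + α * psiP f q - α * p * q - η) - |psiP f q - p * q| - p - ε * M -
        M * (t ^ 2 / 2 + sideErr t a) - 2 * α * p * N / t ^ 2 * sideErr t a -
        L * (t ^ 2 / 2 + sideErr t a) - p * (2 * α * p * N / t ^ 2) / L -
        C * M * rowBound K t a l M (L + ⌊2 * α * p * (N : ℝ) / t ^ 2⌋₊) P₀ / L ≤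
      stJ π f (sineF t a) M 0 := by
  obtain ⟨J, hJ⟩ : ∃ J : ℕ → ℕ → ℝ, J = stJ π f (sineF t a) := ⟨_, rfl⟩
  obtain ⟨Q, hQ⟩ : ∃ Q : ℕ → ℕ → ℝ, Q = stQ π f (sineF t a) := ⟨_, rfl⟩
  obtain ⟨D, hD⟩ : ∃ D : ℕ → ℕ → ℝ, D = stD π f (sineF t a) := ⟨_, rfl⟩
  obtain ⟨R, hR⟩ : ∃ R, R = 2 * α * p := ⟨_, rfl⟩
  rw [← hR] at hbase ⊢
  rw [← hJ] at hbase
  have hR0 : 0 ≤ R := by rw [hR]; positivity
  have ht2 : 0 < t ^ 2 := pow_pos hp.ht 2
  have hM' : (0 : ℝ) < M := Nat.cast_pos.2 hM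
  have hN' : (0 : ℝ) < N := Nat.cast_pos.2 hN
  obtain ⟨P, hPd⟩ : ∃ P, P = blockSize R t N M := ⟨_, rfl⟩
  obtain ⟨hb1, hb2⟩ := blockSize_le (N := N) hR0 hM hp.ht
  rw [← hPd] at hb1 hb2
  set X := L + ⌊R * (N : ℝ) / t ^ 2⌋₊
  have hfl : ((⌊R * (N : ℝ) / t ^ 2⌋₊ : ℕ) : ℝ) ≤ R * N / t ^ 2 := Nat.floor_le (by positivity)
  have hMP : M * P ≤ ⌊R * (N : ℝ) / t ^ 2⌋₊ := (Nat.le_floor_iff (by positivity)).2 (by push_cast; exact hb1)
  have hgap : ((⌊R * (N : ℝ) / t ^ 2⌋₊ : ℕ) : ℝ) ≤ ((M * P + M : ℕ) : ℝ) := by push_cast; linarith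
  have hend0 : J 0 ⌊R * (N : ℝ) / t ^ 2⌋₊ ≤ J 0 (M * P) + M * (t ^ 2 / 2 + sideErr t a) := by
    obtain ⟨d, hd⟩ := Nat.exists_eq_add_of_le hMP
    have hdM : d ≤ M := by have := Nat.cast_le.1 hgap; omega
    rw [hd, hJ]
    refine (stJ_prefix_le hp h hN hne 0 (M * P) d).trans ?_
    have := mul_le_mul_of_nonneg_right (Nat.cast_le (α := ℝ).2 hdM)
      (show 0 ≤ t ^ 2 / 2 + sideErr t a by linarith [hp.err_nonneg])
    linarith
  have hℓ : ∀ ℓ < L, (N : ℝ) * (v + α * psiP f q - α * p * q - η) - |psiP f q - p * q| - p - ε * M -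
      M * (t ^ 2 / 2 + sideErr t a) - R * N / t ^ 2 * sideErr t a - L * (t ^ 2 / 2 + sideErr t a) -
      p * ∑ i ∈ Finset.range M, (Q (M - 1 - i) (ℓ + i * P + P) - Q (M - 1 - i) (ℓ + i * P)) -
      C * ∑ i ∈ Finset.range M, D (M - 1 - i) (ℓ + i * P) ≤ J M 0 := by
    intro ℓ hℓ
    have hrec : ∀ i ∈ Finset.range M, psiP f q - p * q - ε - C * D (M - 1 - i) (ℓ + i * P) -
        p * (Q (M - 1 - i) (ℓ + i * P + P) - Q (M - 1 - i) (ℓ + i * P)) -
        (R * N / (2 * M) - p) - (P : ℝ) * sideErr t a ≤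
        J (M - i) (ℓ + i * P) - J (M - (i + 1)) (ℓ + (i + 1) * P) := by
      intro i hi
      rw [Finset.mem_range] at hi
      obtain ⟨k, hk⟩ : ∃ k, k = M - 1 - i := ⟨_, rfl⟩
      rw [show M - i = k + 1 by omega, show M - (i + 1) = k by omega, ← hk, add_mul, one_mul, ← add_assoc]
      obtain ⟨x, hx⟩ : ∃ x, x = ℓ + i * P := ⟨_, rfl⟩
      rw [← hx]
      have h1 := (abs_le.1 (pattern_step (π := π) h hN hne hC k x)).1
      have h2 := (stJ_block (π := π) hp h hN hne k x P).2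
      rw [← hJ, ← hQ, ← hD] at h1
      rw [← hJ, ← hQ] at h2
      have h3 := hline _ (show Q k x ∈ Set.Icc (0 : ℝ) 1 from hQ ▸ stQ_mem h hN hne k x)
      have hQ' : Q k (x + P) ∈ Set.Icc (0 : ℝ) 1 := hQ ▸ stQ_mem h hN hne k (x + P)
      obtain ⟨A, hA⟩ : ∃ A, A = R * N / (2 * M) := ⟨_, rfl⟩
      have hPA : (P : ℝ) * (t ^ 2 / 2) ≤ A := by
        rw [hA, le_div_iff₀ (by positivity)]
        have := mul_le_mul_of_nonneg_right hb1 ht2.le
        rw [div_mul_cancel₀ _ ht2.ne'] at this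
        linarith
      have hpA : p ≤ A := by
        rw [hA, le_div_iff₀ (by positivity), hR]
        linarith [mul_le_mul_of_nonneg_left hMα (show 0 ≤ 2 * p by positivity)]
      have g1 := mul_le_mul_of_nonneg_right hPA hQ'.1
      have g2 := mul_le_mul_of_nonneg_left hQ'.2 (sub_nonneg.2 hpA)
      rw [← hA]
      linarith
    have htel := Finset.sum_le_sum hrec
    rw [Finset.sum_range_sub' (fun i => J (M - i) (ℓ + i * P)) M] at htel
    simp only [Nat.sub_zero, Nat.sub_self, zero_mul, add_zero, Finset.sum_sub_distrib, Finset.sum_const,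
      Finset.card_range, nsmul_eq_mul, ← Finset.mul_sum] at htel
    have hpre : J M ℓ ≤ J M 0 + L * (t ^ 2 / 2 + sideErr t a) := by
      rw [hJ]
      have h0 := stJ_prefix_le (π := π) hp h hN hne M 0 ℓ
      rw [zero_add] at h0
      refine h0.trans ?_
      have := mul_le_mul_of_nonneg_right (Nat.cast_le (α := ℝ).2 hℓ.le)
        (show 0 ≤ t ^ 2 / 2 + sideErr t a by linarith [hp.err_nonneg])
      linarith
    have hend : J 0 (M * P) ≤ J 0 (ℓ + M * P) := by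
      rw [hJ, add_comm ℓ]; exact stJ_le_k h hN hne 0 0 (M * P) ℓ
    have hPe : (M : ℝ) * ((P : ℝ) * sideErr t a) ≤ R * N / t ^ 2 * sideErr t a := by
      rw [← mul_assoc]; exact mul_le_mul_of_nonneg_right hb1 hp.err_nonneg
    have eA : (M : ℝ) * (R * N / (2 * M)) = R * N / 2 := by field_simp
    have hround : R * N / 2 - M * p ≤ p := by
      rw [hR]; linarith [mul_le_mul_of_nonneg_left hMα' hp0]
    have hΨ : (N : ℝ) * (α * psiP f q - α * p * q) - |psiP f q - p * q| ≤ M * (psiP f q - p * q) := by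
      rcases le_total 0 (psiP f q - p * q) with h0 | h0
      · rw [abs_of_nonneg h0]; linarith [mul_le_mul_of_nonneg_right hMα' h0]
      · rw [abs_of_nonpos h0]; linarith [mul_le_mul_of_nonpos_right hMα h0]
    simp only [Finset.sum_sub_distrib]
    linarith
  have havg := Finset.sum_le_sum (g := fun _ : ℕ => J M 0) fun ℓ (hℓ' : ℓ ∈ Finset.range L) =>
    hℓ ℓ (Finset.mem_range.1 hℓ')
  simp only [Finset.sum_sub_distrib, Finset.sum_const, Finset.card_range, nsmul_eq_mul,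
    ← Finset.mul_sum] at havg
  have hsm : ∀ i : ℕ, StrictMono fun ℓ : ℕ => ℓ + i * P := fun i a b hab => Nat.add_lt_add_right hab _
  have hxX : ∀ i < M, ∀ ℓ < L, ℓ + i * P < X := fun i hi ℓ hℓ => by
    have := Nat.mul_le_mul_right P hi.le
    simp only [X]; omega
  have hdrift : ∑ ℓ ∈ Finset.range L, ∑ i ∈ Finset.range M,
      (Q (M - 1 - i) (ℓ + i * P + P) - Q (M - 1 - i) (ℓ + i * P)) ≤ R * N / t ^ 2 := by
    rw [Finset.sum_comm]
    refine (Finset.sum_le_sum (g := fun _ => (P : ℝ)) fun i hi => ?_).trans (by simpa using hb1)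
    obtain ⟨k, hk⟩ : ∃ k, k = M - 1 - i := ⟨_, rfl⟩
    rw [← hk]
    have hm : Monotone (Q k) := hQ ▸ stQ_mono h hN hne k
    refine (sum_injOn_le (h := fun x => Q k (x + P) - Q k x) (fun x => sub_nonneg.2 (hm (Nat.le_add_right x P)))
      (hsm i) (hxX i (Finset.mem_range.1 hi))).trans ?_
    have a1 := Finset.sum_range_add (Q k) X P
    have a2 := Finset.sum_range_add (Q k) P X
    rw [Nat.add_comm P X] at a2
    have a3 : ∑ x ∈ Finset.range X, Q k (x + P) = ∑ x ∈ Finset.range X, Q k (P + x) :=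
      Finset.sum_congr rfl fun x _ => by rw [Nat.add_comm]
    have hu : ∀ x, Q k x ∈ Set.Icc (0 : ℝ) 1 := fun x => hQ ▸ stQ_mem h hN hne k x
    have b1 : ∑ x ∈ Finset.range P, Q k (X + x) ≤ (P : ℝ) :=
      (Finset.sum_le_sum fun x _ => (hu (X + x)).2).trans_eq (by simp)
    have b2 : 0 ≤ ∑ x ∈ Finset.range P, Q k x := Finset.sum_nonneg fun x _ => (hu x).1
    rw [Finset.sum_sub_distrib]
    linarith
  have hrows : ∑ ℓ ∈ Finset.range L, ∑ i ∈ Finset.range M, D (M - 1 - i) (ℓ + i * P) ≤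
      (M : ℝ) * rowBound K t a l M X P₀ := by
    rw [Finset.sum_comm]
    refine (Finset.sum_le_sum (g := fun _ => rowBound K t a l M X P₀) fun i hi => ?_).trans_eq (by simp)
    rw [Finset.mem_range] at hi
    rw [hD]
    exact (sum_injOn_le (fun x => stD_nonneg h hN hne _ x) (hsm i) (hxX i hi)).trans
      (row_le hv hp h hN hne hsym (by omega) X hP hl)
  have hL' : (0 : ℝ) < L := Nat.cast_pos.2 hL
  have r1 := mul_le_mul_of_nonneg_left hdrift hp0
  have r2 := mul_le_mul_of_nonneg_left hrows hC0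
  rw [← hJ]
  refine le_of_mul_le_mul_left (?_ : _ ≤ (L : ℝ) * J M 0) hL'
  simp only [mul_sub, mul_div_cancel₀ _ hL'.ne']
  simp only [Finset.sum_sub_distrib, mul_sub] at r1 havg
  linarith

end Vale.Agent.P157.Phase
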