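import Mathlib
import Vale.Agent.P157.Phase.Pattern
import Vale.Agent.P157.RSExpansion

/-!
The entropy of the smoothed weight is convex in the overlap: supporting lines.
-/

noncomputable section

open MeasureTheory ProbabilityTheory Filter
open scoped Topology

namespace Vale.Agent.P157.Phase

open Vale.Agent.P157

variable {f : ℝ → ℝ} {K : ℝ}

/-- Smoothed weight at overlap `q` as a function of the field. -/
def uW (f : ℝ → ℝ) (q x : ℝ) : ℝ := sm0 (fun z => Real.exp (f z)) (Real.sqrt (1 - q)) x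

/-- Its derivative in the field. -/
def dW (f : ℝ → ℝ) (q x : ℝ) : ℝ :=
  sm1 (fun z => Real.exp (f z)) (Real.sqrt (1 - q)) x / Real.sqrt (1 - q)

/-- Fisher information of the smoothed weight at a field. -/
def fisher (f : ℝ → ℝ) (q x : ℝ) : ℝ := dW f q x ^ 2 / uW f q x

/-- Mean Fisher information. -/
def slopeA (f : ℝ → ℝ) (q : ℝ) : ℝ := ∫ z, fisher f q (Real.sqrt q * z) ∂gam1

lemma uW_mem (hf : Measurable f) (hb : ∀ z, |f z| ≤ K) (q x : ℝ) :
    uW f q x ∈ Set.Icc (Real.exp (-K)) (Real.exp K) :=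
  integral_exp_mem (π := gam1) (hf.comp (by fun_prop : Measurable fun ξ : ℝ =>
    x + Real.sqrt (1 - q) * ξ)) fun ξ => hb _

lemma uW_pos (hf : Measurable f) (hb : ∀ z, |f z| ≤ K) (q x : ℝ) : 0 < uW f q x :=
  (Real.exp_pos _).trans_le (uW_mem hf hb q x).1

lemma measurable_uW (hf : Measurable f) (q : ℝ) : Measurable (uW f q) :=
  ((hf.exp.comp (by fun_prop : Measurable fun p : ℝ × ℝ =>
    p.1 + Real.sqrt (1 - q) * p.2)).stronglyMeasurable.integral_prod_right' (ν := gam1)).measurable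

lemma measurable_dW (hf : Measurable f) (q : ℝ) : Measurable (dW f q) :=
  (((measurable_snd.mul (hf.exp.comp (by fun_prop : Measurable fun p : ℝ × ℝ =>
    p.1 + Real.sqrt (1 - q) * p.2))).stronglyMeasurable.integral_prod_right' (ν := gam1)).measurable).div_const _

lemma measurable_fisher (hf : Measurable f) (q : ℝ) : Measurable (fisher f q) :=
  ((measurable_dW hf q).pow_const 2).div (measurable_uW hf q)

lemma abs_dW_le (hf : Measurable f) (hb : ∀ z, |f z| ≤ K) {b q : ℝ} (hb1 : b < 1) (hq : q ≤ b) (x : ℝ) :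
    |dW f q x| ≤ Real.exp K * shiftC / Real.sqrt (1 - b) := by
  have h1 : 0 < Real.sqrt (1 - b) := Real.sqrt_pos.2 (by linarith)
  rw [dW, abs_div, abs_of_nonneg (Real.sqrt_nonneg _)]
  exact div_le_div₀ (mul_nonneg (Real.exp_pos _).le shiftC_nonneg)
    (abs_sm1_le hf.exp (exp_bound hb) _ _) h1 (Real.sqrt_le_sqrt (by linarith))

lemma fisher_mem (hf : Measurable f) (hb : ∀ z, |f z| ≤ K) {b q : ℝ} (hb1 : b < 1) (hq : q ≤ b) (x : ℝ) :
    fisher f q x ∈ Set.Icc 0 ((Real.exp K * shiftC / Real.sqrt (1 - b)) ^ 2 * Real.exp K) := by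
  obtain ⟨h1, -⟩ := uW_mem hf hb q x
  have hp := uW_pos hf hb q x
  refine ⟨div_nonneg (sq_nonneg _) hp.le, ?_⟩
  rw [fisher, div_le_iff₀ hp, mul_assoc]
  refine (le_mul_of_one_le_right (sq_nonneg _) (le_refl (1 : ℝ))).trans ?_
  refine mul_le_mul ?_ ?_ zero_le_one (sq_nonneg _)
  · rw [← sq_abs (dW f q x)]; exact pow_le_pow_left₀ (abs_nonneg _) (abs_dW_le hf hb hb1 hq x) 2
  · calc (1 : ℝ) = Real.exp K * Real.exp (-K) := by rw [← Real.exp_add, add_neg_cancel, Real.exp_zero]
      _ ≤ _ := mul_le_mul_of_nonneg_left h1 (Real.exp_pos _).le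

lemma uW_semigroup (hf : Measurable f) (hb : ∀ z, |f z| ≤ K) {q d : ℝ} (hd : 0 ≤ d) (hq : q + d ≤ 1)
    (x : ℝ) : uW f q x = ∫ a, uW f (q + d) (x + Real.sqrt d * a) ∂gam1 := by
  have h := integral_combine (φ := fun z => Real.exp (f (x + z))) (hf.exp.comp (by fun_prop))
    (Real.sqrt d) (Real.sqrt (1 - (q + d)))
  rw [Real.sq_sqrt hd, Real.sq_sqrt (by linarith), show d + (1 - (q + d)) = 1 - q by ring] at h
  simp only [uW, sm0]
  rw [← h, integral_prod]
  · simp only [add_assoc]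
  · exact integrable_of_abs_le (hf.exp.comp (by fun_prop)) fun p => exp_bound hb _

lemma dW_semigroup (hf : Measurable f) (hb : ∀ z, |f z| ≤ K) {q d : ℝ} (hd : 0 ≤ d) (hq : q + d < 1)
    (x : ℝ) : dW f q x = ∫ a, dW f (q + d) (x + Real.sqrt d * a) ∂gam1 := by
  obtain ⟨s', hs'⟩ : ∃ s', s' = Real.sqrt (1 - (q + d)) := ⟨_, rfl⟩
  obtain ⟨s, hs⟩ : ∃ s, s = Real.sqrt (1 - q) := ⟨_, rfl⟩
  have hs'0 : 0 < s' := hs' ▸ Real.sqrt_pos.2 (by linarith)
  have hs0 : 0 < s := hs ▸ Real.sqrt_pos.2 (by linarith)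
  have hs'2 : s' ^ 2 = 1 - (q + d) := by rw [hs', Real.sq_sqrt (by linarith)]
  have hs2 : s ^ 2 = 1 - q := by rw [hs, Real.sq_sqrt (by linarith)]
  set G : ℝ → ℝ → ℝ := fun X Y => Y * Real.exp (f (x + s * X))
  have hGm : Measurable (Function.uncurry G) := by
    unfold Function.uncurry
    exact measurable_snd.mul (hf.exp.comp (by fun_prop))
  set u : Fin 2 → ℝ := ![Real.sqrt d / s, s' / s]
  set u' : Fin 2 → ℝ := ![0, 1]
  have h1 : ∑ i, u i ^ 2 = 1 := by
    simp only [u, Fin.sum_univ_two, Matrix.cons_val_zero, Matrix.cons_val_one, Matrix.cons_val_fin_one,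
      div_pow, Real.sq_sqrt hd, hs'2, hs2]
    rw [← add_div, div_eq_one_iff_eq (by linarith)]
    ring
  have h2 : ∑ i, u' i ^ 2 = 1 := by simp [u']
  have hr : dot u u' = s' / s := by simp [dot, u, u']
  obtain ⟨-, e⟩ := integral_pair_eq hGm h1 h2
  simp only [hr] at e
  have hL : ∀ g : Fin 2 → ℝ, G (dot g u) (dot g u') =
      g 1 * Real.exp (f (x + Real.sqrt d * g 0 + s' * g 1)) := fun g => by
    simp only [G, dot, u, u', Fin.sum_univ_two, Matrix.cons_val_zero, Matrix.cons_val_one,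
      Matrix.cons_val_fin_one, mul_one, mul_zero, zero_add]
    congr 3
    field_simp
    ring
  simp only [hL] at e
  have iz : Integrable (fun z : ℝ => z) gam1 := IsGaussian.memLp_two_id.integrable one_le_two
  have i0 : Integrable (fun z => Real.exp (f (x + s * z))) gam1 :=
    integrable_of_abs_le (hf.exp.comp (by fun_prop : Measurable fun z : ℝ => x + s * z))
      fun z => exp_bound hb _
  have i1 : Integrable (fun z => Real.exp (f (x + s * z)) * z) gam1 :=
    iz.bdd_mul (hf.exp.comp (by fun_prop : Measurable fun z : ℝ => x + s * z)).aestronglyMeasurable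
      (c := Real.exp K) (Eventually.of_forall fun z => exp_bound hb _)
  obtain ⟨a1, b1⟩ := integral_two_mul i1 (integrable_const (1 : ℝ))
  obtain ⟨a2, b2⟩ := integral_two_mul i0 iz
  have eR : ∀ g : Fin 2 → ℝ, G (g 0) (s' / s * g 0 + Real.sqrt (1 - (s' / s) ^ 2) * g 1) =
      s' / s * (Real.exp (f (x + s * g 0)) * g 0 * 1) +
        Real.sqrt (1 - (s' / s) ^ 2) * (Real.exp (f (x + s * g 0)) * g 1) := fun g => by
    simp only [G]; ring
  simp only [eR] at e
  rw [integral_add (a1.const_mul _) (a2.const_mul _), integral_const_mul, integral_const_mul, b1] at e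
  rw [b2] at e
  rw [integral_id_gaussianReal, mul_zero, mul_zero, add_zero] at e
  simp only [integral_const, probReal_univ, smul_eq_mul, mul_one] at e
  have em := measurePreserving_finTwoArrow (gaussianReal 0 1)
  have hint : Integrable (fun p : ℝ × ℝ => p.2 * Real.exp (f (x + Real.sqrt d * p.1 + s' * p.2)))
      (gam1.prod gam1) :=
    (iz.comp_snd gam1).mul_bdd (hf.exp.comp (by fun_prop)).aestronglyMeasurable (c := Real.exp K)
      (Eventually.of_forall fun p => exp_bound hb _)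
  have e3 : ∫ g : Fin 2 → ℝ, g 1 * Real.exp (f (x + Real.sqrt d * g 0 + s' * g 1)) ∂gam (Fin 2) =
      ∫ a, ∫ b, b * Real.exp (f (x + Real.sqrt d * a + s' * b)) ∂gam1 ∂gam1 := by
    rw [← integral_prod (f := fun p : ℝ × ℝ => p.2 * Real.exp (f (x + Real.sqrt d * p.1 + s' * p.2))) hint,
      ← em.integral_comp' (g := fun p : ℝ × ℝ => p.2 * Real.exp (f (x + Real.sqrt d * p.1 + s' * p.2)))]
    rfl
  rw [e3] at e
  simp only [dW, sm1, ← hs, ← hs', integral_div]
  rw [e]
  simp only [mul_comm _ (Real.exp _)]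
  field_simp

lemma jensen_fisher (hf : Measurable f) (hb : ∀ z, |f z| ≤ K) {q d : ℝ} (hd : 0 ≤ d) (hq : q + d < 1)
    (x : ℝ) : fisher f q x ≤ ∫ a, fisher f (q + d) (x + Real.sqrt d * a) ∂gam1 := by
  obtain ⟨l, hl⟩ : ∃ l, l = dW f q x / uW f q x := ⟨_, rfl⟩
  have hm : Measurable fun a : ℝ => x + Real.sqrt d * a := by fun_prop
  have iD : Integrable (fun a => dW f (q + d) (x + Real.sqrt d * a)) gam1 :=
    integrable_of_abs_le ((measurable_dW hf _).comp hm) fun a => abs_dW_le hf hb hq le_rfl _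
  have iU : Integrable (fun a => uW f (q + d) (x + Real.sqrt d * a)) gam1 :=
    integrable_of_abs_le ((measurable_uW hf _).comp hm) fun a => by
      rw [abs_of_pos (uW_pos hf hb _ _)]; exact (uW_mem hf hb _ _).2
  have iF : Integrable (fun a => fisher f (q + d) (x + Real.sqrt d * a)) gam1 :=
    integrable_of_abs_le ((measurable_fisher hf _).comp hm) fun a => by
      rw [abs_of_nonneg (fisher_mem hf hb hq le_rfl _).1]; exact (fisher_mem hf hb hq le_rfl _).2
  have hp := uW_pos hf hb q x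
  calc fisher f q x = ∫ a, (2 * l * dW f (q + d) (x + Real.sqrt d * a) -
        l ^ 2 * uW f (q + d) (x + Real.sqrt d * a)) ∂gam1 := by
        rw [integral_sub (iD.const_mul _) (iU.const_mul _), integral_const_mul, integral_const_mul,
          ← dW_semigroup hf hb hd hq, ← uW_semigroup hf hb hd hq.le, fisher, hl]
        field_simp
        ring
    _ ≤ _ := integral_mono ((iD.const_mul _).sub (iU.const_mul _)) iF fun a => by
        have hpa := uW_pos hf hb (q + d) (x + Real.sqrt d * a)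
        simp only [fisher, Pi.sub_apply]
        rw [le_div_iff₀ hpa]
        nlinarith [sq_nonneg (dW f (q + d) (x + Real.sqrt d * a) - l * uW f (q + d) (x + Real.sqrt d * a))]

lemma integral_field_combine {φ : ℝ → ℝ} (hφ : Measurable φ) {B : ℝ} (hB : ∀ z, |φ z| ≤ B) {q d : ℝ}
    (hq : 0 ≤ q) (hd : 0 ≤ d) :
    ∫ z, φ (Real.sqrt (q + d) * z) ∂gam1 = ∫ z, ∫ a, φ (Real.sqrt q * z + Real.sqrt d * a) ∂gam1 ∂gam1 := by
  have h := integral_combine hφ (Real.sqrt q) (Real.sqrt d)
  rw [Real.sq_sqrt hq, Real.sq_sqrt hd] at h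
  rw [← h, integral_prod]
  exact integrable_of_abs_le (hφ.comp (by fun_prop)) fun p => hB _

lemma slopeA_mono (hf : Measurable f) (hb : ∀ z, |f z| ≤ K) {q d : ℝ} (hq : 0 ≤ q) (hd : 0 ≤ d)
    (hqd : q + d < 1) : slopeA f q ≤ slopeA f (q + d) := by
  have hB : ∀ z, |fisher f (q + d) z| ≤
      (Real.exp K * shiftC / Real.sqrt (1 - (q + d))) ^ 2 * Real.exp K := fun z => by
    rw [abs_of_nonneg (fisher_mem hf hb hqd le_rfl _).1]; exact (fisher_mem hf hb hqd le_rfl _).2
  simp only [slopeA]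
  rw [integral_field_combine (measurable_fisher hf _) hB hq hd]
  refine integral_mono (integrable_of_abs_le ((measurable_fisher hf q).comp (measurable_const_mul _))
      (K := (Real.exp K * shiftC / Real.sqrt (1 - (q + d))) ^ 2 * Real.exp K) fun z => ?_) ?_
    fun z => jensen_fisher hf hb hd hqd _
  · rw [abs_of_nonneg (fisher_mem hf hb hqd (by linarith) _).1]
    exact (fisher_mem hf hb hqd (by linarith) _).2
  · exact Integrable.integral_prod_left (f := fun p : ℝ × ℝ =>
      fisher f (q + d) (Real.sqrt q * p.1 + Real.sqrt d * p.2))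
      (integrable_of_abs_le ((measurable_fisher hf _).comp (by fun_prop)) fun p => hB _)

lemma eta_expansion {K U D : ℝ} (hK : 0 ≤ K) (h1 : U ∈ Set.Icc (Real.exp (-K)) (Real.exp K))
    (h2 : U + D ∈ Set.Icc (Real.exp (-K)) (Real.exp K)) :
    |(U + D) * Real.log (U + D) - U * Real.log U - (Real.log U + 1) * D - D ^ 2 / (2 * U)| ≤
      (Real.exp K * (16 * K + 8) + 1) * Real.exp K ^ 3 * |D| ^ 3 := by
  have hU : 0 < U := (Real.exp_pos _).trans_le h1.1
  have hUD : 0 < U + D := (Real.exp_pos _).trans_le h2.1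
  obtain ⟨X, hX⟩ : ∃ X, X = D / U := ⟨_, rfl⟩
  have e1 : 1 + X = (U + D) / U := by rw [hX]; field_simp
  have hl : |Real.log (1 + X)| ≤ 2 * K := by
    rw [e1, Real.log_div hUD.ne' hU.ne', abs_le]
    have a1 := Real.log_le_log (Real.exp_pos _) h1.1
    have a2 := Real.log_le_log hU h1.2
    have a3 := Real.log_le_log (Real.exp_pos _) h2.1
    have a4 := Real.log_le_log hUD h2.2
    simp only [Real.log_exp] at a1 a2 a3 a4
    constructor <;> linarith
  have h := abs_log_third hK hl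
  have hXb : |X| ≤ Real.exp K * |D| := by
    rw [hX, abs_div, abs_of_pos hU, div_le_iff₀ hU]
    have hone : 1 ≤ Real.exp K * U := by
      calc (1 : ℝ) = Real.exp K * Real.exp (-K) := by rw [← Real.exp_add, add_neg_cancel, Real.exp_zero]
        _ ≤ _ := mul_le_mul_of_nonneg_left h1.1 (Real.exp_pos _).le
    nlinarith [abs_nonneg D]
  have e : (U + D) * Real.log (U + D) - U * Real.log U - (Real.log U + 1) * D - D ^ 2 / (2 * U) =
      (U + D) * (Real.log (1 + X) - X + X ^ 2 / 2) - D * (X ^ 2 / 2) := by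
    rw [e1, Real.log_div hUD.ne' hU.ne', hX]
    field_simp
    ring
  rw [e]
  refine (abs_sub _ _).trans ?_
  rw [abs_mul, abs_mul, abs_of_pos hUD, abs_of_nonneg (show 0 ≤ X ^ 2 / 2 by positivity)]
  have a1 : (U + D) * |Real.log (1 + X) - X + X ^ 2 / 2| ≤ Real.exp K * ((16 * K + 8) * |X| ^ 3) :=
    mul_le_mul h2.2 h (abs_nonneg _) (Real.exp_pos _).le
  have a2 : |X| ^ 3 ≤ Real.exp K ^ 3 * |D| ^ 3 := by
    rw [← mul_pow]; exact pow_le_pow_left₀ (abs_nonneg _) hXb 3
  have a3 : |D| * (X ^ 2 / 2) ≤ Real.exp K ^ 3 * |D| ^ 3 := by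
    have h' := pow_le_pow_left₀ (abs_nonneg X) hXb 2
    rw [sq_abs, mul_pow] at h'
    have he := mul_le_mul_of_nonneg_right
      (le_mul_of_one_le_right (sq_nonneg (Real.exp K)) (Real.one_le_exp hK)) (pow_nonneg (abs_nonneg D) 3)
    have h'' := mul_le_mul_of_nonneg_left h' (abs_nonneg D)
    have : 0 ≤ |D| * X ^ 2 := by positivity
    nlinarith
  have a4 := mul_le_mul_of_nonneg_left a2 (show 0 ≤ Real.exp K * (16 * K + 8) by positivity)
  linarith

lemma field_expansion (hf : Measurable f) (hb : ∀ z, |f z| ≤ K) {b : ℝ} (hb1 : b < 1) :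
    ∃ L : ℝ, 0 ≤ L ∧ ∀ q ≤ b, ∀ x h : ℝ,
      |uW f q (x + h) - uW f q x| ≤ L * |h| ∧
      |uW f q (x + h) - uW f q x - h * dW f q x| ≤ L * h ^ 2 ∧
      |fisher f q (x + h) - fisher f q x| ≤ L * |h| := by
  obtain ⟨s0, hs00, hs0⟩ : ∃ s0, 0 < s0 ∧ s0 = Real.sqrt (1 - b) := ⟨_, Real.sqrt_pos.2 (by linarith), rfl⟩
  obtain ⟨B, hB0, hBd⟩ : ∃ B, 0 ≤ B ∧ B = Real.exp K * shiftC / s0 :=
    ⟨_, div_nonneg (mul_nonneg (Real.exp_pos _).le shiftC_nonneg) hs00.le, rfl⟩
  have hsC := shiftC_nonneg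
  obtain ⟨W, hW0, hW⟩ : ∃ W, 0 ≤ W ∧ W = Real.exp K := ⟨_, (Real.exp_pos _).le, rfl⟩
  -- linear bounds
  obtain ⟨L1, hL10, hL1⟩ : ∃ L1, 0 ≤ L1 ∧ L1 = 2 * W + 2 * (W * shiftC) * (1 / s0 ^ 2 + 1 / s0 ^ 3) + B :=
    ⟨_, by positivity, rfl⟩
  obtain ⟨L2, hL20, hL2⟩ : ∃ L2, 0 ≤ L2 ∧ L2 = 2 * B + 2 * (W * shiftC) * (1 / s0 ^ 2 + 1 / s0 ^ 3) :=
    ⟨_, by positivity, rfl⟩
  refine ⟨2 * L1 + (2 * B * W * L2 + B ^ 2 * W ^ 2 * L1), by positivity, fun q hq x h => ?_⟩
  obtain ⟨s, hs⟩ : ∃ s, s = Real.sqrt (1 - q) := ⟨_, rfl⟩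
  have hss : s0 ≤ s := by rw [hs0, hs]; exact Real.sqrt_le_sqrt (by linarith)
  have hsp : 0 < s := hs00.trans_le hss
  have hDb : ∀ y, |dW f q y| ≤ B := fun y => by rw [hBd, hs0]; exact abs_dW_le hf hb hb1 hq y
  have hhs : ∀ n : ℕ, |h / s| ^ n ≤ |h| ^ n * (1 / s0 ^ n) := fun n => by
    rw [abs_div, abs_of_pos hsp, div_pow, mul_one_div]
    exact div_le_div_of_nonneg_left (by positivity) (by positivity) (pow_le_pow_left₀ hs00.le hss n)
  have hU0 := sm0_expansion hf.exp (exp_bound hb) hsp.ne' x h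
  have hU1 := sm1_expansion hf.exp (exp_bound hb) hsp.ne' x h
  have b2 := abs_sm2_le hf.exp (exp_bound hb) s x
  rw [← hW] at hU0 hU1 b2
  have e0 : h / s * sm1 (fun z => Real.exp (f z)) s x = h * dW f q x := by rw [dW, ← hs]; ring
  rw [e0] at hU0
  have hWs : 0 ≤ W * shiftC := by positivity
  have t2 : |(h / s) ^ 2 / 2 * sm2 (fun z => Real.exp (f z)) s x| ≤
      |h| ^ 2 * (1 / s0 ^ 2) * (W * shiftC) := by
    rw [abs_mul, abs_of_nonneg (show 0 ≤ (h / s) ^ 2 / 2 by positivity), ← sq_abs (h / s)]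
    exact mul_le_mul ((div_le_self (by positivity) one_le_two).trans (hhs 2)) b2 (abs_nonneg _) (by positivity)
  have t3 : W * shiftC * |h / s| ^ 3 ≤ |h| ^ 3 * (1 / s0 ^ 3) * (W * shiftC) := by
    rw [mul_comm (W * shiftC)]; exact mul_le_mul_of_nonneg_right (hhs 3) hWs
  have hdx : |h * dW f q x| ≤ B * |h| := by
    rw [abs_mul, mul_comm]; exact mul_le_mul_of_nonneg_right (hDb x) (abs_nonneg h)
  have hsmall : |h| ≤ 1 → |uW f q (x + h) - uW f q x - h * dW f q x| ≤
      2 * (W * shiftC) * (1 / s0 ^ 2 + 1 / s0 ^ 3) * h ^ 2 := fun h1 => by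
    have h3 : |h| ^ 3 ≤ |h| ^ 2 := pow_le_pow_of_le_one (abs_nonneg h) h1 (by norm_num)
    have t3' := t3.trans (mul_le_mul_of_nonneg_right (mul_le_mul_of_nonneg_right h3 (by positivity)) hWs)
    have hX : |uW f q (x + h) - uW f q x - h * dW f q x| ≤
        |uW f q (x + h) - uW f q x - h * dW f q x - (h / s) ^ 2 / 2 * sm2 (fun z => Real.exp (f z)) s x| +
          |(h / s) ^ 2 / 2 * sm2 (fun z => Real.exp (f z)) s x| := by
      refine le_trans (le_of_eq ?_) (abs_add_le _ _); congr 1; ring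
    simp only [uW, ← hs] at hX ⊢
    rw [sq_abs] at t2 t3'
    have p0 : 0 ≤ h ^ 2 * (1 / s0 ^ 2) * (W * shiftC) := by positivity
    have p1 : 0 ≤ h ^ 2 * (1 / s0 ^ 3) * (W * shiftC) := by positivity
    linarith
  have hWb : ∀ y, |uW f q y| ≤ W := fun y => by
    rw [hW, abs_of_pos (uW_pos hf hb q y)]; exact (uW_mem hf hb q y).2
  have c1 : |uW f q (x + h) - uW f q x| ≤ L1 * |h| := by
    rcases le_or_gt |h| 1 with h1 | h1
    · have := mul_le_mul_of_nonneg_left h1 (abs_nonneg h)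
      rw [mul_one, abs_mul_abs_self, ← sq] at this
      have h' := mul_le_mul_of_nonneg_left this
        (show 0 ≤ 2 * (W * shiftC) * (1 / s0 ^ 2 + 1 / s0 ^ 3) by positivity)
      have a := abs_le.1 ((hsmall h1).trans h')
      have b := abs_le.1 hdx
      have : 0 ≤ 2 * W * |h| := by positivity
      rw [abs_le, hL1]
      constructor <;> linarith
    · have : |uW f q (x + h) - uW f q x| ≤ 2 * W :=
        (abs_sub _ _).trans (by linarith [hWb (x + h), hWb x])
      rw [hL1]
      have p1 : 0 ≤ (2 * (W * shiftC) * (1 / s0 ^ 2 + 1 / s0 ^ 3) + B) * |h| := by positivity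
      have p2 := mul_le_mul_of_nonneg_left h1.le (show 0 ≤ 2 * W by positivity)
      linarith
  have c2 : |uW f q (x + h) - uW f q x - h * dW f q x| ≤ 2 * L1 * h ^ 2 := by
    rcases le_or_gt |h| 1 with h1 | h1
    · refine (hsmall h1).trans (mul_le_mul_of_nonneg_right ?_ (sq_nonneg h))
      have : 0 ≤ 2 * (W * shiftC) * (1 / s0 ^ 2 + 1 / s0 ^ 3) := by positivity
      linarith
    · refine (abs_sub _ _).trans ?_
      have hB1 : B ≤ L1 := by rw [hL1]; linarith [show 0 ≤ 2 * (W * shiftC) * (1 / s0 ^ 2 + 1 / s0 ^ 3) by positivity]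
      have p1 := mul_le_mul_of_nonneg_right hB1 (abs_nonneg h)
      have p2 := mul_le_mul_of_nonneg_left h1.le (mul_nonneg hL10 (abs_nonneg h))
      rw [mul_assoc L1 |h| |h|, abs_mul_abs_self, ← sq] at p2
      linarith
  have c3 : |dW f q (x + h) - dW f q x| ≤ L2 * |h| := by
    rcases le_or_gt |h| 1 with h1 | h1
    · have e : dW f q (x + h) - dW f q x =
          (sm1 (fun z => Real.exp (f z)) s (x + h) - sm1 (fun z => Real.exp (f z)) s x) / s := by
        rw [dW, dW, ← hs]; ring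
      rw [e, abs_div, abs_of_pos hsp, div_le_iff₀ hsp]
      have a : |h / s * sm2 (fun z => Real.exp (f z)) s x| ≤ |h| * (1 / s0) * (W * shiftC) := by
        rw [abs_mul]
        exact mul_le_mul (by simpa using hhs 1) b2 (abs_nonneg _) (by positivity)
      have h2 : (h / s) ^ 2 ≤ |h| * (1 / s0 ^ 2) := by
        rw [← sq_abs]
        exact (hhs 2).trans (mul_le_mul_of_nonneg_right (pow_le_of_le_one (abs_nonneg h) h1 two_ne_zero)
          (by positivity))
      have hU1' := abs_le.1 (hU1.trans (mul_le_mul_of_nonneg_left h2 hWs))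
      have a' := abs_le.1 a
      have k1 := mul_le_mul_of_nonneg_left hss
        (show 0 ≤ 2 * (W * shiftC) * (1 / s0 ^ 2 + 1 / s0 ^ 3) * |h| by positivity)
      have k2 : 2 * (W * shiftC) * (1 / s0 ^ 2 + 1 / s0 ^ 3) * |h| * s0 =
          2 * (|h| * (1 / s0) * (W * shiftC)) + 2 * (W * shiftC * (|h| * (1 / s0 ^ 2))) := by
        field_simp
      have k3 : 0 ≤ 2 * B * |h| * s := by positivity
      have k4 : 0 ≤ |h| * (1 / s0) * (W * shiftC) := by positivity
      have k5 : 0 ≤ W * shiftC * (|h| * (1 / s0 ^ 2)) := by positivity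
      rw [hL2, abs_le]
      constructor <;> linarith
    · refine (abs_sub _ _).trans ?_
      rw [hL2]
      have : 0 ≤ 2 * (W * shiftC) * (1 / s0 ^ 2 + 1 / s0 ^ 3) * |h| := by positivity
      have p := mul_le_mul_of_nonneg_left h1.le (show 0 ≤ 2 * B by positivity)
      linarith [hDb (x + h), hDb x]
  refine ⟨c1.trans (mul_le_mul_of_nonneg_right ?_ (abs_nonneg h)),
    c2.trans (mul_le_mul_of_nonneg_right ?_ (sq_nonneg h)), ?_⟩
  · have : 0 ≤ 2 * B * W * L2 + B ^ 2 * W ^ 2 * L1 := by positivity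
    linarith
  · have : 0 ≤ 2 * B * W * L2 + B ^ 2 * W ^ 2 * L1 := by positivity
    linarith
  · have p0 := uW_pos hf hb q x
    have p1 := uW_pos hf hb q (x + h)
    have w0 : ∀ y, (uW f q y)⁻¹ ≤ W := fun y => by
      rw [hW, inv_le_iff_one_le_mul₀ (uW_pos hf hb q y)]
      calc (1 : ℝ) = Real.exp K * Real.exp (-K) := by rw [← Real.exp_add, add_neg_cancel, Real.exp_zero]
        _ ≤ _ := mul_le_mul_of_nonneg_left (uW_mem hf hb q y).1 (Real.exp_pos _).le
    have e : fisher f q (x + h) - fisher f q x =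
        (dW f q (x + h) - dW f q x) * (dW f q (x + h) + dW f q x) * (uW f q (x + h))⁻¹ +
          dW f q x ^ 2 * (uW f q (x + h))⁻¹ * (uW f q x)⁻¹ * (uW f q x - uW f q (x + h)) := by
      simp only [fisher]; field_simp; ring
    rw [e]
    refine (abs_add_le _ _).trans ?_
    rw [abs_mul, abs_mul, abs_mul, abs_mul, abs_mul, abs_inv, abs_inv, abs_of_pos p0, abs_of_pos p1,
      abs_of_nonneg (sq_nonneg (dW f q x)), abs_sub_comm (uW f q x)]
    have q1 : |dW f q (x + h) + dW f q x| ≤ 2 * B :=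
      (abs_add_le _ _).trans (by linarith [hDb (x + h), hDb x])
    have q2 : dW f q x ^ 2 ≤ B ^ 2 := by rw [← sq_abs]; exact pow_le_pow_left₀ (abs_nonneg _) (hDb x) 2
    have r1 := mul_le_mul (mul_le_mul c3 q1 (abs_nonneg _) (by positivity)) (w0 (x + h))
      (inv_nonneg.2 p1.le) (by positivity)
    have r2 := mul_le_mul (mul_le_mul (mul_le_mul q2 (w0 (x + h)) (inv_nonneg.2 p1.le) (by positivity))
      (w0 x) (inv_nonneg.2 p0.le) (by positivity)) c1 (abs_nonneg _) (by positivity)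
    have : 0 ≤ 2 * L1 * |h| := by positivity
    linarith

lemma abs_moments_le (h : ℝ) (hh : 0 ≤ h) :
    ∫ a, |Real.sqrt h * a| ∂gam1 ≤ Real.sqrt h ∧
      ∫ a, |Real.sqrt h * a| ^ 3 ∂gam1 ≤ h * Real.sqrt h * mom9 := by
  constructor
  · simp only [abs_mul, abs_of_nonneg (Real.sqrt_nonneg h), integral_const_mul]
    refine mul_le_of_le_one_right (Real.sqrt_nonneg h) ?_
    have iz2 : Integrable (fun z : ℝ => z ^ 2) gam1 := IsGaussian.memLp_two_id.integrable_sq
    refine (integral_mono (IsGaussian.memLp_two_id.integrable one_le_two).abs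
      ((iz2.fun_add (integrable_const (1 : ℝ))).const_mul (1 / 2)) fun z => ?_).trans_eq ?_
    · simp only [id_eq]
      nlinarith [sq_nonneg (|z| - 1), sq_abs z]
    · rw [integral_const_mul, integral_add iz2 (integrable_const _), integral_sq_gam1]
      simp; norm_num
  · have e : ∀ a : ℝ, |Real.sqrt h * a| ^ 3 = h * Real.sqrt h * |a| ^ 3 := fun a => by
      rw [abs_mul, abs_of_nonneg (Real.sqrt_nonneg h), mul_pow, pow_succ (Real.sqrt h) 2, Real.sq_sqrt hh]
    simp only [e, integral_const_mul]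
    refine mul_le_mul_of_nonneg_left ?_ (mul_nonneg hh (Real.sqrt_nonneg h))
    refine integral_mono_of_nonneg (Eventually.of_forall fun a => by positivity) integrable_pow9
      (Eventually.of_forall fun a => ?_)
    exact (pow_le_pow_left₀ (abs_nonneg a) (by linarith) 3).trans
      (pow_le_pow_right₀ (by linarith [abs_nonneg a]) (by norm_num))

lemma psiP_step (hf : Measurable f) (hb : ∀ z, |f z| ≤ K) {b : ℝ} (hb1 : b < 1) :
    ∃ C : ℝ, 0 ≤ C ∧ ∀ q d : ℝ, 0 ≤ q → 0 ≤ d → d ≤ 1 → q + d ≤ b →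
      |psiP f (q + d) - psiP f q - d / 2 * slopeA f (q + d)| ≤ C * (d * Real.sqrt d) := by
  obtain ⟨L, hL0, hL⟩ := field_expansion hf hb hb1
  have hK : 0 ≤ K := (abs_nonneg _).trans (hb 0)
  obtain ⟨Bd, hBd0, hBd⟩ : ∃ Bd, 0 ≤ Bd ∧ Bd = Real.exp K * shiftC / Real.sqrt (1 - b) :=
    ⟨_, div_nonneg (mul_nonneg (Real.exp_pos _).le shiftC_nonneg) (Real.sqrt_nonneg _), rfl⟩
  obtain ⟨C3, hC30, hC3⟩ : ∃ C3, 0 ≤ C3 ∧ C3 = (Real.exp K * (16 * K + 8) + 1) * Real.exp K ^ 3 :=
    ⟨_, by positivity, rfl⟩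
  have hm9 := mom9_nonneg
  refine ⟨C3 * L ^ 3 * mom9 + L * (L + Bd) * Real.exp K * mom9 + C3 * L ^ 3 + L ^ 2 * Real.exp K + L,
    by positivity, fun q d hq hd hd1 hqd => ?_⟩
  obtain ⟨Q, hQ⟩ : ∃ Q, Q = q + d := ⟨_, rfl⟩
  set η : ℝ → ℝ := fun v => v * Real.log v
  obtain ⟨Bη, hBη⟩ := IsCompact.exists_bound_of_continuousOn isCompact_Icc
    (Real.continuous_mul_log.continuousOn (s := Set.Icc (Real.exp (-K)) (Real.exp K)))
  have hηb : ∀ p x, |η (uW f p x)| ≤ Bη := fun p x => hBη _ (uW_mem hf hb p x)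
  have hηm : ∀ p, Measurable fun x => η (uW f p x) := fun p =>
    (measurable_uW hf p).mul (Real.measurable_log.comp (measurable_uW hf p))
  have hFb : ∀ x, |fisher f Q x| ≤ Bd ^ 2 * Real.exp K := fun x => by
    rw [abs_of_nonneg (fisher_mem hf hb hb1 (hQ ▸ hqd) _).1, hBd]
    exact (fisher_mem hf hb hb1 (hQ ▸ hqd) _).2
  -- the statement at a fixed field
  have key : ∀ x, |(∫ a, η (uW f Q (x + Real.sqrt d * a)) ∂gam1) - η (uW f q x) -
      d / 2 * ∫ a, fisher f Q (x + Real.sqrt d * a) ∂gam1| ≤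
      (C3 * L ^ 3 * mom9 + L * (L + Bd) * Real.exp K * mom9 + C3 * L ^ 3 + L ^ 2 * Real.exp K + L) *
        (d * Real.sqrt d) := by
    intro x
    obtain ⟨U, hU⟩ : ∃ U, U = uW f Q x := ⟨_, rfl⟩
    obtain ⟨D, hD⟩ : ∃ D, D = dW f Q x := ⟨_, rfl⟩
    have hUp : 0 < U := hU ▸ uW_pos hf hb Q x
    have hDb : |D| ≤ Bd := by rw [hD, hBd]; exact abs_dW_le hf hb hb1 (hQ ▸ hqd) x
    have hinv : U⁻¹ ≤ Real.exp K := by
      rw [inv_le_iff_one_le_mul₀ hUp]
      calc (1 : ℝ) = Real.exp K * Real.exp (-K) := by rw [← Real.exp_add, add_neg_cancel, Real.exp_zero]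
        _ ≤ _ := mul_le_mul_of_nonneg_left (hU ▸ (uW_mem hf hb Q x).1) (Real.exp_pos _).le
    set Δ : ℝ → ℝ := fun a => uW f Q (x + Real.sqrt d * a) - U
    have hm : Measurable fun a : ℝ => x + Real.sqrt d * a := by fun_prop
    have hΔm : Measurable Δ := ((measurable_uW hf Q).comp hm).sub_const U
    have hΔb : ∀ a, |Δ a| ≤ 2 * Real.exp K := fun a => by
      refine (abs_sub _ _).trans ?_
      rw [abs_of_pos (uW_pos hf hb Q _), abs_of_pos hUp, hU]
      linarith [(uW_mem hf hb Q (x + Real.sqrt d * a)).2, (uW_mem hf hb Q x).2]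
    have iΔ : Integrable Δ gam1 := integrable_of_abs_le hΔm hΔb
    have iΔ2 : Integrable (fun a => Δ a ^ 2) gam1 :=
      integrable_of_abs_le (K := (2 * Real.exp K) ^ 2) (hΔm.pow_const 2) fun a => by
        rw [abs_pow]; exact pow_le_pow_left₀ (abs_nonneg _) (hΔb a) 2
    have iη : Integrable (fun a => η (uW f Q (x + Real.sqrt d * a))) gam1 :=
      integrable_of_abs_le ((hηm Q).comp hm) fun a => hηb _ _
    have ia : Integrable (fun a : ℝ => a) gam1 := IsGaussian.memLp_two_id.integrable one_le_two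
    have ia2 : Integrable (fun a : ℝ => a ^ 2) gam1 := IsGaussian.memLp_two_id.integrable_sq
    have i3 : Integrable (fun a : ℝ => |Real.sqrt d * a| ^ 3) gam1 := by
      refine (integrable_pow9.const_mul (Real.sqrt d ^ 3)).mono' (by fun_prop) (Eventually.of_forall fun a => ?_)
      rw [Real.norm_eq_abs, abs_pow, abs_abs, abs_mul, abs_of_nonneg (Real.sqrt_nonneg d), mul_pow]
      exact mul_le_mul_of_nonneg_left ((pow_le_pow_left₀ (abs_nonneg a) (by linarith) 3).trans
        (pow_le_pow_right₀ (by linarith [abs_nonneg a]) (by norm_num))) (by positivity)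
    obtain ⟨m1, m3⟩ := abs_moments_le d hd
    -- mean and second moment of the increment
    have hmean : |∫ a, Δ a ∂gam1| ≤ L * d := by
      have e : ∫ a, Δ a ∂gam1 = ∫ a, (Δ a - Real.sqrt d * a * D) ∂gam1 := by
        rw [integral_sub iΔ ((ia.const_mul _).mul_const D), integral_mul_const, integral_const_mul,
          integral_id_gaussianReal, mul_zero, zero_mul, sub_zero]
      rw [e]
      refine abs_integral_le_integral_abs.trans ?_
      refine (integral_mono (iΔ.sub ((ia.const_mul _).mul_const D)).abs ((ia2.const_mul (L * d)))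
        fun a => ?_).trans_eq (by rw [integral_const_mul, integral_sq_gam1, mul_one])
      have := (hL Q (hQ ▸ hqd) x (Real.sqrt d * a)).2.1
      rw [mul_pow, Real.sq_sqrt hd, ← hD, ← hU] at this
      simp only [Pi.sub_apply, Δ]
      linarith
    have hsec : |(∫ a, Δ a ^ 2 ∂gam1) - d * D ^ 2| ≤ L * (L + Bd) * (d * Real.sqrt d * mom9) := by
      have e : (∫ a, Δ a ^ 2 ∂gam1) - d * D ^ 2 = ∫ a, (Δ a ^ 2 - d * D ^ 2 * a ^ 2) ∂gam1 := by
        rw [integral_sub iΔ2 (ia2.const_mul _), integral_const_mul, integral_sq_gam1, mul_one]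
      rw [e]
      refine abs_integral_le_integral_abs.trans ?_
      refine (integral_mono (iΔ2.sub (ia2.const_mul _)).abs (i3.const_mul (L * (L + Bd))) fun a => ?_).trans
        (by rw [integral_const_mul]; exact mul_le_mul_of_nonneg_left m3 (by positivity))
      obtain ⟨e1, e2, -⟩ := hL Q (hQ ▸ hqd) x (Real.sqrt d * a)
      simp only [Pi.sub_apply]
      have e3 : Δ a ^ 2 - d * D ^ 2 * a ^ 2 =
          (Δ a - Real.sqrt d * a * D) * (Δ a + Real.sqrt d * a * D) := by
        linear_combination (a ^ 2 * D ^ 2) * Real.sq_sqrt hd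
      rw [e3, abs_mul]
      have f1 : |Δ a + Real.sqrt d * a * D| ≤ (L + Bd) * |Real.sqrt d * a| := by
        refine (abs_add_le _ _).trans ?_
        have e1' : |Δ a| ≤ L * |Real.sqrt d * a| := by simp only [Δ, hU]; exact e1
        have : |Real.sqrt d * a * D| ≤ Bd * |Real.sqrt d * a| := by
          rw [abs_mul, mul_comm]; exact mul_le_mul_of_nonneg_right hDb (abs_nonneg _)
        linarith
      have f2 : |Δ a - Real.sqrt d * a * D| ≤ L * |Real.sqrt d * a| ^ 2 := by
        simp only [Δ, hU, hD, sq_abs]; exact e2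
      calc |Δ a - Real.sqrt d * a * D| * |Δ a + Real.sqrt d * a * D|
          ≤ L * |Real.sqrt d * a| ^ 2 * ((L + Bd) * |Real.sqrt d * a|) :=
            mul_le_mul f2 f1 (abs_nonneg _) (by positivity)
        _ = _ := by ring
    have hint : |(∫ a, η (uW f Q (x + Real.sqrt d * a)) ∂gam1) - η U -
        (Real.log U + 1) * (∫ a, Δ a ∂gam1) - (∫ a, Δ a ^ 2 ∂gam1) / (2 * U)| ≤
        C3 * L ^ 3 * (d * Real.sqrt d * mom9) := by
      have ii := ((iη.sub' (integrable_const (η U))).sub' (iΔ.const_mul (Real.log U + 1))).sub'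
        (iΔ2.div_const (2 * U))
      have e : (∫ a, η (uW f Q (x + Real.sqrt d * a)) ∂gam1) - η U -
          (Real.log U + 1) * (∫ a, Δ a ∂gam1) - (∫ a, Δ a ^ 2 ∂gam1) / (2 * U) =
          ∫ a, (η (uW f Q (x + Real.sqrt d * a)) - η U - (Real.log U + 1) * Δ a -
            Δ a ^ 2 / (2 * U)) ∂gam1 := by
        rw [integral_sub ((iη.sub' (integrable_const _)).sub' (iΔ.const_mul _)) (iΔ2.div_const _),
          integral_sub (iη.sub' (integrable_const _)) (iΔ.const_mul _), integral_sub iη (integrable_const _),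
          integral_const_mul, integral_div]
        simp [η, integral_const_mul]
      rw [e]
      refine abs_integral_le_integral_abs.trans ?_
      refine (integral_mono ii.abs (i3.const_mul (C3 * L ^ 3)) fun a => ?_).trans
        (by rw [integral_const_mul]; exact mul_le_mul_of_nonneg_left m3 (by positivity))
      have hh := eta_expansion hK (U := U) (D := Δ a) (hU ▸ uW_mem hf hb Q x)
        (by simp only [Δ, add_sub_cancel]; exact uW_mem hf hb Q _)
      simp only [Δ, add_sub_cancel, ← hC3] at hh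
      refine hh.trans ?_
      rw [mul_assoc, ← mul_pow]
      refine mul_le_mul_of_nonneg_left (pow_le_pow_left₀ (abs_nonneg _) ?_ 3) hC30
      simp only [hU]
      exact (hL Q (hQ ▸ hqd) x (Real.sqrt d * a)).1
    have hq' : uW f q x = U + ∫ a, Δ a ∂gam1 := by
      rw [uW_semigroup hf hb hd (by linarith) x, ← hQ]
      have iU' : Integrable (fun a => uW f Q (x + Real.sqrt d * a)) gam1 :=
        integrable_of_abs_le ((measurable_uW hf Q).comp hm) fun a => by
          rw [abs_of_pos (uW_pos hf hb _ _)]; exact (uW_mem hf hb _ _).2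
      simp only [Δ]
      rw [integral_sub iU' (integrable_const _)]
      simp
    have hlow : |η (uW f q x) - η U - (Real.log U + 1) * (∫ a, Δ a ∂gam1)| ≤
        L ^ 2 * Real.exp K * (d * Real.sqrt d) + C3 * L ^ 3 * (d * Real.sqrt d) := by
      have hh := eta_expansion hK (U := U) (D := ∫ a, Δ a ∂gam1) (hU ▸ uW_mem hf hb Q x)
        (hq' ▸ uW_mem hf hb q x)
      rw [← hq', ← hC3] at hh
      have g1 : (∫ a, Δ a ∂gam1) ^ 2 / (2 * U) ≤ L ^ 2 * Real.exp K * (d * Real.sqrt d) := by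
        have : (∫ a, Δ a ∂gam1) ^ 2 ≤ (L * d) ^ 2 := by
          rw [← sq_abs]; exact pow_le_pow_left₀ (abs_nonneg _) hmean 2
        have hds : d ≤ Real.sqrt d := Real.le_sqrt_of_sq_le (by nlinarith)
        have hhalf : (2 * U)⁻¹ ≤ Real.exp K := by
          refine le_trans ?_ hinv
          rw [mul_inv]; nlinarith [inv_nonneg.2 hUp.le]
        calc (∫ a, Δ a ∂gam1) ^ 2 / (2 * U) ≤ (L * d) ^ 2 * Real.exp K :=
              mul_le_mul this hhalf (by positivity) (sq_nonneg _)
          _ = L ^ 2 * Real.exp K * (d * d) := by ring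
          _ ≤ _ := by gcongr
      have g2 : |∫ a, Δ a ∂gam1| ^ 3 ≤ L ^ 3 * (d * Real.sqrt d) := by
        refine (pow_le_pow_left₀ (abs_nonneg _) hmean 3).trans ?_
        rw [mul_pow]
        refine mul_le_mul_of_nonneg_left ?_ (by positivity)
        have hds : d ≤ Real.sqrt d := Real.le_sqrt_of_sq_le (by nlinarith)
        calc d ^ 3 ≤ d ^ 2 := pow_le_pow_of_le_one hd hd1 (by norm_num)
          _ = d * d := sq d
          _ ≤ _ := mul_le_mul_of_nonneg_left hds hd
      have g3 := mul_le_mul_of_nonneg_left g2 hC30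
      have g0 : 0 ≤ (∫ a, Δ a ∂gam1) ^ 2 / (2 * U) := div_nonneg (sq_nonneg _) (by linarith)
      rw [abs_le] at hh ⊢
      simp only [η]
      constructor <;> linarith
    have hfis : |(∫ a, fisher f Q (x + Real.sqrt d * a) ∂gam1) - D ^ 2 / U| ≤ L * Real.sqrt d := by
      have iF : Integrable (fun a => fisher f Q (x + Real.sqrt d * a)) gam1 :=
        integrable_of_abs_le ((measurable_fisher hf Q).comp hm) fun a => hFb _
      have e : (∫ a, fisher f Q (x + Real.sqrt d * a) ∂gam1) - D ^ 2 / U =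
          ∫ a, (fisher f Q (x + Real.sqrt d * a) - fisher f Q x) ∂gam1 := by
        rw [integral_sub iF (integrable_const _), hD, hU]; simp [fisher]
      rw [e]
      refine abs_integral_le_integral_abs.trans ?_
      refine (integral_mono (iF.sub (integrable_const _)).abs
        (((ia.const_mul (Real.sqrt d)).abs).const_mul L) fun a => ?_).trans ?_
      · simpa using (hL Q (hQ ▸ hqd) x (Real.sqrt d * a)).2.2
      · rw [integral_const_mul]; exact mul_le_mul_of_nonneg_left m1 hL0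
    have hsecU : |(∫ a, Δ a ^ 2 ∂gam1) / (2 * U) - d * D ^ 2 / (2 * U)| ≤
        L * (L + Bd) * (d * Real.sqrt d * mom9) * Real.exp K := by
      rw [← sub_div, abs_div, abs_of_pos (show 0 < 2 * U by linarith), div_eq_mul_inv]
      refine mul_le_mul hsec ?_ (by positivity) (by positivity)
      refine le_trans ?_ hinv
      rw [mul_inv]; nlinarith [inv_nonneg.2 hUp.le]
    have hfd : |d / 2 * (∫ a, fisher f Q (x + Real.sqrt d * a) ∂gam1) - d * D ^ 2 / (2 * U)| ≤
        L * (d * Real.sqrt d) := by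
      rw [show d * D ^ 2 / (2 * U) = d / 2 * (D ^ 2 / U) by ring, ← mul_sub, abs_mul,
        abs_of_nonneg (show 0 ≤ d / 2 by positivity)]
      refine (mul_le_mul_of_nonneg_left hfis (by positivity)).trans ?_
      have : 0 ≤ d * (L * Real.sqrt d) := by positivity
      linarith
    rw [abs_le] at hint hlow hsecU hfd ⊢
    constructor <;> linarith
  -- average over the field
  have hm2 : Measurable fun p : ℝ × ℝ => Real.sqrt q * p.1 + Real.sqrt d * p.2 := by fun_prop
  have i1 : Integrable (fun z => ∫ a, η (uW f Q (Real.sqrt q * z + Real.sqrt d * a)) ∂gam1) gam1 :=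
    Integrable.integral_prod_left (f := fun p : ℝ × ℝ => η (uW f Q (Real.sqrt q * p.1 + Real.sqrt d * p.2)))
      (integrable_of_abs_le ((hηm Q).comp hm2) fun p => hηb _ _)
  have i3 : Integrable (fun z => ∫ a, fisher f Q (Real.sqrt q * z + Real.sqrt d * a) ∂gam1) gam1 :=
    Integrable.integral_prod_left (f := fun p : ℝ × ℝ => fisher f Q (Real.sqrt q * p.1 + Real.sqrt d * p.2))
      (integrable_of_abs_le ((measurable_fisher hf Q).comp hm2) fun p => hFb _)
  have i2 : Integrable (fun z => η (uW f q (Real.sqrt q * z))) gam1 :=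
    integrable_of_abs_le ((hηm q).comp (measurable_const_mul _)) fun z => hηb _ _
  have eQ : psiP f (q + d) = ∫ z, ∫ a, η (uW f Q (Real.sqrt q * z + Real.sqrt d * a)) ∂gam1 ∂gam1 := by
    rw [← hQ, ← integral_field_combine (hηm Q) (hηb Q) hq hd, ← hQ]; rfl
  have eA : slopeA f (q + d) = ∫ z, ∫ a, fisher f Q (Real.sqrt q * z + Real.sqrt d * a) ∂gam1 ∂gam1 := by
    rw [← hQ, ← integral_field_combine (measurable_fisher hf Q) hFb hq hd, ← hQ]; rfl
  rw [eQ, eA, show psiP f q = ∫ z, η (uW f q (Real.sqrt q * z)) ∂gam1 from rfl, ← integral_const_mul,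
    ← integral_sub i1 i2, ← integral_sub (i1.sub' i2) (i3.const_mul _)]
  refine abs_integral_le_integral_abs.trans ?_
  refine (integral_mono ((i1.sub' i2).sub' (i3.const_mul _)).abs (integrable_const _) fun z => key _).trans_eq ?_
  simp

lemma psiP_chord (hf : Measurable f) (hb : ∀ z, |f z| ≤ K) {a b : ℝ} (ha : 0 ≤ a) (hab : a ≤ b)
    (hb1 : b < 1) :
    (b - a) / 2 * slopeA f a ≤ psiP f b - psiP f a ∧ psiP f b - psiP f a ≤ (b - a) / 2 * slopeA f b := by
  obtain ⟨C, hC, hstep⟩ := psiP_step hf hb hb1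
  have hn : ∀ n : ℕ, 0 < n → |psiP f b - psiP f a -
      ∑ j ∈ Finset.range n, (b - a) / n / 2 * slopeA f (a + ((j : ℝ) + 1) * ((b - a) / n))| ≤
        C * ((b - a) * Real.sqrt ((b - a) / n)) := fun n hn => by
    have hn' : (0 : ℝ) < n := by exact_mod_cast hn
    set d := (b - a) / n
    have hd : 0 ≤ d := div_nonneg (by linarith) hn'.le
    have hnd : (n : ℝ) * d = b - a := by simp only [d]; field_simp
    have e : psiP f b - psiP f a = ∑ j ∈ Finset.range n, (psiP f (a + ((j : ℝ) + 1) * d) - psiP f (a + j * d)) := by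
      have := Finset.sum_range_sub (fun j : ℕ => psiP f (a + j * d)) n
      push_cast at this
      rw [this, hnd]; simp
    rw [e, ← Finset.sum_sub_distrib]
    refine (Finset.abs_sum_le_sum_abs _ _).trans ?_
    refine (Finset.sum_le_sum (g := fun _ => C * (d * Real.sqrt d)) fun j hj => ?_).trans_eq ?_
    · have hj' : (j : ℝ) + 1 ≤ n := by exact_mod_cast Finset.mem_range.1 hj
      have hle := mul_le_mul_of_nonneg_right hj' hd
      rw [hnd] at hle
      have h := hstep (a + j * d) d (by positivity) hd (by linarith [mul_nonneg (Nat.cast_nonneg (α := ℝ) j) hd])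
        (by linarith)
      rw [show a + (j : ℝ) * d + d = a + ((j : ℝ) + 1) * d by ring] at h
      exact h
    · rw [Finset.sum_const, Finset.card_range, nsmul_eq_mul, ← hnd]; ring
  have hrange : ∀ n : ℕ, 0 < n → ∀ j ∈ Finset.range n,
      slopeA f a ≤ slopeA f (a + ((j : ℝ) + 1) * ((b - a) / n)) ∧
        slopeA f (a + ((j : ℝ) + 1) * ((b - a) / n)) ≤ slopeA f b := fun n hn j hj => by
    have hn' : (0 : ℝ) < n := by exact_mod_cast hn
    have hj' : (j : ℝ) + 1 ≤ n := by exact_mod_cast Finset.mem_range.1 hj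
    have hd : 0 ≤ (b - a) / n := div_nonneg (by linarith) hn'.le
    have h0 : 0 ≤ ((j : ℝ) + 1) * ((b - a) / n) := by positivity
    have h1 : ((j : ℝ) + 1) * ((b - a) / n) ≤ b - a := by
      refine (mul_le_mul_of_nonneg_right hj' hd).trans (le_of_eq ?_); field_simp
    refine ⟨slopeA_mono hf hb ha h0 (by linarith), ?_⟩
    have := slopeA_mono hf hb (q := a + ((j : ℝ) + 1) * ((b - a) / n))
      (d := b - a - ((j : ℝ) + 1) * ((b - a) / n)) (by linarith) (by linarith) (by linarith)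
    convert this using 2
    ring
  have ht : Tendsto (fun n : ℕ => C * ((b - a) * Real.sqrt ((b - a) / n))) atTop (𝓝 0) := by
    simpa using (((Real.continuous_sqrt.tendsto 0).comp
      (tendsto_const_div_atTop_nhds_zero_nat (b - a))).const_mul (b - a)).const_mul C
  constructor
  · refine le_of_tendsto (f := fun n : ℕ => (b - a) / 2 * slopeA f a - C * ((b - a) * Real.sqrt ((b - a) / n)))
      (x := atTop) (by simpa using (tendsto_const_nhds (x := (b - a) / 2 * slopeA f a)).sub ht) ?_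
    filter_upwards [eventually_gt_atTop 0] with n hn0
    have h := (abs_le.1 (hn n hn0)).1
    have hsum : (b - a) / 2 * slopeA f a ≤
        ∑ j ∈ Finset.range n, (b - a) / n / 2 * slopeA f (a + ((j : ℝ) + 1) * ((b - a) / n)) := by
      refine le_trans (le_of_eq ?_) (Finset.sum_le_sum fun j hj =>
        mul_le_mul_of_nonneg_left (hrange n hn0 j hj).1 (by positivity))
      rw [Finset.sum_const, Finset.card_range, nsmul_eq_mul]
      have : (n : ℝ) ≠ 0 := by exact_mod_cast hn0.ne'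
      field_simp
    linarith
  · refine ge_of_tendsto (f := fun n : ℕ => (b - a) / 2 * slopeA f b + C * ((b - a) * Real.sqrt ((b - a) / n)))
      (x := atTop) (by simpa using (tendsto_const_nhds (x := (b - a) / 2 * slopeA f b)).add ht) ?_
    filter_upwards [eventually_gt_atTop 0] with n hn0
    have h := (abs_le.1 (hn n hn0)).2
    have hsum : ∑ j ∈ Finset.range n, (b - a) / n / 2 * slopeA f (a + ((j : ℝ) + 1) * ((b - a) / n)) ≤
        (b - a) / 2 * slopeA f b := by
      refine le_trans (Finset.sum_le_sum fun j hj =>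
        mul_le_mul_of_nonneg_left (hrange n hn0 j hj).2 (by positivity)) (le_of_eq ?_)
      rw [Finset.sum_const, Finset.card_range, nsmul_eq_mul]
      have : (n : ℝ) ≠ 0 := by exact_mod_cast hn0.ne'
      field_simp
    linarith

lemma psiP_nonneg (hf : Measurable f) (hb : ∀ z, |f z| ≤ K) (h1 : ∫ z, Real.exp (f z) ∂gam1 = 1)
    {q : ℝ} (hq : q ∈ Set.Icc (0 : ℝ) 1) : 0 ≤ psiP f q := by
  have hg := measurable_gsm hf q
  have ig : Integrable (gsm f q) gam1 := integrable_of_abs_le hg fun z => by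
    rw [abs_of_pos ((Real.exp_pos _).trans_le (gsm_mem hf hb q z).1)]; exact (gsm_mem hf hb q z).2
  obtain ⟨Bη, hBη⟩ := IsCompact.exists_bound_of_continuousOn isCompact_Icc
    (Real.continuous_mul_log.continuousOn (s := Set.Icc (Real.exp (-K)) (Real.exp K)))
  have hmean : ∫ z, gsm f q z ∂gam1 = 1 := by
    have h := integral_combine hf.exp (Real.sqrt q) (Real.sqrt (1 - q))
    rw [Real.sq_sqrt hq.1, Real.sq_sqrt (by linarith [hq.2]), add_sub_cancel, Real.sqrt_one] at h
    simp only [one_mul, h1] at h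
    have hi : Integrable (fun p : ℝ × ℝ => Real.exp (f (Real.sqrt q * p.1 + Real.sqrt (1 - q) * p.2)))
        (gam1.prod gam1) :=
      integrable_of_abs_le (hf.exp.comp (by fun_prop)) fun p => exp_bound hb _
    rw [integral_prod _ hi] at h
    exact h
  have h : ∫ z, (gsm f q z - 1) ∂gam1 ≤ psiP f q := by
    refine integral_mono (ig.sub (integrable_const _))
      (integrable_of_abs_le (hg.mul (Real.measurable_log.comp hg)) fun z => hBη _ (gsm_mem hf hb q z))
      fun z => ?_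
    simp only [Pi.sub_apply]
    have hp : 0 < gsm f q z := (Real.exp_pos _).trans_le (gsm_mem hf hb q z).1
    have := mul_le_mul_of_nonneg_left (Real.one_sub_inv_le_log_of_pos hp) hp.le
    rw [mul_sub, mul_one, mul_inv_cancel₀ hp.ne'] at this
    linarith
  rw [integral_sub ig (integrable_const _), hmean] at h
  simpa using h

theorem support_stmt : SupportStmt := by
  intro f K hf hb h1
  refine ⟨fun q hq => psiP_nonneg hf hb h1 hq, fun q hq => ?_⟩
  obtain ⟨hq0, hq1⟩ := hq
  refine ⟨slopeA f q / 2, div_nonneg (integral_nonneg fun z => (fisher_mem hf hb hq1 le_rfl _).1) zero_le_two,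
    fun Q hQ => ?_⟩
  have hlt : ∀ Q ∈ Set.Ico (0 : ℝ) 1, psiP f q + slopeA f q / 2 * (Q - q) ≤ psiP f Q := by
    intro Q hQ
    rcases le_total q Q with h | h
    · linarith [(psiP_chord hf hb hq0 h hQ.2).1]
    · linarith [(psiP_chord hf hb hQ.1 h hq1).2]
  rcases hQ.2.eq_or_lt with rfl | h
  swap
  · exact hlt Q ⟨hQ.1, h⟩
  have hc := (pattern_stmt f K hf hb h1).1 1 ⟨zero_le_one, le_rfl⟩
  have hu : Tendsto (fun n : ℕ => 1 - 1 / ((n : ℝ) + 1)) atTop (𝓝[Set.Icc (0 : ℝ) 1] 1) := by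
    refine tendsto_nhdsWithin_iff.2 ⟨?_, Eventually.of_forall fun n => ?_⟩
    · simpa using (tendsto_one_div_add_atTop_nhds_zero_nat (𝕜 := ℝ)).const_sub 1
    · have : 1 / ((n : ℝ) + 1) ≤ 1 := by rw [div_le_one (by positivity)]; linarith
      exact ⟨by linarith, by linarith [show (0 : ℝ) ≤ 1 / ((n : ℝ) + 1) by positivity]⟩
  refine le_of_tendsto_of_tendsto ?_ (hc.tendsto.comp hu) (Eventually.of_forall fun n => ?_)
    (f := fun n : ℕ => psiP f q + slopeA f q / 2 * (1 - 1 / ((n : ℝ) + 1) - q))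
  · exact (((tendsto_nhds_of_tendsto_nhdsWithin hu).sub_const q).const_mul _).const_add _
  · have h0 : (0 : ℝ) < 1 / ((n : ℝ) + 1) := by positivity
    have h2 : 1 / ((n : ℝ) + 1) ≤ 1 := by rw [div_le_one (by positivity)]; linarith
    exact hlt _ ⟨by linarith, by linarith⟩

end Vale.Agent.P157.Phase
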