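import Mathlib
import Vale.Agent.P157.Phase.Interfaces

/-!
Planted variance of the log-partition function of a state.
-/

noncomputable section

open MeasureTheory ProbabilityTheory Filter
open scoped Topology

namespace Vale.Agent.P157.Phase

open Vale.Agent.P157

section general

variable {A B : Type*} [MeasurableSpace A] [MeasurableSpace B] {P : Measure A}
  [IsProbabilityMeasure P] {Q : Measure B} [IsProbabilityMeasure Q] {L : A × B → ℝ}

/-- Variance along a product, one factor at a time. -/
lemma var_prod (hm : Measurable L) {K u w : ℝ} (hb : ∀ z, |L z| ≤ K)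
    (hu : ∀ b, ∫ a, (L (a, b) - ∫ a', L (a', b) ∂P) ^ 2 ∂P ≤ u)
    (hw : ∫ b, ((∫ a, L (a, b) ∂P) - ∫ b', ∫ a, L (a, b') ∂P ∂Q) ^ 2 ∂Q ≤ w) :
    ∫ z, (L z - ∫ z', L z' ∂P.prod Q) ^ 2 ∂P.prod Q ≤ u + w := by
  have hi : Integrable L (P.prod Q) := integrable_of_abs_le hm hb
  have hLb : ∀ b, Integrable (fun a => L (a, b)) P := fun b =>
    integrable_of_abs_le (hm.comp measurable_prodMk_right) fun a => hb _
  rw [integral_prod_symm _ hi]
  set μ := ∫ b, ∫ a, L (a, b) ∂P ∂Q
  set m : B → ℝ := fun b => ∫ a, L (a, b) ∂P with hmdef
  have hsq : Integrable (fun z => (L z - μ) ^ 2) (P.prod Q) :=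
    integrable_of_abs_le ((hm.sub_const μ).pow_const 2) (K := (K + |μ|) ^ 2) fun z => by
      rw [abs_pow]
      exact pow_le_pow_left₀ (abs_nonneg _) ((abs_sub _ _).trans (by linarith [hb z])) 2
  have hmm : Measurable m := hm.stronglyMeasurable.integral_prod_left'.measurable
  have hmb : ∀ b, |m b| ≤ K := fun b => by
    have := norm_integral_le_of_norm_le_const (μ := P) (f := fun a => L (a, b)) (C := K)
      (Eventually.of_forall fun a => hb _)
    simpa [hmdef] using this
  have hmi : Integrable (fun b => (m b - μ) ^ 2) Q :=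
    integrable_of_abs_le ((hmm.sub_const μ).pow_const 2) (K := (K + |μ|) ^ 2) fun b => by
      rw [abs_pow]
      exact pow_le_pow_left₀ (abs_nonneg _) ((abs_sub _ _).trans (by linarith [hmb b])) 2
  rw [integral_prod_symm _ hsq]
  refine (integral_mono hsq.integral_prod_right ((integrable_const u).add hmi) fun b => ?_).trans ?_
  · have h1 : Integrable (fun a => L (a, b) - m b) P := (hLb b).sub (integrable_const _)
    have h2 : Integrable (fun a => (L (a, b) - m b) ^ 2) P :=
      integrable_of_abs_le ((((hm.comp measurable_prodMk_right)).sub_const _).pow_const 2)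
        (K := (K + K) ^ 2) fun a => by
        rw [abs_pow]
        exact pow_le_pow_left₀ (abs_nonneg _)
          ((abs_sub _ _).trans (add_le_add (hb _) (hmb b))) 2
    simp only [Pi.add_apply]
    rw [show (fun a => (L (a, b) - μ) ^ 2) = fun a =>
        (L (a, b) - m b) ^ 2 + (2 * (m b - μ) * (L (a, b) - m b) + (m b - μ) ^ 2) from
          funext fun a => by ring,
      integral_add h2 ((h1.const_mul (2 * (m b - μ))).fun_add (integrable_const ((m b - μ) ^ 2))),
      integral_add (h1.const_mul _) (integrable_const _), integral_const_mul,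
      integral_sub (hLb b) (integrable_const _)]
    simp only [integral_const, probReal_univ, smul_eq_mul, one_mul, hmdef, sub_self, mul_zero,
      zero_add]
    linarith [hu b]
  · simp only [Pi.add_apply]
    rw [integral_add (integrable_const _) hmi]
    simp only [integral_const, probReal_univ, smul_eq_mul, one_mul]
    linarith

end general

variable {Ω : Type*} [MeasurableSpace Ω] {P : Measure Ω} [IsProbabilityMeasure P]

/-- Bounded differences bound the variance. -/
lemma var_pi {c : ℝ} : ∀ (n : ℕ) (L : (Fin n → Ω) → ℝ), Measurable L → (∀ K, (∀ ω, |L ω| ≤ K) →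
    (∀ ω (a : Fin n) v, |L (Function.update ω a v) - L ω| ≤ c) →
      ∫ ω, (L ω - ∫ ω', L ω' ∂Measure.pi fun _ => P) ^ 2 ∂(Measure.pi fun _ => P) ≤ n * c ^ 2) := by
  intro n
  induction n with
  | zero =>
    intro L _ K _ _
    have e : ∀ ω : Fin 0 → Ω, L ω = L Fin.elim0 := fun ω => congrArg L (Subsingleton.elim _ _)
    simp [e]
  | succ n ih =>
    intro L hm K hb hd
    have e := measurePreserving_piFinSuccAbove (fun _ : Fin (n + 1) => P) 0
    set G : Ω × (Fin n → Ω) → ℝ := fun z => L (Fin.cons z.1 z.2) with hG
    have hcons : Measurable fun z : Ω × (Fin n → Ω) => (Fin.cons z.1 z.2 : Fin (n + 1) → Ω) := by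
      refine measurable_pi_lambda _ fun i => ?_
      induction i using Fin.cases with
      | zero => simp only [Fin.cons_zero]; exact measurable_fst
      | succ i => simp only [Fin.cons_succ]; fun_prop
    have hGm : Measurable G := hm.comp hcons
    have hL : L = fun ω => G (MeasurableEquiv.piFinSuccAbove (fun _ => Ω) 0 ω) := by
      funext ω
      show L ω = L _
      congr 1
      exact (Fin.cons_self_tail ω).symm
    have hint : ∀ F : Ω × (Fin n → Ω) → ℝ,
        ∫ ω, F (MeasurableEquiv.piFinSuccAbove (fun _ => Ω) 0 ω) ∂(Measure.pi fun _ => P) =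
          ∫ z, F z ∂P.prod (Measure.pi fun _ => P) := fun F => e.integral_comp' _
    rw [hL]
    simp only [hint G, hint fun z => (G z - ∫ z', G z' ∂P.prod (Measure.pi fun _ => P)) ^ 2]
    have hvi : ∀ r, Integrable (fun v => G (v, r)) P := fun r =>
      integrable_of_abs_le (hGm.comp measurable_prodMk_right) fun v => hb _
    have hvv : ∀ v v' r, |G (v, r) - G (v', r)| ≤ c := fun v v' r => by
      have := hd (Fin.cons v' r) 0 v
      rwa [Fin.update_cons_zero] at this
    refine (var_prod hGm (fun z => hb _) (u := c ^ 2) (w := n * c ^ 2) (fun r => ?_) ?_).trans_eq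
      (by push_cast; ring)
    · have hp : ∀ v, (G (v, r) - ∫ v', G (v', r) ∂P) ^ 2 ≤ c ^ 2 := fun v => by
        rw [← sq_abs]
        refine pow_le_pow_left₀ (abs_nonneg _) ?_ 2
        have h := norm_integral_le_of_norm_le_const (μ := P)
          (f := fun v' => G (v, r) - G (v', r)) (C := c) (Eventually.of_forall fun v' => hvv v v' r)
        rw [integral_sub (integrable_const _) (hvi r)] at h
        simpa using h
      refine (integral_mono (integrable_of_abs_le
        (((hGm.comp measurable_prodMk_right).sub_const _).pow_const 2)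
        fun v => by rw [abs_of_nonneg (sq_nonneg _)]; exact hp v) (integrable_const _) hp).trans_eq
        (by simp)
    · refine ih (fun r => ∫ v, G (v, r) ∂P) hGm.stronglyMeasurable.integral_prod_left'.measurable K
        (fun r => ?_) fun r a w => ?_
      · have := norm_integral_le_of_norm_le_const (μ := P) (f := fun v => G (v, r)) (C := K)
          (Eventually.of_forall fun v => hb _)
        simpa using this
      · rw [← integral_sub (hvi _) (hvi _)]
        have := norm_integral_le_of_norm_le_const (μ := P)
          (f := fun v => G (v, Function.update r a w) - G (v, r)) (C := c)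
          (Eventually.of_forall fun v => by
            have := hd (Fin.cons v r) a.succ w
            rw [← Fin.cons_update] at this
            exact this)
        simpa using this

lemma abs_lint_sub_le {Y : Type*} [MeasurableSpace Y] {π : Measure Y} [IsProbabilityMeasure π]
    {G G' : Y → ℝ} {K c : ℝ} (hG : Measurable G) (hG' : Measurable G') (hb' : ∀ y, |G' y| ≤ K)
    (hd : ∀ y, |G y - G' y| ≤ c) : |lint π G - lint π G'| ≤ c := by
  have := isProb_tilted (π := π) hG' hb'
  have h := lint_add (π := π) hG' hb' (hG.sub hG') hd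
  rw [show (fun y => G' y + (G - G') y) = G from funext fun y => add_sub_cancel (G' y) (G y)] at h
  rw [h, add_sub_cancel_left]
  exact abs_lint_le (hG.sub hG') hd

variable {N k x : ℕ} {π : Measure (Fin N → ℝ)} [IsProbabilityMeasure π] {f s : ℝ → ℝ} {K K' : ℝ}

lemma slot_update_le {M : ℕ} (hb : ∀ z, |f z| ≤ K) (g : Fin M → Fin N → ℝ) (a : Fin M)
    (v : Fin N → ℝ) (y : Fin N → ℝ) :
    |slots (fun _ => f) (Function.update g a v) y - slots (fun _ => f) g y| ≤ 2 * K := by
  simp only [slots, ← Finset.sum_sub_distrib]
  rw [Finset.sum_eq_single a (fun b _ hba => by rw [Function.update_of_ne hba, sub_self]) (by simp),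
    Function.update_self]
  exact (abs_sub _ _).trans ((add_le_add (hb _) (hb _)).trans_eq (two_mul K).symm)

instance : IsProbabilityMeasure (stP N k x) := by unfold stP; infer_instance

lemma nice_stH (hf : Measurable f) (hs : Measurable s) (hb : ∀ z, |f z| ≤ K)
    (hb' : ∀ z, |s z| ≤ K') : Nice (k * K + x * K') (stH (N := N) f s k x) :=
  (nice_slots (fun _ => hf) fun _ => hb).add (nice_slots (fun _ => hs) fun _ => hb')

/-- The planted free energy of a state does not depend on the planted configuration. -/
lemma state_const (hf : Measurable f) (hs : Measurable s) (hb : ∀ z, |f z| ≤ K)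
    (hb' : ∀ z, |s z| ≤ K') (hsym : PairSym π) :
    ∀ᵐ y ∂π, ∫ p, Real.exp (stH f s k x p y) * lint π (stH f s k x p) ∂stP N k x =
      stJ π f s k x := by
  have hn := nice_stH (N := N) (k := k) (x := x) hf hs hb hb'
  set P1 : (Fin N → ℝ) → ℝ := fun y =>
    ∫ p, Real.exp (stH f s k x p y) * lint π (stH f s k x p) ∂stP N k x
  have hswap : stJ π f s k x = ∫ y, P1 y ∂π := by
    simp only [stJ, ent, exp_lint_eq hn, ← integral_mul_const]
    refine integral_integral_swap (integrable_of_abs_le
      (K := Real.exp (k * K + x * K') * (k * K + x * K'))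
      (hn.meas.exp.mul ((measurable_lint π hn.meas).comp measurable_fst)) fun q => ?_)
    have hl := abs_lint_le (π := π) (hn.meas_left q.1) (hn.bound q.1)
    change |Real.exp _ * lint π (stH f s k x q.1)| ≤ _
    rw [abs_mul, Real.abs_exp]
    exact mul_le_mul (Real.exp_le_exp.2 ((le_abs_self _).trans (hn.bound q.1 q.2))) hl (abs_nonneg _)
      (Real.exp_pos _).le
  rw [hswap]
  filter_upwards [hsym] with y hy
  have hc : ∀ᵐ y' ∂π, P1 y' = P1 y := by
    filter_upwards [hy] with y' ⟨R, hRg, hRπ, hRd, hRy⟩
    have hpi : ∀ M : ℕ, MeasurePreserving (fun (g : Fin M → Fin N → ℝ) a => R (g a))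
        (Measure.pi fun _ => gam (Fin N)) (Measure.pi fun _ => gam (Fin N)) := fun M =>
      measurePreserving_pi (fun _ : Fin M => gam (Fin N)) (fun _ : Fin M => gam (Fin N))
        (f := fun _ => R) fun _ => hRg
    have hp : MeasurePreserving (fun p : (Fin k → Fin N → ℝ) × (Fin x → Fin N → ℝ) =>
        ((fun a => R (p.1 a)), fun a => R (p.2 a))) (stP N k x) (stP N k x) :=
      (hpi k).prod (hpi x)
    have hsl : ∀ p z, stH f s k x ((fun a => R (p.1 a)), fun a => R (p.2 a)) z =
        stH f s k x p (R z) := fun p z => by simp only [stH, slots, term, hRd]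
    have hl : ∀ p, lint π (stH f s k x ((fun a => R (p.1 a)), fun a => R (p.2 a))) =
        lint π (stH f s k x p) := fun p => by
      rw [show stH f s k x ((fun a => R (p.1 a)), fun a => R (p.2 a)) =
        fun z => stH f s k x p (R z) from funext (hsl p), ← lint_map hRπ.measurable (hn.meas_left p),
        hRπ.map_eq]
    have h := integral_map (μ := stP N k x) hp.measurable.aemeasurable
      (f := fun p => Real.exp (stH f s k x p y) * lint π (stH f s k x p))
      ((hn.meas.of_uncurry_right.exp.mul (measurable_lint π hn.meas)).aestronglyMeasurable)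
    rw [hp.map_eq] at h
    simp only [P1]
    rw [h]
    simp only [hsl, hl]
    simp only [stH, slots, term, hRy]
  change P1 y = _
  rw [integral_congr_ae hc]
  simp

/-- Module D2. -/
theorem var_stmt : VarStmt := by
  intro N π hπ hN hne hsym f s K K' hf hs hb hb' h1 h1' k x
  have hn := nice_stH (N := N) (k := k) (x := x) hf hs hb hb'
  set B := k * K + x * K'
  set J := stJ π f s k x
  set L : (Fin k → Fin N → ℝ) × (Fin x → Fin N → ℝ) → ℝ := fun p => lint π (stH f s k x p) with hL
  have hLm : Measurable L := measurable_lint π hn.meas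
  have hLb : ∀ p, |L p| ≤ B := fun p => abs_lint_le (hn.meas_left p) (hn.bound p)
  set D := (B + |J|) ^ 2
  have hD : ∀ p, |(L p - J) ^ 2| ≤ D := fun p => by
    rw [abs_pow]
    exact pow_le_pow_left₀ (abs_nonneg _) ((abs_sub _ _).trans (by linarith [hLb p])) 2
  have hFi : Integrable (Function.uncurry fun p y => Real.exp (stH f s k x p y) * (L p - J) ^ 2)
      ((stP N k x).prod π) := by
    refine integrable_of_abs_le (K := Real.exp B * D)
      (hn.meas.exp.mul (((hLm.sub_const J).pow_const 2).comp measurable_fst)) fun q => ?_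
    change |Real.exp (stH f s k x q.1 q.2) * (L q.1 - J) ^ 2| ≤ _
    rw [abs_mul, Real.abs_exp]
    exact mul_le_mul (Real.exp_le_exp.2 ((le_abs_self _).trans (hn.bound q.1 q.2))) (hD _)
      (abs_nonneg _) (Real.exp_pos _).le
  have hle : ∀ᵐ y ∂π, ∫ p, Real.exp (stH f s k x p y) * (L p - J) ^ 2 ∂stP N k x ≤
      k * (2 * K) ^ 2 + x * (2 * K') ^ 2 := by
    filter_upwards [state_const (k := k) (x := x) hf hs hb hb' hsym, hne] with y hy hy0
    have hnf := nice_term hf hb (measurable_dir (ι := Fin N))
    have hns := nice_term hs hb' (measurable_dir (ι := Fin N))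
    set Pf := (gam (Fin N)).tilted fun g => term f dir g y
    set Ps := (gam (Fin N)).tilted fun g => term s dir g y
    have := isProb_tilted (π := gam (Fin N)) (G := fun g => term f dir g y)
      hnf.meas.of_uncurry_right fun g => hnf.bound g y
    have := isProb_tilted (π := gam (Fin N)) (G := fun g => term s dir g y)
      hns.meas.of_uncurry_right fun g => hns.bound g y
    set Py := (Measure.pi fun _ : Fin k => Pf).prod (Measure.pi fun _ : Fin x => Ps)
    have hint : ∀ φ : (Fin k → Fin N → ℝ) × (Fin x → Fin N → ℝ) → ℝ, Measurable φ → ∀ C,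
        (∀ p, |φ p| ≤ C) → ∫ p, φ p ∂Py = ∫ p, Real.exp (stH f s k x p y) * φ p ∂stP N k x := by
      intro φ hφ C hC
      have hg : ∀ (M : ℕ) (e : ℝ → ℝ), Measurable e → ∀ E, (∀ z, |e z| ≤ E) →
          ∫ z, Real.exp (e z) ∂gam1 = 1 → ∀ ψ : (Fin M → Fin N → ℝ) → ℝ,
          ∫ g, ψ g ∂(Measure.pi fun _ => (gam (Fin N)).tilted fun g => term e dir g y) =
            ∫ g, Real.exp (slots (fun _ => e) g y) * ψ g ∂Measure.pi (fun _ => gam (Fin N)) := by
        intro M e he E hE he1 ψ
        have hne' := nice_term he hE (measurable_dir (ι := Fin N))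
        rw [pi_tilted_eq hne'.meas.of_uncurry_right (fun g => hne'.bound g y)
          (mean_term_eq_one he he1 hN hy0) M, integral_tilted]
        have hden : ∫ g : Fin M → Fin N → ℝ, Real.exp (∑ a, term e dir (g a) y)
            ∂(Measure.pi fun _ => gam (Fin N)) = 1 := by
          simp only [Real.exp_sum]
          rw [integral_fintype_prod_eq_pow (fun g => Real.exp (term e dir g y)),
            mean_term_eq_one he he1 hN hy0, one_pow]
        rw [hden]
        simp only [div_one, smul_eq_mul, slots]
      have hi : Integrable (fun p => Real.exp (stH f s k x p y) * φ p) (stP N k x) :=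
        (integrable_exp_of_abs_le hn.meas.of_uncurry_right fun p => hn.bound p y).mul_bdd
          hφ.aestronglyMeasurable (c := C) (Eventually.of_forall hC)
      rw [integral_prod _ (integrable_of_abs_le hφ hC), stP, integral_prod _ hi,
        hg k f hf K hb h1]
      refine integral_congr_ae (Eventually.of_forall fun g => ?_)
      simp only
      rw [hg x s hs K' hb' h1', ← integral_const_mul]
      simp only [stH, Real.exp_add, mul_assoc]
    rw [← hint _ ((hLm.sub_const J).pow_const 2) D hD]
    have hmean : ∫ p, L p ∂Py = J := (hint L hLm B hLb).trans hy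
    rw [← hmean]
    have hd1 : ∀ g h a v, |L (Function.update g a v, h) - L (g, h)| ≤ 2 * K := fun g h a v =>
      abs_lint_sub_le (hn.meas_left _) (hn.meas_left _) (hn.bound _) fun z => by
        simp only [stH, add_sub_add_right_eq_sub]
        exact slot_update_le hb g a v z
    have hd2 : ∀ g h a v, |L (g, Function.update h a v) - L (g, h)| ≤ 2 * K' := fun g h a v =>
      abs_lint_sub_le (hn.meas_left _) (hn.meas_left _) (hn.bound _) fun z => by
        simp only [stH, add_sub_add_left_eq_sub]
        exact slot_update_le hb' h a v z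
    have hLi : ∀ h, Integrable (fun g => L (g, h)) (Measure.pi fun _ : Fin k => Pf) := fun h =>
      integrable_of_abs_le (hLm.comp measurable_prodMk_right) fun g => hLb _
    refine var_prod hLm hLb (fun h => ?_) ?_
    · exact var_pi k (fun g => L (g, h)) (hLm.comp measurable_prodMk_right) B (fun g => hLb _)
        fun g a v => hd1 g h a v
    · refine var_pi x (fun h => ∫ g, L (g, h) ∂(Measure.pi fun _ : Fin k => Pf))
        hLm.stronglyMeasurable.integral_prod_left'.measurable B (fun h => ?_) fun h a v => ?_
      · have := norm_integral_le_of_norm_le_const (μ := Measure.pi fun _ : Fin k => Pf)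
          (f := fun g => L (g, h)) (C := B) (Eventually.of_forall fun g => hLb _)
        simpa using this
      · rw [← integral_sub (hLi _) (hLi _)]
        have := norm_integral_le_of_norm_le_const (μ := Measure.pi fun _ : Fin k => Pf)
          (f := fun g => L (g, Function.update h a v) - L (g, h)) (C := 2 * K')
          (Eventually.of_forall fun g => hd2 g h a v)
        simpa using this
  simp only [exp_lint_eq hn, ← integral_mul_const]
  rw [integral_integral_swap hFi]
  refine (integral_mono_ae hFi.integral_prod_right (integrable_const _) hle).trans_eq (by simp)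

end Vale.Agent.P157.Phase
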