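import Mathlib
import Vale.Agent.P157.Phase.Path
import Vale.Agent.P157.Phase.Variance
import Vale.Agent.P157.Phase.Support
import Vale.Agent.P157.Phase.Pattern

/-!
Asymptotics of the adaptive paths: the scalar condition decides the planted entropy.
-/

noncomputable section

open MeasureTheory ProbabilityTheory Filter
open scoped Topology

namespace Vale.Agent.P157.Phase

open Vale.Agent.P157

lemma planted_eq_stJ {ρ : Measure ℝ} [IsProbabilityMeasure ρ] {f s : ℝ → ℝ} {K : ℝ} (hf : Measurable f)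
    (hb : ∀ z, |f z| ≤ K) (N M : ℕ) :
    planted ρ f N M = stJ (Measure.pi fun _ : Fin N => ρ) f s M 0 := by
  have hn := nice_slots (N := N) (M := M) (F := fun _ => f) (fun _ => hf) fun _ => hb
  have hφ : MeasurePreserving (fun p : (Fin M → Fin N → ℝ) × (Fin 0 → Fin N → ℝ) => p.1) (stP N M 0)
      (Measure.pi fun _ : Fin M => gam (Fin N)) := measurePreserving_fst
  have e : stH f s M 0 = fun (p : (Fin M → Fin N → ℝ) × (Fin 0 → Fin N → ℝ)) => slots (fun _ => f) p.1 := by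
    funext p y; simp [stH, slots]
  rw [planted, stJ, e]
  exact (ent_congr hφ hn).symm

/-- The monotone maximiser on a finite set of strengths. -/
lemma exists_monotone_argmax (ψ : ℝ → ℝ) {S : Finset ℝ} (hS : S.Nonempty) :
    ∃ rs : ℝ → ℝ, Monotone rs ∧ (∀ Q, rs Q ∈ S) ∧
      ∀ Q, ∀ r ∈ S, r * Q / 2 - ψ r ≤ rs Q * Q / 2 - ψ (rs Q) := by
  classical
  set A : ℝ → Finset ℝ := fun Q => S.filter fun r => ∀ r' ∈ S, r' * Q / 2 - ψ r' ≤ r * Q / 2 - ψ r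
  have hA : ∀ Q, (A Q).Nonempty := fun Q => by
    obtain ⟨r, hr, hmax⟩ := S.exists_max_image (fun r => r * Q / 2 - ψ r) hS
    exact ⟨r, Finset.mem_filter.2 ⟨hr, hmax⟩⟩
  have hm := fun Q => Finset.mem_filter.1 ((A Q).max'_mem (hA Q))
  refine ⟨fun Q => (A Q).max' (hA Q), fun Q Q' hQ => ?_, fun Q => (hm Q).1, fun Q r hr => (hm Q).2 r hr⟩
  by_contra hcon
  obtain ⟨r, hr⟩ : ∃ r, r = (A Q).max' (hA Q) := ⟨_, rfl⟩
  obtain ⟨r', hr'⟩ : ∃ r', r' = (A Q').max' (hA Q') := ⟨_, rfl⟩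
  simp only [← hr, ← hr', not_le] at hcon
  have h1 := (hm Q).2 r' (hr' ▸ (hm Q').1)
  rw [← hr] at h1
  have h2 : r ∈ A Q' := by
    refine Finset.mem_filter.2 ⟨hr ▸ (hm Q).1, fun z hz => ?_⟩
    have h3 := (hm Q').2 z hz
    rw [← hr'] at h3
    have := mul_nonneg (sub_nonneg.2 hcon.le) (sub_nonneg.2 hQ)
    linarith
  have := (A Q').le_max' r h2
  linarith [hr'.symm ▸ this]

/-- Finitely many strengths certify the scalar condition. -/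
lemma exists_cover {f : ℝ → ℝ} {ψ : ℝ → ℝ} {α η : ℝ} (hcont : ContinuousOn (psiP f) (Set.Icc 0 1))
    (hη : 0 < η) (h : ∀ q ∈ Set.Ico (0 : ℝ) 1, ∀ ε > 0, ∃ r ≥ (0 : ℝ), α * psiP f q ≤ r * q / 2 - ψ r + ε) :
    ∃ S : Finset ℝ, S.Nonempty ∧ (∀ r ∈ S, 0 ≤ r) ∧
      ∀ Q ∈ Set.Icc (0 : ℝ) 1, ∃ r ∈ S, α * psiP f Q ≤ r * Q / 2 - ψ r + η := by
  classical
  have hloc : ∀ q ∈ Set.Icc (0 : ℝ) 1, ∃ r : ℝ, 0 ≤ r ∧ α * psiP f q < r * q / 2 - ψ r + η := by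
    intro q hq
    rcases eq_or_lt_of_le hq.2 with h1 | h1
    · subst h1
      have hc : Tendsto (fun x => α * psiP f x) (𝓝[Set.Icc (0 : ℝ) 1] 1) (𝓝 (α * psiP f 1)) :=
        ((hcont 1 (by simp)).const_smul α)
      have hev := hc.eventually (lt_mem_nhds (show α * psiP f 1 - η / 4 < α * psiP f 1 by linarith))
      rw [eventually_nhdsWithin_iff, Metric.eventually_nhds_iff] at hev
      obtain ⟨d, hd, hev⟩ := hev
      obtain ⟨q, hq⟩ : ∃ q, q = max (1 / 2) (1 - d / 2) := ⟨_, rfl⟩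
      have q1 : q < 1 := hq ▸ max_lt (by norm_num) (by linarith)
      have q0 : 1 / 2 ≤ q := hq ▸ le_max_left _ _
      have q2 : 1 - d / 2 ≤ q := hq ▸ le_max_right _ _
      have := hev (y := q) (by rw [Real.dist_eq, abs_of_neg (by linarith)]; linarith) ⟨by linarith, q1.le⟩
      obtain ⟨r, hr, hr'⟩ := h q ⟨by linarith, q1⟩ (η / 4) (by linarith)
      refine ⟨r, hr, ?_⟩
      linarith [mul_le_mul_of_nonneg_left q1.le hr]
    · obtain ⟨r, hr, hr'⟩ := h q ⟨hq.1, h1⟩ (η / 2) (by linarith)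
      exact ⟨r, hr, by linarith⟩
  choose! rq hr0 hrq using hloc
  have hopen : ∀ q ∈ Set.Icc (0 : ℝ) 1,
      {Q | α * psiP f Q < rq q * Q / 2 - ψ (rq q) + η} ∈ 𝓝[Set.Icc (0 : ℝ) 1] q := by
    intro q hq
    have hg : ContinuousWithinAt (fun Q => rq q * Q / 2 - ψ (rq q) + η - α * psiP f Q) (Set.Icc 0 1) q :=
      ((by fun_prop : Continuous fun Q => rq q * Q / 2 - ψ (rq q) + η).continuousWithinAt).sub
        ((hcont q hq).const_smul α)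
    filter_upwards [hg.eventually (lt_mem_nhds (show (0 : ℝ) < rq q * q / 2 - ψ (rq q) + η - α * psiP f q by
      linarith [hrq q hq]))] with Q hQ
    change α * psiP f Q < rq q * Q / 2 - ψ (rq q) + η
    linarith
  obtain ⟨T, hT, hcov⟩ := isCompact_Icc.elim_nhdsWithin_subcover _ hopen
  refine ⟨T.image rq, ?_, ?_, ?_⟩
  · obtain ⟨i, hi, -⟩ := Set.mem_iUnion₂.1 (hcov (Set.left_mem_Icc.2 zero_le_one))
    exact ⟨rq i, Finset.mem_image_of_mem _ hi⟩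
  · intro r hr
    obtain ⟨i, hi, rfl⟩ := Finset.mem_image.1 hr
    exact hr0 i (hT i hi)
  · intro Q hQ
    obtain ⟨i, hi, hi'⟩ := Set.mem_iUnion₂.1 (hcov hQ)
    exact ⟨rq i, Finset.mem_image_of_mem _ hi, le_of_lt hi'⟩

lemma sideErr_le {a t : ℝ} (ha : 0 < a) (ht5 : t ≤ a ^ 5 / 4) : sideErr t a ≤ 2 * a ^ 2 * t ^ 2 := by
  have h5 : 4 * (t / a) ^ 3 ≤ a ^ 2 * t ^ 2 := by
    rw [div_pow, ← mul_div_assoc, div_le_iff₀ (pow_pos ha 3)]
    nlinarith [mul_le_mul_of_nonneg_left ht5 (sq_nonneg t)]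
  rw [sideErr]; linarith

/-- Size of all error terms that do not vanish with the bandwidth or with `1 / N`. -/
lemma row_asymp {K α R δ σ l a t : ℝ} (hα : 0 ≤ α) (hR : 0 ≤ R) (hδ : 0 < δ) (hσ : 0 < σ) (hl : 0 < l)
    (hp : SideOK t a) (ht5 : t ≤ a ^ 5 / 4) :
    ∃ B : ℝ, 0 ≤ B ∧ ∀ (N M : ℕ), 0 < N → (M : ℝ) ≤ α * N →
      ((⌈δ * (N : ℝ) / t ^ 2⌉₊ : ℕ) : ℝ) * (t ^ 2 / 2 + sideErr t a) ≤ 3 * δ * N + B ∧
      δ * N / t ^ 2 ≤ ((⌈δ * (N : ℝ) / t ^ 2⌉₊ : ℕ) : ℝ) ∧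
      (M : ℝ) * rowBound K t a l M (⌈δ * (N : ℝ) / t ^ 2⌉₊ + ⌊R * (N : ℝ) / t ^ 2⌋₊)
          ⌈σ * (N : ℝ) / t ^ 2⌉₊ / ((⌈δ * (N : ℝ) / t ^ 2⌉₊ : ℕ) : ℝ) ≤
        α * N * ((8 * (1 + 1 / l) + 64) * (1 + R / δ) * a ^ 2 + l * (1 + R / δ) + 4 * σ / δ) + B := by
  obtain ⟨ρ', hρ'⟩ : ∃ z, z = 1 + R / δ := ⟨_, rfl⟩
  obtain ⟨V, hV⟩ : ∃ V, V = 4 * α * K ^ 2 + 16 / a ^ 2 * (δ + R + σ + 2) := ⟨_, rfl⟩
  have ha := hp.ha
  have ht := hp.ht
  have ht2 : 0 < t ^ 2 := pow_pos ht 2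
  have hρ0 : 0 ≤ ρ' := hρ' ▸ by positivity
  have hV0 : 0 ≤ V := hV ▸ by positivity
  refine ⟨3 + α * ((1 + 1 / l) * (2 / δ) + 4 / δ + 32 * V / σ ^ 2 * ρ'), by positivity,
    fun N M hN hM => ?_⟩
  have hN' : (1 : ℝ) ≤ N := by exact_mod_cast hN
  obtain ⟨L, hL⟩ : ∃ L : ℕ, L = ⌈δ * (N : ℝ) / t ^ 2⌉₊ := ⟨_, rfl⟩
  obtain ⟨P, hP⟩ : ∃ P : ℕ, P = ⌈σ * (N : ℝ) / t ^ 2⌉₊ := ⟨_, rfl⟩
  obtain ⟨F, hF⟩ : ∃ F : ℕ, F = ⌊R * (N : ℝ) / t ^ 2⌋₊ := ⟨_, rfl⟩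
  rw [← hL, ← hP, ← hF, ← hρ']
  have hνa : t ^ 2 ≤ a ^ 2 := pow_le_pow_left₀ ht.le (by linarith [hp.hta]) 2
  have hν1 : t ^ 2 ≤ 1 := hνa.trans (pow_le_one₀ ha.le hp.ha1)
  have ha2 : a ^ 2 ≤ 1 := pow_le_one₀ ha.le hp.ha1
  have he2 : sideErr t a / t ^ 2 ≤ 2 * a ^ 2 := by
    rw [div_le_iff₀ ht2, sideErr]
    have h1 : 4 * (t / a) ^ 3 ≤ a ^ 2 * t ^ 2 := by
      rw [div_pow, ← mul_div_assoc, div_le_iff₀ (pow_pos ha 3)]
      nlinarith [mul_le_mul_of_nonneg_left ht5 ht2.le]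
    linarith
  have he2' : (sideErr t a / t ^ 2) ^ 2 ≤ 4 * a ^ 2 := by
    have := pow_le_pow_left₀ (div_nonneg hp.err_nonneg ht2.le) he2 2
    nlinarith [mul_le_mul_of_nonneg_left ha2 (sq_nonneg a)]
  have L1 : δ * N / t ^ 2 ≤ L := hL ▸ Nat.le_ceil _
  have L2 : (L : ℝ) * t ^ 2 ≤ δ * N + 1 := by
    have := Nat.ceil_lt_add_one (show 0 ≤ δ * (N : ℝ) / t ^ 2 by positivity)
    rw [← hL] at this
    have := mul_le_mul_of_nonneg_right this.le ht2.le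
    rw [add_mul, div_mul_cancel₀ _ ht2.ne', one_mul] at this
    linarith
  have P1 : σ * N / t ^ 2 ≤ P := hP ▸ Nat.le_ceil _
  have P2 : (P : ℝ) * t ^ 2 ≤ σ * N + 1 := by
    have := Nat.ceil_lt_add_one (show 0 ≤ σ * (N : ℝ) / t ^ 2 by positivity)
    rw [← hP] at this
    have := mul_le_mul_of_nonneg_right this.le ht2.le
    rw [add_mul, div_mul_cancel₀ _ ht2.ne', one_mul] at this
    linarith
  have F1 : (F : ℝ) ≤ R * N / t ^ 2 := hF ▸ Nat.floor_le (by positivity)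
  rw [div_le_iff₀ ht2] at L1 P1
  rw [le_div_iff₀ ht2] at F1
  have hL0 : (0 : ℝ) < L := by
    have : 0 < δ * (N : ℝ) := mul_pos hδ (by linarith)
    by_contra hcon
    nlinarith [not_lt.1 hcon]
  have hP0 : 0 < (P : ℝ) * t ^ 2 := lt_of_lt_of_le (mul_pos hσ (by linarith)) P1
  refine ⟨?_, (div_le_iff₀ ht2).2 L1, ?_⟩
  · have h1 : t ^ 2 / 2 + sideErr t a ≤ t ^ 2 * 3 := by
      rw [div_le_iff₀ ht2] at he2
      linarith [mul_le_mul_of_nonneg_right ha2 ht2.le]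
    have h2 := mul_le_mul_of_nonneg_left h1 (Nat.cast_nonneg (α := ℝ) L)
    have : 0 ≤ α * ((1 + 1 / l) * (2 / δ) + 4 / δ + 32 * V / σ ^ 2 * ρ') := by positivity
    linarith
  obtain ⟨X, hX⟩ : ∃ X : ℝ, X = ((L + F : ℕ) : ℝ) := ⟨_, rfl⟩
  have hX' : X = (L : ℝ) + F := by rw [hX]; push_cast; ring
  have hXL : X / L ≤ ρ' := by
    rw [hX', hρ', add_div, div_self hL0.ne']
    refine add_le_add le_rfl ?_
    rw [div_le_div_iff₀ hL0 hδ]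
    refine le_of_mul_le_mul_right (a := t ^ 2) ?_ ht2
    calc (F : ℝ) * δ * t ^ 2 = δ * ((F : ℝ) * t ^ 2) := by ring
      _ ≤ δ * (R * N) := mul_le_mul_of_nonneg_left F1 hδ.le
      _ = R * (δ * N) := by ring
      _ ≤ R * ((L : ℝ) * t ^ 2) := mul_le_mul_of_nonneg_left L1 hR
      _ = R * L * t ^ 2 := by ring
  have hvar : varBound K t a M ((L + F) + P) ≤ N * V := by
    have e : ((L + F + P : ℕ) : ℝ) * (2 * (2 * (t / a))) ^ 2 =
        16 / a ^ 2 * ((L : ℝ) * t ^ 2 + (F : ℝ) * t ^ 2 + (P : ℝ) * t ^ 2) := by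
      push_cast; field_simp; ring
    unfold varBound
    rw [e, hV]
    have g1 := mul_le_mul_of_nonneg_right hM (show 0 ≤ (2 * K) ^ 2 by positivity)
    have g2 := mul_le_mul_of_nonneg_left
      (show (L : ℝ) * t ^ 2 + (F : ℝ) * t ^ 2 + (P : ℝ) * t ^ 2 ≤ N * (δ + R + σ + 2) by linarith)
      (show 0 ≤ 16 / a ^ 2 by positivity)
    linarith
  have hd1 : 2 / t ^ 2 / L ≤ 2 / δ / N := by
    rw [div_div, div_div, div_le_div_iff₀ (by positivity) (by positivity)]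
    linarith
  have hd2 : 4 * (P : ℝ) / L ≤ 4 * σ / δ + 4 / δ / N := by
    have e : 4 * σ / δ + 4 / δ / N = 4 * (σ * N + 1) / (δ * N) := by field_simp
    rw [e, div_le_div_iff₀ hL0 (by positivity)]
    refine le_of_mul_le_mul_right (a := t ^ 2) ?_ ht2
    calc 4 * (P : ℝ) * (δ * N) * t ^ 2 = 4 * ((P : ℝ) * t ^ 2) * (δ * N) := by ring
      _ ≤ 4 * (σ * N + 1) * ((L : ℝ) * t ^ 2) := by
        refine mul_le_mul (mul_le_mul_of_nonneg_left P2 (by norm_num)) L1 (by positivity) ?_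
        positivity
      _ = 4 * (σ * N + 1) * L * t ^ 2 := by ring
  have hd3 : 32 * varBound K t a M (L + F + P) / ((P : ℝ) * t ^ 2) ^ 2 ≤ 32 * V / σ ^ 2 / N := by
    calc 32 * varBound K t a M (L + F + P) / ((P : ℝ) * t ^ 2) ^ 2 ≤ 32 * (N * V) / (σ * N) ^ 2 :=
          div_le_div₀ (by positivity) (by linarith) (by positivity)
            (pow_le_pow_left₀ (by positivity) P1 2)
      _ = _ := by field_simp
  have hrow : rowBound K t a l M (L + F) P / L ≤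
      (8 * (1 + 1 / l) + 64) * ρ' * a ^ 2 + l * ρ' + 4 * σ / δ +
        ((1 + 1 / l) * (2 / δ) + 4 / δ + 32 * V / σ ^ 2 * ρ') / N := by
    have e : rowBound K t a l M (L + F) P / L = (1 + 1 / l) * (2 / t ^ 2 / L) +
        (8 * (1 + 1 / l) * a ^ 2 + l + 16 * (sideErr t a / t ^ 2) ^ 2) * (X / L) + 4 * P / L +
        32 * varBound K t a M (L + F + P) / ((P : ℝ) * t ^ 2) ^ 2 * (X / L) := by
      rw [rowBound, hX]; ring
    rw [e]
    have g1 := mul_le_mul_of_nonneg_left hd1 (show 0 ≤ 1 + 1 / l by positivity)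
    have hXL0 : 0 ≤ X / L := by rw [hX']; positivity
    have g2 := mul_le_mul (show 8 * (1 + 1 / l) * a ^ 2 + l + 16 * (sideErr t a / t ^ 2) ^ 2 ≤
        8 * (1 + 1 / l) * a ^ 2 + l + 64 * a ^ 2 by linarith) hXL hXL0 (by positivity)
    have g3 := mul_le_mul hd3 hXL hXL0 (by positivity)
    have e2 : ((1 + 1 / l) * (2 / δ) + 4 / δ + 32 * V / σ ^ 2 * ρ') / N =
        (1 + 1 / l) * (2 / δ / N) + 4 / δ / N + 32 * V / σ ^ 2 / N * ρ' := by ring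
    rw [e2]
    linarith
  rw [mul_div_assoc]
  refine (mul_le_mul_of_nonneg_left hrow (Nat.cast_nonneg M)).trans ?_
  obtain ⟨A, hA⟩ : ∃ A, A = (8 * (1 + 1 / l) + 64) * ρ' * a ^ 2 + l * ρ' + 4 * σ / δ := ⟨_, rfl⟩
  obtain ⟨B, hB⟩ : ∃ B, B = (1 + 1 / l) * (2 / δ) + 4 / δ + 32 * V / σ ^ 2 * ρ' := ⟨_, rfl⟩
  rw [← hA, ← hB]
  have hA0 : 0 ≤ A := hA ▸ by positivity
  have hB0 : 0 ≤ B / N := hB ▸ by positivity
  have g1 := mul_le_mul_of_nonneg_right hM (add_nonneg hA0 hB0)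
  have e3 : α * (N : ℝ) * (B / N) = α * B := by field_simp
  linarith

/-- A bandwidth that makes a given multiple of `a ^ 2` small, below given thresholds. -/
lemma exists_small (A γ : ℝ) (hγ : 0 < γ) {a₀ : ℝ} (h : 0 < a₀) :
    ∃ a : ℝ, 0 < a ∧ a ≤ a₀ ∧ a ≤ 1 ∧ A * a ^ 2 ≤ γ := by
  obtain ⟨a, ha⟩ : ∃ a, a = min a₀ (min 1 (γ / (|A| + 1))) := ⟨_, rfl⟩
  have h0 : 0 < a := ha ▸ lt_min h (lt_min one_pos (by positivity))
  have h1 : a ≤ 1 := ha ▸ (min_le_right _ _).trans (min_le_left _ _)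
  have h2 : a ≤ γ / (|A| + 1) := ha ▸ (min_le_right _ _).trans (min_le_right _ _)
  rw [le_div_iff₀ (by positivity)] at h2
  refine ⟨a, h0, ha ▸ min_le_left _ _, h1, ?_⟩
  calc A * a ^ 2 ≤ |A| * a ^ 2 := mul_le_mul_of_nonneg_right (le_abs_self A) (sq_nonneg a)
    _ ≤ |A| * a := mul_le_mul_of_nonneg_left (by nlinarith) (abs_nonneg A)
    _ ≤ γ := by linarith

lemma ae_pi_ne_zero {ρ : Measure ℝ} [IsProbabilityMeasure ρ] (hρ0 : ρ {0} = 0) (N : ℕ) :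
    ∀ᵐ y ∂(Measure.pi fun _ : Fin N => ρ), ∀ i, y i ≠ 0 := by
  rw [ae_all_iff]
  intro i
  have hz : ∀ᵐ x ∂ρ, x ≠ 0 := by rw [ae_iff]; simpa using hρ0
  exact (measurePreserving_eval (fun _ : Fin N => ρ) i).quasiMeasurePreserving.ae hz

theorem adapt_upper {ρ : Measure ℝ} [IsProbabilityMeasure ρ] (hρ0 : ρ {0} = 0)
    (hsym : ∀ N : ℕ, PairSym (Measure.pi fun _ : Fin N => ρ)) {ψ : ℝ → ℝ} (hbase : BaseStmt ρ ψ)
    {f : ℝ → ℝ} {K : ℝ} (hf : Measurable f) (hb : ∀ z, |f z| ≤ K) (h1 : ∫ z, Real.exp (f z) ∂gam1 = 1)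
    {α : ℝ} (hα : 0 < α)
    (hcond : ∀ q ∈ Set.Ico (0 : ℝ) 1, ∀ ε > 0, ∃ r ≥ (0 : ℝ), α * psiP f q ≤ r * q / 2 - ψ r + ε)
    {γ : ℝ} (hγ : 0 < γ) :
    ∀ᶠ N : ℕ in atTop, planted ρ f N ⌊α * N⌋₊ ≤ γ * N := by
  obtain ⟨hcont, hpat⟩ := pattern_stmt f K hf hb h1
  obtain ⟨hψ0, -⟩ := support_stmt f K hf hb h1
  obtain ⟨C, hC0, hC⟩ := hpat (γ / (8 * α)) (by positivity)
  obtain ⟨S, hSne, hS0, hScov⟩ := exists_cover (η := γ / 16) hcont (by positivity) hcond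
  obtain ⟨rs, hmono, hrsS, hrsmax⟩ := exists_monotone_argmax ψ hSne
  obtain ⟨R, hR⟩ : ∃ R, R = S.max' hSne := ⟨_, rfl⟩
  have hrs : ∀ Q, rs Q ∈ Set.Icc 0 R := fun Q => ⟨hS0 _ (hrsS Q), hR ▸ S.le_max' _ (hrsS Q)⟩
  have hR0 : 0 ≤ R := (hrs 0).1.trans (hrs 0).2
  have hcov : ∀ Q ∈ Set.Icc (0 : ℝ) 1, α * psiP f Q ≤ rs Q * Q / 2 - ψ (rs Q) + γ / 16 := fun Q hQ => by
    obtain ⟨r, hr, hr'⟩ := hScov Q hQ
    linarith [hrsmax Q r hr]
  obtain ⟨δ, hδ⟩ : ∃ δ, δ = γ / 24 := ⟨_, rfl⟩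
  have hδ0 : 0 < δ := by rw [hδ]; positivity
  obtain ⟨ρ', hρ'⟩ : ∃ z, z = 1 + R / δ := ⟨_, rfl⟩
  have hρ0' : 0 < ρ' := by rw [hρ']; positivity
  obtain ⟨l, hl⟩ : ∃ l, l = γ / (16 * ((C * α + 1) * ρ')) := ⟨_, rfl⟩
  obtain ⟨σ, hσ⟩ : ∃ σ, σ = δ * γ / (64 * (C * α + 1)) := ⟨_, rfl⟩
  have hCα : 0 ≤ C * α := mul_nonneg hC0 hα.le
  have hl0 : 0 < l := by rw [hl]; positivity
  have hσ0 : 0 < σ := by rw [hσ]; positivity
  have hl' : C * α * (l * ρ') ≤ γ / 16 := by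
    rw [hl, show C * α * (γ / (16 * ((C * α + 1) * ρ')) * ρ') = γ / 16 * (C * α / (C * α + 1)) by field_simp]
    exact mul_le_of_le_one_right (by positivity) ((div_le_one (by linarith)).2 (by linarith))
  have hσ' : C * α * (4 * σ / δ) ≤ γ / 16 := by
    rw [hσ, show C * α * (4 * (δ * γ / (64 * (C * α + 1))) / δ) = γ / 16 * (C * α / (C * α + 1)) by
      field_simp; ring]
    exact mul_le_of_le_one_right (by positivity) ((div_le_one (by linarith)).2 (by linarith))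
  choose! a₀ ha₀ ht₀ using fun r (hr : 0 ≤ r) => hbase r hr (γ / 16) (by positivity)
  obtain ⟨amin, hamin⟩ : ∃ z, z = S.inf' hSne a₀ := ⟨_, rfl⟩
  have hamin0 : 0 < amin := hamin ▸ (Finset.lt_inf'_iff hSne).2 fun r hr => ha₀ r (hS0 r hr)
  obtain ⟨a, ha0, haa, ha1, haA⟩ := exists_small
    (α + 4 * R + C * α * ((8 * (1 + 1 / l) + 64) * ρ')) (γ / 8) (by positivity) hamin0
  choose! t₀ ht₀m hev using fun r (hr : r ∈ S) =>
    ht₀ r (hS0 r hr) a ⟨ha0, haa.trans (hamin ▸ Finset.inf'_le a₀ hr)⟩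
  obtain ⟨t, ht⟩ : ∃ t, t = min (S.inf' hSne t₀) (min (a / 2) (a ^ 5 / 4)) := ⟨_, rfl⟩
  have htm : t ≤ a / 2 := ht ▸ (min_le_right _ _).trans (min_le_left _ _)
  have ht5 : t ≤ a ^ 5 / 4 := ht ▸ (min_le_right _ _).trans (min_le_right _ _)
  have htpos : 0 < t := ht ▸ lt_min ((Finset.lt_inf'_iff hSne).2 fun r hr => (ht₀m r hr).1)
    (lt_min (by positivity) (by positivity))
  have hp : SideOK t a := ⟨ha0, ha1, htpos, htm⟩
  have hevS : ∀ᶠ N : ℕ in atTop, ∀ r ∈ S,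
      |ent (Measure.pi fun _ => gam (Fin N)) (slots fun _ : Fin ⌊r * (N : ℝ) / t ^ 2⌋₊ => sineF t a)
        (Measure.pi fun _ : Fin N => ρ) / N - ψ r| ≤ γ / 16 :=
    (Filter.eventually_all_finset S).2 fun r hr =>
      hev r hr t ⟨htpos, (ht ▸ min_le_left _ _).trans (Finset.inf'_le t₀ hr)⟩
  obtain ⟨B, hB0, hrow⟩ := row_asymp (K := K) hα.le hR0 hδ0 hσ0 hl0 hp ht5
  filter_upwards [hevS, eventually_gt_atTop 0,
    (tendsto_natCast_atTop_atTop (R := ℝ)).eventually_ge_atTop (8 * (B + C * B) / γ + 2 / α)] with N hN hN0 hNbig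
  obtain ⟨M, hMd⟩ : ∃ M, M = ⌊α * (N : ℝ)⌋₊ := ⟨_, rfl⟩
  rw [← hMd]
  have hN' : (0 : ℝ) < N := Nat.cast_pos.2 hN0
  have hMα : (M : ℝ) ≤ α * N := hMd ▸ Nat.floor_le (by positivity)
  have hM1 : 0 < M := by
    rw [hMd, Nat.floor_pos]
    have : 2 / α ≤ N := le_trans (le_add_of_nonneg_left (by positivity)) hNbig
    rw [div_le_iff₀ hα] at this; linarith
  set π := Measure.pi fun _ : Fin N => ρ
  have h2 := hp.slot2 hf hb h1
  have hbaseN : ∀ Q, stJ π f (sineF t a) 0 ⌊rs Q * (N : ℝ) / t ^ 2⌋₊ ≤ N * (ψ (rs Q) + γ / 16) := fun Q => by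
    have hq := (abs_le.1 (hN _ (hrsS Q))).2
    rw [sub_le_iff_le_add', div_le_iff₀ hN'] at hq
    have e : ∀ x : ℕ, stJ π f (sineF t a) 0 x =
        ent (Measure.pi fun _ => gam (Fin N)) (slots fun _ : Fin x => sineF t a) π := fun x => by
      have hφ : MeasurePreserving (fun p : (Fin 0 → Fin N → ℝ) × (Fin x → Fin N → ℝ) => p.2) (stP N 0 x)
          (Measure.pi fun _ : Fin x => gam (Fin N)) := measurePreserving_snd
      have e : stH f (sineF t a) 0 x =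
          fun (p : (Fin 0 → Fin N → ℝ) × (Fin x → Fin N → ℝ)) => slots (fun _ => sineF t a) p.2 := by
        funext p y; simp [stH, slots]
      rw [stJ, e]
      exact ent_congr hφ (nice_slots (fun _ => h2.ms) fun _ => h2.bs)
    rw [e]; linarith
  have hLpos : 0 < ⌈δ * (N : ℝ) / t ^ 2⌉₊ := Nat.ceil_pos.2 (by positivity)
  have hPpos : 0 < ⌈σ * (N : ℝ) / t ^ 2⌉₊ := Nat.ceil_pos.2 (by positivity)
  obtain ⟨r1, -, r2⟩ := hrow N M hN0 hMα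
  have hmain := upper_N var_stmt hp h2 hN0 (ae_pi_ne_zero hρ0 N) (hsym N) hC0
    (fun σ' hσ' hne' => hC N σ' hσ' hN0 hne') hψ0 hmono hrs hcov hbaseN hM1 hMα hLpos hPpos hl0
  rw [planted_eq_stJ (s := sineF t a) hf hb]
  rw [mul_assoc C (M : ℝ), mul_div_assoc C] at hmain
  have r3 := mul_le_mul_of_nonneg_left r2 hC0
  have he : 2 * (R * N / t ^ 2) * sideErr t a ≤ 4 * R * a ^ 2 * N := by
    have h5 : 4 * (t / a) ^ 3 ≤ a ^ 2 * t ^ 2 := by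
      rw [div_pow, ← mul_div_assoc, div_le_iff₀ (pow_pos ha0 3)]
      nlinarith [mul_le_mul_of_nonneg_left ht5 (sq_nonneg t)]
    have h6 : sideErr t a ≤ 2 * a ^ 2 * t ^ 2 := by rw [sideErr]; linarith
    refine (mul_le_mul_of_nonneg_left h6 (by positivity)).trans (le_of_eq ?_)
    field_simp; ring
  have hM2 : (M : ℝ) * (t ^ 2 / 2) ≤ α * a ^ 2 * N := by
    refine (mul_le_mul hMα (show t ^ 2 / 2 ≤ a ^ 2 by
      linarith [pow_le_pow_left₀ htpos.le (show t ≤ a by linarith) 2, sq_nonneg a]) (by positivity)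
      (by positivity)).trans (le_of_eq (by ring))
  have hε : γ / (8 * α) * M ≤ γ / 8 * N := by
    refine (mul_le_mul_of_nonneg_left hMα (by positivity)).trans (le_of_eq ?_)
    field_simp
  have hA := mul_le_mul_of_nonneg_right haA hN'.le
  have hL' := mul_le_mul_of_nonneg_right hl' hN'.le
  have hS' := mul_le_mul_of_nonneg_right hσ' hN'.le
  have hB : B + C * B ≤ γ / 8 * N := by
    have := le_trans (le_add_of_nonneg_right (show (0 : ℝ) ≤ 2 / α by positivity)) hNbig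
    rw [div_le_iff₀ hγ] at this; linarith
  rw [← hρ'] at r3
  have hδN : 3 * δ * (N : ℝ) = γ / 8 * N := by rw [hδ]; ring
  linarith only [hmain, r1, r3, he, hM2, hε, hA, hL', hS', hB, hδN, mul_pos hγ hN']

theorem adapt_lower {ρ : Measure ℝ} [IsProbabilityMeasure ρ] (hρ0 : ρ {0} = 0)
    (hsym : ∀ N : ℕ, PairSym (Measure.pi fun _ : Fin N => ρ)) {ψ : ℝ → ℝ} (hbase : BaseStmt ρ ψ)
    {f : ℝ → ℝ} {K : ℝ} (hf : Measurable f) (hb : ∀ z, |f z| ≤ K) (h1 : ∫ z, Real.exp (f z) ∂gam1 = 1)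
    {α q ε₀ : ℝ} (hα : 0 < α) (hq : q ∈ Set.Ico (0 : ℝ) 1) (hε₀ : 0 < ε₀)
    (hfail : ∀ r ≥ (0 : ℝ), r * q / 2 - ψ r + ε₀ < α * psiP f q) :
    ∃ δ > 0, ∀ᶠ N : ℕ in atTop, δ * N ≤ planted ρ f N ⌊α * N⌋₊ := by
  obtain ⟨-, hpat⟩ := pattern_stmt f K hf hb h1
  obtain ⟨-, hsupp⟩ := support_stmt f K hf hb h1
  obtain ⟨p, hp0, hline⟩ := hsupp q hq
  obtain ⟨C, hC0, hC⟩ := hpat (ε₀ / (8 * α)) (by positivity)
  obtain ⟨R, hR⟩ : ∃ R, R = 2 * α * p := ⟨_, rfl⟩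
  have hR0 : 0 ≤ R := by rw [hR]; positivity
  have hgain := hfail R hR0
  rw [show R * q / 2 = α * p * q by rw [hR]; ring] at hgain
  obtain ⟨δ, hδ⟩ : ∃ δ, δ = ε₀ / 24 := ⟨_, rfl⟩
  have hδ0 : 0 < δ := by rw [hδ]; positivity
  obtain ⟨ρ', hρ'⟩ : ∃ z, z = 1 + R / δ := ⟨_, rfl⟩
  have hρ0' : 0 < ρ' := by rw [hρ']; positivity
  obtain ⟨l, hl⟩ : ∃ l, l = ε₀ / (16 * ((C * α + 1) * ρ')) := ⟨_, rfl⟩
  obtain ⟨σ, hσ⟩ : ∃ σ, σ = δ * ε₀ / (64 * (C * α + 1)) := ⟨_, rfl⟩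
  have hCα : 0 ≤ C * α := mul_nonneg hC0 hα.le
  have hl0 : 0 < l := by rw [hl]; positivity
  have hσ0 : 0 < σ := by rw [hσ]; positivity
  have hl' : C * α * (l * ρ') ≤ ε₀ / 16 := by
    rw [hl, show C * α * (ε₀ / (16 * ((C * α + 1) * ρ')) * ρ') = ε₀ / 16 * (C * α / (C * α + 1)) by field_simp]
    exact mul_le_of_le_one_right (by positivity) ((div_le_one (by linarith)).2 (by linarith))
  have hσ' : C * α * (4 * σ / δ) ≤ ε₀ / 16 := by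
    rw [hσ, show C * α * (4 * (δ * ε₀ / (64 * (C * α + 1))) / δ) = ε₀ / 16 * (C * α / (C * α + 1)) by
      field_simp; ring]
    exact mul_le_of_le_one_right (by positivity) ((div_le_one (by linarith)).2 (by linarith))
  obtain ⟨a₀, ha₀, ht₀⟩ := hbase R hR0 (ε₀ / 16) (by positivity)
  obtain ⟨a, ha0, haa, ha1, haA⟩ := exists_small
    (3 * α + 2 * R + C * α * ((8 * (1 + 1 / l) + 64) * ρ')) (ε₀ / 8) (by positivity) ha₀
  obtain ⟨t₀, ht₀m, hev⟩ := ht₀ a ⟨ha0, haa⟩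
  obtain ⟨t, ht⟩ : ∃ t, t = min t₀ (min (a / 2) (a ^ 5 / 4)) := ⟨_, rfl⟩
  have htm : t ≤ a / 2 := ht ▸ (min_le_right _ _).trans (min_le_left _ _)
  have ht5 : t ≤ a ^ 5 / 4 := ht ▸ (min_le_right _ _).trans (min_le_right _ _)
  have htpos : 0 < t := ht ▸ lt_min ht₀m.1 (lt_min (by positivity) (by positivity))
  have hp : SideOK t a := ⟨ha0, ha1, htpos, htm⟩
  obtain ⟨B, hB0, hrow⟩ := row_asymp (K := K) hα.le hR0 hδ0 hσ0 hl0 hp ht5
  obtain ⟨B', hB'⟩ : ∃ z, z = B + C * B + |psiP f q - p * q| + p + p * (R / δ) := ⟨_, rfl⟩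
  have hB'0 : 0 ≤ B' := by rw [hB']; positivity
  refine ⟨ε₀ / 8, by positivity, ?_⟩
  filter_upwards [hev t ⟨htpos, ht ▸ min_le_left _ _⟩, eventually_gt_atTop 0,
    (tendsto_natCast_atTop_atTop (R := ℝ)).eventually_ge_atTop (8 * B' / ε₀ + 2 / α)] with N hN hN0 hNbig
  obtain ⟨M, hMd⟩ : ∃ M, M = ⌊α * (N : ℝ)⌋₊ := ⟨_, rfl⟩
  rw [← hMd]
  have hN' : (0 : ℝ) < N := Nat.cast_pos.2 hN0
  have hMα : (M : ℝ) ≤ α * N := hMd ▸ Nat.floor_le (by positivity)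
  have hMα' : α * N ≤ M + 1 := hMd ▸ (Nat.lt_floor_add_one _).le
  have hM1 : 0 < M := by
    rw [hMd, Nat.floor_pos]
    have : 2 / α ≤ N := le_trans (le_add_of_nonneg_left (by positivity)) hNbig
    rw [div_le_iff₀ hα] at this; linarith
  set π := Measure.pi fun _ : Fin N => ρ
  have h2 := hp.slot2 hf hb h1
  have hq' := (abs_le.1 hN).1
  rw [le_sub_iff_add_le, le_div_iff₀ hN'] at hq'
  have hbaseN : (N : ℝ) * (ψ R - ε₀ / 16) ≤ stJ π f (sineF t a) 0 ⌊2 * α * p * (N : ℝ) / t ^ 2⌋₊ := by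
    rw [← hR]
    have hφ : MeasurePreserving (fun p : (Fin 0 → Fin N → ℝ) × (Fin ⌊R * (N : ℝ) / t ^ 2⌋₊ → Fin N → ℝ) => p.2)
        (stP N 0 _) (Measure.pi fun _ => gam (Fin N)) := measurePreserving_snd
    have e : stH f (sineF t a) 0 ⌊R * (N : ℝ) / t ^ 2⌋₊ =
        fun (p : (Fin 0 → Fin N → ℝ) × (Fin _ → Fin N → ℝ)) => slots (fun _ => sineF t a) p.2 := by
      funext p y; simp [stH, slots]
    have e2 := ent_congr (π := π) hφ (nice_slots (fun _ => h2.ms) fun _ => h2.bs)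
    rw [stJ, e, e2]; linarith
  have hLpos : 0 < ⌈δ * (N : ℝ) / t ^ 2⌉₊ := Nat.ceil_pos.2 (by positivity)
  have hPpos : 0 < ⌈σ * (N : ℝ) / t ^ 2⌉₊ := Nat.ceil_pos.2 (by positivity)
  obtain ⟨r1, r0, r2⟩ := hrow N M hN0 hMα
  have hmain := lower_N var_stmt hp h2 hN0 (ae_pi_ne_zero hρ0 N) (hsym N) hC0
    (fun σ' hσ' hne' => hC N σ' hσ' hN0 hne') hp0 hα hline hbaseN hM1 hMα hMα' hLpos hPpos hl0
  rw [planted_eq_stJ (s := sineF t a) hf hb]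
  rw [← hR, mul_assoc C (M : ℝ), mul_div_assoc C] at hmain
  have hdr : p * (R * N / t ^ 2) / ((⌈δ * (N : ℝ) / t ^ 2⌉₊ : ℕ) : ℝ) ≤ p * (R / δ) := by
    rw [div_le_iff₀ (Nat.cast_pos.2 hLpos), mul_assoc]
    refine mul_le_mul_of_nonneg_left ?_ hp0
    refine le_trans (le_of_eq ?_) (mul_le_mul_of_nonneg_left r0 (div_nonneg hR0 hδ0.le))
    field_simp
  have r3 := mul_le_mul_of_nonneg_left r2 hC0
  have h6 := sideErr_le ha0 ht5
  have he : R * N / t ^ 2 * sideErr t a ≤ 2 * R * a ^ 2 * N := by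
    refine (mul_le_mul_of_nonneg_left h6 (by positivity)).trans (le_of_eq ?_)
    field_simp
  have hM2 : (M : ℝ) * (t ^ 2 / 2 + sideErr t a) ≤ 3 * α * a ^ 2 * N := by
    refine (mul_le_mul hMα (show t ^ 2 / 2 + sideErr t a ≤ 3 * a ^ 2 by
      have g1 := pow_le_pow_left₀ htpos.le (show t ≤ a by linarith) 2
      have g2 := mul_le_mul_of_nonneg_left (show t ^ 2 ≤ 1 from g1.trans (pow_le_one₀ ha0.le ha1)) (sq_nonneg a)
      linarith [sq_nonneg a]) (by linarith [hp.err_nonneg, sq_nonneg t]) (by positivity)).trans (le_of_eq (by ring))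
  have hε : ε₀ / (8 * α) * M ≤ ε₀ / 8 * N := by
    refine (mul_le_mul_of_nonneg_left hMα (by positivity)).trans (le_of_eq ?_)
    field_simp
  have hA := mul_le_mul_of_nonneg_right haA hN'.le
  have hL' := mul_le_mul_of_nonneg_right hl' hN'.le
  have hS' := mul_le_mul_of_nonneg_right hσ' hN'.le
  have hB : B' ≤ ε₀ / 8 * N := by
    have := le_trans (le_add_of_nonneg_right (show (0 : ℝ) ≤ 2 / α by positivity)) hNbig
    rw [div_le_iff₀ hε₀] at this; linarith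
  have hg := mul_le_mul_of_nonneg_left hgain.le hN'.le
  rw [← hρ'] at r3
  have hδN : 3 * δ * (N : ℝ) = ε₀ / 8 * N := by rw [hδ]; ring
  linarith only [hmain, r1, r3, hdr, he, hM2, hε, hA, hL', hS', hB, hB', hg, hδN, mul_pos hε₀ hN']

/-- The scalar condition decides whether the planted entropy is sublinear. -/
theorem adapt_stmt : AdaptStmt := fun _ hρ hρ0 hsym _ hbase _ _ hf hb h1 _ hα =>
  ⟨fun h _ hγ => @adapt_upper _ hρ hρ0 hsym _ hbase _ _ hf hb h1 _ hα h _ hγ,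
    fun ⟨_, hq, _, hε, hfail⟩ => @adapt_lower _ hρ hρ0 hsym _ hbase _ _ hf hb h1 _ _ _ hα hq hε hfail⟩

end Vale.Agent.P157.Phase
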