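import Mathlib
import Vale.Agent.P157.Phase.Side
import Vale.Agent.P157.GardnerBound

/-!
Many weak side slots against the Gaussian channel: column statistic, planted moments and the two
comparisons with a function of the column statistic.
-/

noncomputable section

open MeasureTheory ProbabilityTheory Filter
open scoped Topology

namespace Vale.Agent.P157.Phase

open Vale.Agent.P157

variable {N M : ℕ} {t a : ℝ} {y : Fin N → ℝ}

/-- The planted mean of `s` per side slot. -/
def slotMean (t a : ℝ) : ℝ := t * Real.exp (-a ^ 2 / 2)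

lemma slotMean_facts (ht : 0 ≤ t) :
    0 ≤ slotMean t a ∧ slotMean t a ≤ t ∧ t * (1 - a ^ 2 / 2) ≤ slotMean t a := by
  have h1 : Real.exp (-a ^ 2 / 2) ≤ 1 := Real.exp_le_one_iff.2 (by nlinarith [sq_nonneg a])
  have h2 : 1 - a ^ 2 / 2 ≤ Real.exp (-a ^ 2 / 2) :=
    le_trans (le_of_eq (by ring)) (Real.add_one_le_exp _)
  exact ⟨mul_nonneg ht (Real.exp_pos _).le, mul_le_of_le_one_right ht h1,
    mul_le_mul_of_nonneg_left h2 ht⟩

lemma sine_moments (ha : a ≠ 0) (t : ℝ) :
    (Integrable (fun z => (1 + t / a * Real.sin (a * z)) * z) gam1 ∧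
      ∫ z, (1 + t / a * Real.sin (a * z)) * z ∂gam1 = slotMean t a) ∧
    (Integrable (fun z => (1 + t / a * Real.sin (a * z)) * z ^ 2) gam1 ∧
      ∫ z, (1 + t / a * Real.sin (a * z)) * z ^ 2 ∂gam1 = 1) := by
  have i1 : Integrable (fun z : ℝ => z) gam1 := IsGaussian.memLp_two_id.integrable one_le_two
  have i2 : Integrable (fun z : ℝ => z ^ 2) gam1 := IsGaussian.memLp_two_id.integrable_sq
  have hsm : Measurable fun z : ℝ => Real.sin (a * z) := by fun_prop
  have hsb : ∀ᵐ z ∂gam1, ‖Real.sin (a * z)‖ ≤ 1 :=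
    Eventually.of_forall fun z => Real.abs_sin_le_one _
  have j1 : Integrable (fun z => Real.sin (a * z) * z) gam1 :=
    i1.bdd_mul hsm.aestronglyMeasurable hsb
  have j2 : Integrable (fun z => Real.sin (a * z) * z ^ 2) gam1 :=
    i2.bdd_mul hsm.aestronglyMeasurable hsb
  have e1 : (fun z => (1 + t / a * Real.sin (a * z)) * z) =
      fun z => z + t / a * (Real.sin (a * z) * z) := funext fun z => by ring
  have e2 : (fun z => (1 + t / a * Real.sin (a * z)) * z ^ 2) =
      fun z => z ^ 2 + t / a * (Real.sin (a * z) * z ^ 2) := funext fun z => by ring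
  have h0 : ∫ z, Real.sin (a * z) * z ^ 2 ∂gam1 = 0 := by
    have h : MeasurePreserving (fun z : ℝ => -z) gam1 gam1 :=
      ⟨measurable_neg, by simp [gaussianReal_map_neg]⟩
    have e := integral_map (μ := gam1) h.measurable.aemeasurable
      (f := fun z => Real.sin (a * z) * z ^ 2)
      (by fun_prop : Measurable fun z => Real.sin (a * z) * z ^ 2).aestronglyMeasurable
    rw [h.map_eq] at e
    simp only [mul_neg, Real.sin_neg, neg_sq, neg_mul, integral_neg] at e
    linarith
  have h1 : ∫ z, Real.sin (a * z) * z ∂gam1 = a * Real.exp (-a ^ 2 / 2) := by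
    have e := integral_id_mul_gaussian (f := fun z => Real.sin (a * z))
      (f' := fun z => a * Real.cos (a * z)) (A := 1) (A' := |a|)
      (fun x => by simpa [mul_comm] using ((hasDerivAt_id x).const_mul a).sin)
      (fun x => Real.abs_sin_le_one _)
      (fun x => by rw [abs_mul]; exact mul_le_of_le_one_right (abs_nonneg _) (Real.abs_cos_le_one _))
    simp only [integral_const_mul, integral_cos_gam1] at e
    rw [← e]
    exact integral_congr_ae (Eventually.of_forall fun z => mul_comm _ _)
  rw [e1, e2]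
  refine ⟨⟨i1.add (j1.const_mul _), ?_⟩, i2.add (j2.const_mul _), ?_⟩
  · rw [integral_add i1 (j1.const_mul _), integral_const_mul, h1, integral_id_gaussianReal,
      slotMean]
    field_simp
    ring
  · rw [integral_add i2 (j2.const_mul _), integral_const_mul, h0, integral_sq_gam1]
    ring

lemma comp_dot_unit {u : Fin N → ℝ} (hu : ∑ i, u i ^ 2 = 1) {φ : ℝ → ℝ} (hφ : Measurable φ)
    (hi : Integrable φ gam1) :
    Integrable (fun g => φ (dot g u)) (gam (Fin N)) ∧
      ∫ g, φ (dot g u) ∂gam (Fin N) = ∫ z, φ z ∂gam1 := by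
  have hd : Measurable fun g : Fin N → ℝ => dot g u := by unfold dot; fun_prop
  have hp : MeasurePreserving (fun g : Fin N → ℝ => dot g u) (gam (Fin N)) gam1 :=
    ⟨hd, map_dot_unit hu⟩
  refine ⟨hp.integrable_comp_of_integrable hi, ?_⟩
  have h := integral_map (μ := gam (Fin N)) hd.aemeasurable (f := φ) hφ.aestronglyMeasurable
  rw [map_dot_unit hu] at h
  exact h.symm

/-- One slot. -/
lemma slot_facts (ha : 0 < a) (ht : 0 ≤ t) (hta : t ≤ a / 2) {u : Fin N → ℝ}
    (hu : ∑ i, u i ^ 2 = 1) :
    Integrable (fun g => Real.exp (sineF t a (dot g u))) (gam (Fin N)) ∧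
    ∫ g, Real.exp (sineF t a (dot g u)) ∂gam (Fin N) = 1 ∧
    (Integrable (fun g => Real.exp (sineF t a (dot g u)) * dot g u) (gam (Fin N)) ∧
      ∫ g, Real.exp (sineF t a (dot g u)) * dot g u ∂gam (Fin N) = slotMean t a) ∧
    (Integrable (fun g => Real.exp (sineF t a (dot g u)) * dot g u ^ 2) (gam (Fin N)) ∧
      ∫ g, Real.exp (sineF t a (dot g u)) * dot g u ^ 2 ∂gam (Fin N) = 1) ∧
    ∫ g, Real.exp (sineF t a (dot g u)) * sineF t a (dot g u) ∂gam (Fin N) ≤
      t ^ 2 / 2 + 4 * (t / a) ^ 3 := by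
  obtain ⟨hm, hb, he, h1⟩ := sineF_facts ha ht hta
  obtain ⟨⟨i1, v1⟩, i2, v2⟩ := sine_moments ha.ne' t
  have i0 : Integrable (fun z => Real.exp (sineF t a z)) gam1 := integrable_exp_of_abs_le hm hb
  obtain ⟨p0, q0⟩ := comp_dot_unit hu hm.exp i0
  obtain ⟨p1, q1⟩ := comp_dot_unit hu (φ := fun z => Real.exp (sineF t a z) * z)
    (hm.exp.mul measurable_id) (by simpa only [he] using i1)
  obtain ⟨p2, q2⟩ := comp_dot_unit hu (φ := fun z => Real.exp (sineF t a z) * z ^ 2)
    (hm.exp.mul (measurable_id.pow_const 2)) (by simpa only [he] using i2)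
  refine ⟨p0, q0.trans h1, ⟨p1, q1.trans ?_⟩, ⟨p2, q2.trans ?_⟩, ?_⟩
  · simpa only [he] using v1
  · simpa only [he] using v2
  have hl : Integrable (fun z => Real.exp (sineF t a z) * sineF t a z) gam1 :=
    integrable_exp_mul hm hb (integrable_of_abs_le hm hb)
  obtain ⟨-, q3⟩ := comp_dot_unit hu (φ := fun z => Real.exp (sineF t a z) * sineF t a z)
    (hm.exp.mul hm) hl
  rw [q3]
  have hc : 0 ≤ t / a := div_nonneg ht ha.le
  have hc2 : t / a ≤ 1 / 2 := by rw [div_le_iff₀ ha]; linarith
  have hbd : ∀ z, Real.exp (sineF t a z) * sineF t a z ≤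
      t / a * Real.sin (a * z) + (t ^ 2 / 2 * z ^ 2 + 4 * (t / a) ^ 3) := fun z => by
    set x := t / a * Real.sin (a * z) with hxd
    have hx : |x| ≤ t / a := by
      rw [hxd, abs_mul, abs_of_nonneg hc]
      exact mul_le_of_le_one_right hc (Real.abs_sin_le_one _)
    have h := (abs_le.1 (mul_log_third (hx.trans hc2))).2
    have hx2 : x ^ 2 ≤ t ^ 2 * z ^ 2 := by
      rw [← mul_pow, sq_le_sq, hxd, abs_mul, abs_mul t, abs_of_nonneg hc, abs_of_nonneg ht]
      refine (mul_le_mul_of_nonneg_left Real.abs_sin_le_abs hc).trans (le_of_eq ?_)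
      rw [abs_mul, abs_of_pos ha]
      field_simp
    have hx3 := pow_le_pow_left₀ (abs_nonneg _) hx 3
    rw [he, sineF, ← hxd]
    linarith
  have isin : Integrable (fun z => Real.sin (a * z)) gam1 :=
    integrable_of_abs_le (by fun_prop) fun z => Real.abs_sin_le_one _
  have isq : Integrable (fun z : ℝ => z ^ 2) gam1 := IsGaussian.memLp_two_id.integrable_sq
  refine (integral_mono hl ((isin.const_mul _).add ((isq.const_mul _).add (integrable_const _)))
    hbd).trans (le_of_eq ?_)
  simp only [Pi.add_apply]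
  rw [integral_add (isin.const_mul _) ((isq.const_mul _).fun_add (integrable_const _)),
    integral_add (isq.const_mul _) (integrable_const _), integral_const_mul, integral_const_mul,
    integral_sq_gam1]
  have hz : ∫ z, Real.sin (a * z) ∂gam1 = 0 := by
    have h : MeasurePreserving (fun z : ℝ => -z) gam1 gam1 :=
      ⟨measurable_neg, by simp [gaussianReal_map_neg]⟩
    have e := integral_map (μ := gam1) h.measurable.aemeasurable (f := fun z => Real.sin (a * z))
      (by fun_prop : Measurable fun z => Real.sin (a * z)).aestronglyMeasurable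
    rw [h.map_eq] at e
    simp only [mul_neg, Real.sin_neg, integral_neg] at e
    linarith
  simp [hz]

/-- Weight of the planted slots at `y`. -/
def plW (t a : ℝ) (y : Fin N → ℝ) (g : Fin M → Fin N → ℝ) : ℝ :=
  Real.exp (slots (fun _ => sineF t a) g y)

/-- The disorder of the side slots. -/
abbrev slotP (N M : ℕ) : Measure (Fin M → Fin N → ℝ) := Measure.pi fun _ => gam (Fin N)

lemma dot_colMap (g : Fin M → Fin N → ℝ) (u : Fin N → ℝ) :
    dot (colMap g) u = (∑ b, dot (g b) u) / Real.sqrt M := by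
  simp only [dot, colMap, Finset.sum_div]
  rw [Finset.sum_comm]
  exact Finset.sum_congr rfl fun i _ => by
    simp only [← Finset.sum_div]; rw [div_mul_eq_mul_div, Finset.sum_mul, Finset.sum_div]

lemma measurable_colMap : Measurable (colMap (M := M) (N := N)) := by unfold colMap; fun_prop

lemma plW_bound (ha : 0 < a) (ht : 0 ≤ t) (hta : t ≤ a / 2) (y : Fin N → ℝ) :
    Measurable (plW (M := M) t a y) ∧
      (∀ g : Fin M → Fin N → ℝ, ‖plW t a y g‖ ≤ Real.exp (M * (2 * (t / a)))) := by
  obtain ⟨hm, hb, -, -⟩ := sineF_facts ha ht hta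
  have hn := nice_slots (N := N) (M := M) (F := fun _ => sineF t a) (fun _ => hm) fun _ => hb
  refine ⟨hn.meas.of_uncurry_right.exp, fun g => ?_⟩
  rw [Real.norm_eq_abs, plW, Real.abs_exp]
  exact Real.exp_le_exp.2 ((le_abs_self _).trans (hn.bound g y))

/-- Planted moments of the column statistic along the planted direction. -/
lemma plW_moments (ha : 0 < a) (ht : 0 ≤ t) (hta : t ≤ a / 2) (hM : 0 < M) (hN : 0 < N)
    (hy : ∀ i, y i ≠ 0) :
    (Integrable (plW (M := M) t a y) (slotP N M) ∧
      ∫ g, plW t a y g ∂slotP N M = 1) ∧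
    (Integrable (fun g : Fin M → Fin N → ℝ => plW t a y g * dot (colMap g) (dir y)) (slotP N M) ∧
      ∫ g, plW t a y g * dot (colMap g) (dir y) ∂slotP N M = Real.sqrt M * slotMean t a) ∧
    (Integrable (fun g : Fin M → Fin N → ℝ => plW t a y g * dot (colMap g) (dir y) ^ 2)
        (slotP N M) ∧
      ∫ g, plW t a y g * dot (colMap g) (dir y) ^ 2 ∂slotP N M =
        1 + ((M : ℝ) - 1) * slotMean t a ^ 2) ∧
    ∫ g, plW t a y g * slots (fun _ => sineF t a) g y ∂slotP N M ≤
      M * (t ^ 2 / 2 + 4 * (t / a) ^ 3) := by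
  obtain ⟨hm, hb, -, -⟩ := sineF_facts ha ht hta
  have hu := sum_dir_sq_of_ne hN hy
  obtain ⟨i0, v0, ⟨i1, v1⟩, ⟨i2, v2⟩, hl⟩ := slot_facts ha ht hta hu
  have hM' : (0 : ℝ) < M := by exact_mod_cast hM
  have hsM : 0 < Real.sqrt M := Real.sqrt_pos.2 hM'
  have hd : Measurable fun g : Fin N → ℝ => dot g (dir y) := by unfold dot; fun_prop
  have hfi : Measurable fun g : Fin N → ℝ => sineF t a (dot g (dir y)) := hm.comp hd
  obtain ⟨⟨a0, b0⟩, ⟨a1, b1⟩, a2, b2⟩ := sum_moments (P := gam (Fin N))
    (h := fun g => dot g (dir y)) i0 i1 i2 v0 M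
  have il1 : Integrable (fun g => Real.exp (sineF t a (dot g (dir y))) * sineF t a (dot g (dir y)))
      (gam (Fin N)) :=
    i0.mul_bdd hfi.aestronglyMeasurable (Eventually.of_forall fun g => hb _)
  have il2 : Integrable
      (fun g => Real.exp (sineF t a (dot g (dir y))) * sineF t a (dot g (dir y)) ^ 2)
      (gam (Fin N)) :=
    i0.mul_bdd (hfi.pow_const 2).aestronglyMeasurable (c := (2 * (t / a)) ^ 2)
      (Eventually.of_forall fun g => by
        rw [Real.norm_eq_abs, abs_pow]; exact pow_le_pow_left₀ (abs_nonneg _) (hb _) 2)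
  obtain ⟨-, ⟨a3, b3⟩, -⟩ := sum_moments (P := gam (Fin N))
    (h := fun g => sineF t a (dot g (dir y))) i0 il1 il2 v0 M
  have eW : ∀ g : Fin M → Fin N → ℝ,
      plW t a y g = ∏ b, Real.exp (sineF t a (dot (g b) (dir y))) := fun g => by
    simp only [plW, slots, term, Real.exp_sum]
  have e1 : (fun g : Fin M → Fin N → ℝ => plW t a y g * dot (colMap g) (dir y)) =
      fun g => (∏ b, Real.exp (sineF t a (dot (g b) (dir y)))) * (∑ b, dot (g b) (dir y)) /
        Real.sqrt M := funext fun g => by rw [eW, dot_colMap, mul_div_assoc]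
  have e2 : (fun g : Fin M → Fin N → ℝ => plW t a y g * dot (colMap g) (dir y) ^ 2) =
      fun g => (∏ b, Real.exp (sineF t a (dot (g b) (dir y)))) * (∑ b, dot (g b) (dir y)) ^ 2 / M :=
    funext fun g => by rw [eW, dot_colMap, div_pow, Real.sq_sqrt hM'.le, mul_div_assoc]
  refine ⟨⟨?_, ?_⟩, ⟨?_, ?_⟩, ⟨?_, ?_⟩, ?_⟩
  · rw [show plW t a y = fun g : Fin M → Fin N → ℝ =>
      ∏ b, Real.exp (sineF t a (dot (g b) (dir y))) from funext eW]
    exact a0
  · simp only [eW]; exact b0
  · rw [e1]; exact a1.div_const _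
  · rw [e1, integral_div, b1, v1, div_eq_iff hsM.ne']
    linear_combination -(slotMean t a) * Real.mul_self_sqrt hM'.le
  · rw [e2]; exact a2.div_const _
  · rw [e2, integral_div, b2, v1, v2]
    field_simp
  · simp only [eW, slots, term]
    rw [b3]
    exact mul_le_mul_of_nonneg_left hl hM'.le

/-- Replace the component of the second vector along `u` by that of the first. -/
def glue (u : Fin N → ℝ) (p : (Fin N → ℝ) × (Fin N → ℝ)) : Fin N → ℝ :=
  fun i => p.2 i + (dot p.1 u - dot p.2 u) * u i

lemma measurePreserving_glue {u : Fin N → ℝ} (hu : ∑ i, u i ^ 2 = 1) :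
    MeasurePreserving (glue u) ((gam (Fin N)).prod (gam (Fin N))) (gam (Fin N)) := by
  have hm : Measurable (glue u) := by unfold glue dot; fun_prop
  refine ⟨hm, ?_⟩
  have hL : ((gam (Fin N)).prod (gam (Fin N))).map (fun p => WithLp.toLp 2 (glue u p)) =
      (gam (Fin N)).map (WithLp.toLp 2) := by
    apply Measure.ext_of_charFun
    ext v
    rw [charFun_apply, charFun_apply, integral_map (by fun_prop) (by fun_prop),
      integral_map (by fun_prop) (by fun_prop)]
    have e1 : ∀ g : Fin N → ℝ, inner ℝ (WithLp.toLp 2 g) v = dot g fun i => v i := fun g => by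
      simp [PiLp.inner_apply, dot, mul_comm]
    set k := dot u fun i => v i
    have e2 : ∀ p : (Fin N → ℝ) × (Fin N → ℝ), dot (glue u p) (fun i => v i) =
        dot p.1 (fun i => k * u i) + dot p.2 (fun i => v i - k * u i) := fun p => by
      simp only [dot, glue, add_mul, mul_sub, Finset.sum_add_distrib, Finset.sum_sub_distrib]
      simp only [mul_assoc, ← Finset.mul_sum]
      have hk : ∀ g : Fin N → ℝ, ∑ i, g i * (k * u i) = k * ∑ i, g i * u i := fun g => by
        rw [Finset.mul_sum]; exact Finset.sum_congr rfl fun i _ => by ring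
      rw [hk, hk]
      simp only [k, dot]
      ring
    simp only [e1, e2, Complex.ofReal_add, add_mul, Complex.exp_add]
    rw [integral_prod_mul (fun g : Fin N → ℝ =>
      Complex.exp ((dot g fun i => k * u i : ℝ) * Complex.I))
      (fun g : Fin N → ℝ => Complex.exp ((dot g fun i => v i - k * u i : ℝ) * Complex.I))]
    simp only [integral_cexp_dot, ← Complex.ofReal_mul, ← Real.exp_add]
    congr 2
    rw [← add_div, ← neg_add, ← Finset.sum_add_distrib]
    congr 2
    have : ∀ i, (k * u i) ^ 2 + (v i - k * u i) ^ 2 =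
        v i ^ 2 + (2 * k ^ 2 * u i ^ 2 - 2 * k * (u i * v i)) := fun i => by ring
    simp only [this, Finset.sum_add_distrib, Finset.sum_sub_distrib, ← Finset.mul_sum, hu]
    simp only [k, dot]
    ring
  have h := congrArg (Measure.map (WithLp.ofLp : EuclideanSpace ℝ (Fin N) → Fin N → ℝ)) hL
  rw [Measure.map_map (WithLp.measurable_ofLp 2 _) (by fun_prop),
    Measure.map_map (WithLp.measurable_ofLp 2 _) (by fun_prop)] at h
  exact h.trans Measure.map_id

/-- Under the planted slots the column statistic is a Gaussian vector off the planted direction. -/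
lemma planted_col (ha : 0 < a) (ht : 0 ≤ t) (hta : t ≤ a / 2) (hM : 0 < M) (hN : 0 < N)
    (hy : ∀ i, y i ≠ 0) {φ : (Fin N → ℝ) → ℝ} (hφ : Measurable φ)
    (hφi : Integrable φ (gam (Fin N))) :
    Integrable (fun q : (Fin M → Fin N → ℝ) × (Fin N → ℝ) =>
        plW t a y q.1 * φ (glue (dir y) (colMap q.1, q.2))) ((slotP N M).prod (gam (Fin N))) ∧
      ∫ g, plW t a y g * φ (colMap g) ∂slotP N M =
        ∫ q : (Fin M → Fin N → ℝ) × (Fin N → ℝ),
          plW t a y q.1 * φ (glue (dir y) (colMap q.1, q.2)) ∂(slotP N M).prod (gam (Fin N)) := by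
  have hu := sum_dir_sq_of_ne hN hy
  obtain ⟨hWm, hWb⟩ := plW_bound (M := M) ha ht hta y
  set E := MeasurableEquiv.arrowProdEquivProdArrow (Fin N → ℝ) (Fin N → ℝ) (Fin M)
  have hE := (measurePreserving_arrowProdEquivProdArrow (Fin N → ℝ) (Fin N → ℝ) (Fin M)
    (fun _ => gam (Fin N)) fun _ => gam (Fin N)).symm E
  have hpi : MeasurePreserving
      (fun (q : Fin M → (Fin N → ℝ) × (Fin N → ℝ)) b => glue (dir y) (q b))
      (Measure.pi fun _ => (gam (Fin N)).prod (gam (Fin N))) (slotP N M) :=
    measurePreserving_pi _ _ fun _ => measurePreserving_glue hu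
  have hT : MeasurePreserving
      (fun p : (Fin M → Fin N → ℝ) × (Fin M → Fin N → ℝ) =>
        fun b => glue (dir y) (p.1 b, p.2 b))
      ((slotP N M).prod (slotP N M)) (slotP N M) := hpi.comp hE
  have hdir : ∀ p : (Fin N → ℝ) × (Fin N → ℝ), dot (glue (dir y) p) (dir y) = dot p.1 (dir y) := by
    intro p
    simp only [dot, glue, add_mul, Finset.sum_add_distrib, mul_assoc, ← Finset.mul_sum, ← sq, hu]
    ring
  have hWT : ∀ p : (Fin M → Fin N → ℝ) × (Fin M → Fin N → ℝ),
      plW t a y (fun b => glue (dir y) (p.1 b, p.2 b)) = plW t a y p.1 := fun p => by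
    simp only [plW, slots, term, hdir]
  have hCT : ∀ p : (Fin M → Fin N → ℝ) × (Fin M → Fin N → ℝ),
      colMap (fun b => glue (dir y) (p.1 b, p.2 b)) =
        glue (dir y) (colMap p.1, colMap p.2) := fun p => by
    ext i
    simp only [glue, dot_colMap, colMap, Finset.sum_add_distrib, ← Finset.sum_mul,
      Finset.sum_sub_distrib]
    ring
  have hmp := measurePreserving_colMap (N := N) hM
  have hfull : MeasurePreserving (Prod.map (id : (Fin M → Fin N → ℝ) → _) (colMap (M := M) (N := N)))
      ((slotP N M).prod (slotP N M)) ((slotP N M).prod (gam (Fin N))) :=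
    (MeasurePreserving.id _).prod hmp
  set G := fun q : (Fin M → Fin N → ℝ) × (Fin N → ℝ) =>
    plW t a y q.1 * φ (glue (dir y) (colMap q.1, q.2))
  have hGm : Measurable G := (hWm.comp measurable_fst).mul
    (hφ.comp ((measurePreserving_glue hu).measurable.comp
      ((measurable_colMap.comp measurable_fst).prodMk measurable_snd)))
  have hci : Integrable (fun q : (Fin M → Fin N → ℝ) × (Fin N → ℝ) =>
      φ (glue (dir y) (colMap q.1, q.2))) ((slotP N M).prod (gam (Fin N))) :=
    ((measurePreserving_glue hu).comp (hmp.prod (MeasurePreserving.id _))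
      ).integrable_comp_of_integrable hφi
  have hGi : Integrable G ((slotP N M).prod (gam (Fin N))) :=
    hci.bdd_mul (hWm.comp measurable_fst).aestronglyMeasurable
      (Eventually.of_forall fun q => hWb q.1)
  refine ⟨hGi, ?_⟩
  have h1 := integral_map (μ := (slotP N M).prod (slotP N M)) hT.measurable.aemeasurable
    (f := fun g => plW t a y g * φ (colMap g))
    (hWm.mul (hφ.comp measurable_colMap)).aestronglyMeasurable
  rw [hT.map_eq] at h1
  have h2 := integral_map (μ := (slotP N M).prod (slotP N M)) hfull.measurable.aemeasurable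
    (f := G) hGm.aestronglyMeasurable
  rw [hfull.map_eq] at h2
  rw [h1, h2]
  simp only [hWT, hCT, G, Prod.map_fst, Prod.map_snd, id]

/-- Planted mean of the squared column statistic. -/
lemma planted_col_sq (ha : 0 < a) (ht : 0 ≤ t) (hta : t ≤ a / 2) (hM : 0 < M) (hN : 0 < N)
    (hy : ∀ i, y i ≠ 0) :
    Integrable (fun g : Fin M → Fin N → ℝ => plW t a y g * ∑ i, colMap g i ^ 2) (slotP N M) ∧
      ∫ g, plW t a y g * ∑ i, colMap g i ^ 2 ∂slotP N M =
        N + ((M : ℝ) - 1) * slotMean t a ^ 2 := by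
  have hu := sum_dir_sq_of_ne hN hy
  obtain ⟨hWm, hWb⟩ := plW_bound (M := M) ha ht hta y
  obtain ⟨⟨w0, v0⟩, -, ⟨w2, v2⟩, -⟩ := plW_moments (M := M) ha ht hta hM hN hy
  have hq : Measurable fun z : Fin N → ℝ => ∑ i, z i ^ 2 := by fun_prop
  have hqi : Integrable (fun z : Fin N → ℝ => ∑ i, z i ^ 2) (gam (Fin N)) :=
    integrable_finsetSum _ fun i _ =>
      integrable_comp_eval (μ := fun _ : Fin N => gaussianReal 0 1) (i := i)
        (f := fun x : ℝ => x ^ 2) IsGaussian.memLp_two_id.integrable_sq
  refine ⟨((measurePreserving_colMap hM).integrable_comp_of_integrable hqi).bdd_mul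
    hWm.aestronglyMeasurable (Eventually.of_forall hWb), ?_⟩
  rw [(planted_col ha ht hta hM hN hy hq hqi).2]
  have e : ∀ q : (Fin M → Fin N → ℝ) × (Fin N → ℝ),
      plW t a y q.1 * ∑ i, glue (dir y) (colMap q.1, q.2) i ^ 2 =
        plW t a y q.1 * (∑ i, q.2 i ^ 2 - dot q.2 (dir y) ^ 2) +
          plW t a y q.1 * dot (colMap q.1) (dir y) ^ 2 * 1 := fun q => by
    obtain ⟨d, hd⟩ : ∃ d, d = dot (colMap q.1) (dir y) := ⟨_, rfl⟩
    obtain ⟨s, hs⟩ : ∃ s, s = dot q.2 (dir y) := ⟨_, rfl⟩
    have : ∀ i, glue (dir y) (colMap q.1, q.2) i ^ 2 =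
        q.2 i ^ 2 + (2 * (d - s) * (q.2 i * dir y i) + (d - s) ^ 2 * dir y i ^ 2) := fun i => by
      simp only [glue, ← hd, ← hs]; ring
    simp only [this, Finset.sum_add_distrib, ← Finset.mul_sum, hu, ← hd, ← hs]
    rw [show ∑ i, q.2 i * dir y i = s from hs.symm]
    ring
  simp only [e]
  obtain ⟨d2, vd2⟩ := comp_dot_unit hu (φ := fun z => z ^ 2) (measurable_id.pow_const 2)
    IsGaussian.memLp_two_id.integrable_sq
  rw [integral_add (w0.mul_prod (hqi.sub' d2)) (w2.mul_prod (integrable_const 1)),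
    integral_prod_mul (plW t a y) (fun z : Fin N → ℝ => ∑ i, z i ^ 2 - dot z (dir y) ^ 2),
    integral_prod_mul (fun g : Fin M → Fin N → ℝ => plW t a y g * dot (colMap g) (dir y) ^ 2)
      (fun _ => (1 : ℝ)), v0, v2, integral_sub hqi d2, vd2, integral_sq_gam1,
    integral_finsetSum _ fun i _ =>
      integrable_comp_eval (μ := fun _ : Fin N => gaussianReal 0 1) (i := i)
        (f := fun x : ℝ => x ^ 2) IsGaussian.memLp_two_id.integrable_sq]
  simp only [fun i => integral_comp_eval (μ := fun _ : Fin N => gaussianReal 0 1) (i := i)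
    (f := fun x : ℝ => x ^ 2) (by fun_prop), integral_sq_gam1]
  simp only [integral_const, probReal_univ, smul_eq_mul, one_mul, mul_one, Finset.sum_const,
    Finset.card_univ, Fintype.card_fin, nsmul_eq_mul]
  ring

/-- Free entropy of the Gaussian channel at the statistic `z`. -/
def chanF (π : Measure (Fin N → ℝ)) (θ : ℝ) (z : Fin N → ℝ) : ℝ :=
  lint π (field fun i => θ * z i) - θ ^ 2 / 2

variable {π : Measure (Fin N → ℝ)} [IsProbabilityMeasure π] {θ : ℝ}

lemma measurable_chanF : Measurable (chanF π θ) := by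
  refine (measurable_lint (G := fun z : Fin N → ℝ => field fun i => θ * z i) π ?_).sub_const _
  exact measurable_field_uncurry.comp (f := fun p : (Fin N → ℝ) × (Fin N → ℝ) =>
    ((fun i => θ * p.1 i), p.2)) ((by fun_prop : Measurable fun p : (Fin N → ℝ) × (Fin N → ℝ) =>
      fun i => θ * p.1 i).prodMk measurable_snd)

lemma abs_chanF_le (z : Fin N → ℝ) :
    |chanF π θ z| ≤ ∑ i, |θ| * |z i| + θ ^ 2 / 2 := by
  refine (abs_sub _ _).trans (add_le_add ?_ (le_of_eq (abs_of_nonneg (by positivity))))
  refine abs_lint_le (measurable_field _) fun w => (abs_field_le _ w).trans (le_of_eq ?_)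
  exact Finset.sum_congr rfl fun i _ => abs_mul _ _

lemma integrable_abs_coord (i : Fin N) :
    Integrable (fun z : Fin N → ℝ => |z i|) (gam (Fin N)) :=
  integrable_comp_eval (μ := fun _ : Fin N => gaussianReal 0 1) (i := i) (f := fun x : ℝ => |x|)
    (IsGaussian.memLp_two_id.integrable one_le_two).abs

lemma integrable_chanF : Integrable (chanF π θ) (gam (Fin N)) :=
  Integrable.mono' ((integrable_finsetSum _ fun i _ => (integrable_abs_coord i).const_mul |θ|).fun_add
    (integrable_const (θ ^ 2 / 2))) measurable_chanF.aestronglyMeasurable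
    (Eventually.of_forall fun z => by rw [Real.norm_eq_abs]; exact abs_chanF_le z)

/-- The channel free entropy is a normalised log-weight. -/
lemma chanF_mass (hN : 0 < N) (hne : ∀ᵐ w ∂π, ∀ i, w i ≠ 0) :
    Integrable (fun z => Real.exp (chanF π θ z)) (gam (Fin N)) ∧
      ∫ z, Real.exp (chanF π θ z) ∂gam (Fin N) = 1 := by
  have he : ∀ z, Real.exp (chanF π θ z) =
      ∫ w, Real.exp (field (fun i => θ * z i) w - θ ^ 2 / 2) ∂π := fun z => by
    have hp := (Real.exp_pos _).trans_le
      (integral_exp_mem (π := π) (measurable_field (fun i => θ * z i)) (abs_field_le _)).1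
    simp only [Real.exp_sub, chanF, lint, Real.exp_log hp, integral_div]
  have henv : Integrable (fun z : Fin N → ℝ => ∏ i,
      (Real.exp (θ * z i) + Real.exp (-θ * z i))) (gam (Fin N)) :=
    Integrable.fintype_prod fun _ =>
      (integrable_exp_mul_gaussianReal θ).add (integrable_exp_mul_gaussianReal (-θ))
  have hfm : Measurable fun q : (Fin N → ℝ) × (Fin N → ℝ) =>
      Real.exp (field (fun i => θ * q.1 i) q.2 - θ ^ 2 / 2) :=
    ((measurable_field_uncurry.comp (f := fun p : (Fin N → ℝ) × (Fin N → ℝ) =>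
      ((fun i => θ * p.1 i), p.2)) ((by fun_prop : Measurable fun p : (Fin N → ℝ) × (Fin N → ℝ) =>
        fun i => θ * p.1 i).prodMk measurable_snd)).sub_const _).exp
  have hi : Integrable (fun q : (Fin N → ℝ) × (Fin N → ℝ) =>
      Real.exp (field (fun i => θ * q.1 i) q.2 - θ ^ 2 / 2)) ((gam (Fin N)).prod π) := by
    refine (henv.mul_prod (integrable_const (μ := π) (1 : ℝ))).mono' hfm.aestronglyMeasurable
      (Eventually.of_forall fun q => ?_)
    rw [Real.norm_eq_abs, Real.abs_exp, mul_one]
    refine (Real.exp_le_exp.2 ((sub_le_self _ (by positivity)).trans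
      ((le_abs_self _).trans (abs_field_le _ _)))).trans ?_
    rw [Real.exp_sum]
    refine Finset.prod_le_prod (fun i _ => (Real.exp_pos _).le) fun i _ => ?_
    rw [neg_mul]
    rcases abs_choice (θ * q.1 i) with h | h <;> rw [h]
    · linarith [Real.exp_pos (-(θ * q.1 i))]
    · linarith [Real.exp_pos (θ * q.1 i)]
  simp only [he]
  refine ⟨hi.integral_prod_left, ?_⟩
  rw [integral_integral_swap hi]
  refine (integral_congr_ae (g := fun _ => (1 : ℝ)) ?_).trans (by simp)
  filter_upwards [hne] with w hw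
  have e : ∀ z : Fin N → ℝ, Real.exp (field (fun i => θ * z i) w - θ ^ 2 / 2) =
      (∏ i, Real.exp (θ * dir w i * z i + (1 - 1) * z i ^ 2 / 2)) * Real.exp (-(θ ^ 2 / 2)) :=
    fun z => by
      rw [← Real.exp_sum, ← Real.exp_add, sub_eq_add_neg]
      congr 2
      exact Finset.sum_congr rfl fun i _ => by ring
  simp only [e]
  rw [integral_mul_const, integral_fintype_prod_eq_prod
    (fun i x => Real.exp (θ * dir w i * x + (1 - 1) * x ^ 2 / 2))]
  simp only [(integral_exp_linear_quadratic one_pos _).1, ← Real.exp_sum, ← Real.exp_add,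
    Real.log_one, zero_div, sub_zero, ← Finset.sum_div, mul_one, mul_pow, ← Finset.mul_sum,
    sum_dir_sq_of_ne hN hw]
  rw [add_neg_cancel, Real.exp_zero]

/-- A normalised test of the column statistic bounds the planted entropy from below. -/
theorem le_ent_col (ha : 0 < a) (ht : 0 ≤ t) (hta : t ≤ a / 2) (hM : 0 < M) (hN : 0 < N)
    (hne : ∀ᵐ w ∂π, ∀ i, w i ≠ 0) {φ : (Fin N → ℝ) → ℝ} (hφ : Measurable φ)
    (hφi : Integrable φ (gam (Fin N)))
    (he : Integrable (fun z => Real.exp (φ z)) (gam (Fin N)))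
    (he1 : ∫ z, Real.exp (φ z) ∂gam (Fin N) ≤ 1) {B : ℝ}
    (hB : ∀ᵐ w ∂π, B ≤ ∫ g, plW t a w g * φ (colMap g) ∂slotP N M) :
    B ≤ ent (slotP N M) (slots fun _ => sineF t a) π := by
  obtain ⟨hm, hb, -, h1⟩ := sineF_facts ha ht hta
  have hns := nice_slots (N := N) (M := M) (F := fun _ => sineF t a) (fun _ => hm) fun _ => hb
  have hmp := measurePreserving_colMap (N := N) hM
  set q : (Fin M → Fin N → ℝ) → ℝ := fun g => φ (colMap g)
  have hqi : Integrable q (slotP N M) := hmp.integrable_comp_of_integrable hφi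
  have hq : Integrable (fun g => Real.exp (q g)) (slotP N M) :=
    hmp.integrable_comp_of_integrable he
  have hq1 : ∫ g, Real.exp (q g) ∂slotP N M ≤ 1 := by
    have h := integral_map (μ := slotP N M) hmp.measurable.aemeasurable
      (f := fun z => Real.exp (φ z)) hφ.exp.aestronglyMeasurable
    rw [hmp.map_eq] at h
    exact h.symm.trans_le he1
  set D : (Fin M → Fin N → ℝ) × (Fin N → ℝ) → ℝ := fun p =>
    Real.exp (slots (fun _ => sineF t a) p.1 p.2) * q p.1
  have hDi : Integrable D ((slotP N M).prod π) := by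
    refine ((hqi.comp_fst π).bdd_mul hns.meas.exp.aestronglyMeasurable
      (c := Real.exp (M * (2 * (t / a)))) (Eventually.of_forall fun p => ?_))
    rw [Real.norm_eq_abs, Real.abs_exp]
    exact Real.exp_le_exp.2 ((le_abs_self _).trans (hns.bound p.1 p.2))
  have hW : ∀ g, Real.exp (lint π (slots (fun _ => sineF t a) g)) * q g = ∫ w, D (g, w) ∂π :=
    fun g => by rw [exp_lint_eq hns, ← integral_mul_const]
  have hWqi : Integrable (fun g => Real.exp (lint π (slots (fun _ => sineF t a) g)) * q g)
      (slotP N M) := by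
    simp only [hW]; exact hDi.integral_prod_left
  have hy1 : ∀ᵐ w ∂π, ∫ g, Real.exp (slots (fun _ => sineF t a) g w) ∂slotP N M = 1 :=
    hne.mono fun w hw => mean_slots_eq_one (fun _ => hm) (fun _ => h1) hN hw
  have h := le_ent hns hy1 hq hWqi
  refine le_trans ?_ ((le_add_of_nonneg_right (sub_nonneg.2 hq1)).trans
    (le_trans (le_of_eq (add_sub_assoc _ _ _).symm) h))
  simp only [hW]
  rw [integral_integral_swap hDi]
  refine le_trans (le_of_eq (by simp)) (integral_mono_ae (integrable_const B)
    hDi.integral_prod_right hB)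

lemma dot_dir_eq_field (z w : Fin N → ℝ) : θ * dot z (dir w) = field (fun i => θ * z i) w := by
  simp only [dot, field, Finset.mul_sum]
  exact Finset.sum_congr rfl fun i _ => by ring

/-- The channel free entropy bounds the planted entropy from above, up to the slot error. -/
theorem ent_le_col (ha : 0 < a) (ht : 0 ≤ t) (hta : t ≤ a / 2) (hM : 0 < M) (hN : 0 < N)
    (hne : ∀ᵐ w ∂π, ∀ i, w i ≠ 0) {B : ℝ}
    (hB : ∀ᵐ w ∂π, ∫ g, plW t a w g * chanF π θ (colMap g) ∂slotP N M ≤ B) :
    ent (slotP N M) (slots fun _ => sineF t a) π ≤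
      B + (M * (t ^ 2 / 2 + 4 * (t / a) ^ 3) - θ * (Real.sqrt M * slotMean t a) + θ ^ 2 / 2) := by
  obtain ⟨hm, hb, -, -⟩ := sineF_facts ha ht hta
  have hns := nice_slots (N := N) (M := M) (F := fun _ => sineF t a) (fun _ => hm) fun _ => hb
  have hmp := measurePreserving_colMap (N := N) hM
  set X := (M : ℝ) * (2 * (t / a))
  set H : (Fin M → Fin N → ℝ) → (Fin N → ℝ) → ℝ := slots fun _ => sineF t a
  set H' : (Fin M → Fin N → ℝ) → (Fin N → ℝ) → ℝ := fun g w =>
    field (fun i => θ * colMap g i) w - θ ^ 2 / 2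
  set E : (Fin M → Fin N → ℝ) → ℝ := fun g => ∑ i, |θ| * |colMap g i| + θ ^ 2 / 2
  have hH'm : Measurable (Function.uncurry H') :=
    (measurable_field_uncurry.comp (f := fun p : (Fin M → Fin N → ℝ) × (Fin N → ℝ) =>
      ((fun i => θ * colMap p.1 i), p.2)) ((by
        unfold colMap; fun_prop : Measurable fun p : (Fin M → Fin N → ℝ) × (Fin N → ℝ) =>
          fun i => θ * colMap p.1 i).prodMk measurable_snd)).sub_const _
  have hH'b : ∀ g w, |H' g w| ≤ E g := fun g w =>
    (abs_sub _ _).trans (add_le_add ((abs_field_le _ w).trans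
      (le_of_eq (Finset.sum_congr rfl fun i _ => abs_mul _ _)))
      (le_of_eq (abs_of_nonneg (by positivity))))
  have hEi : Integrable E (slotP N M) :=
    (integrable_finsetSum _ fun i _ =>
      (hmp.integrable_comp_of_integrable (integrable_abs_coord i)).const_mul |θ|).fun_add
      (integrable_const _)
  set L' : (Fin M → Fin N → ℝ) → ℝ := fun g => chanF π θ (colMap g)
  have hL' : ∀ g, lint π (H' g) = L' g := fun g => by
    have hp := (Real.exp_pos _).trans_le (integral_exp_mem (π := π)
      (measurable_field (fun i => θ * colMap g i)) (abs_field_le _)).1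
    simp only [lint, H', Real.exp_sub, integral_div, L', chanF]
    rw [Real.log_div hp.ne' (Real.exp_pos _).ne', Real.log_exp]
  set K : (Fin M → Fin N → ℝ) × (Fin N → ℝ) → ℝ := fun p =>
    Real.exp (H p.1 p.2) * (H p.1 p.2 - H' p.1 p.2)
  have hHe : ∀ g w, ‖Real.exp (H g w)‖ ≤ Real.exp X := fun g w => by
    rw [Real.norm_eq_abs, Real.abs_exp]
    exact Real.exp_le_exp.2 ((le_abs_self _).trans (hns.bound g w))
  have hKi : Integrable K ((slotP N M).prod π) := by
    refine ((((hEi.fun_add (integrable_const X)).comp_fst π).mono'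
      (hns.meas.sub hH'm).aestronglyMeasurable (Eventually.of_forall fun p => ?_)).bdd_mul
      hns.meas.exp.aestronglyMeasurable (Eventually.of_forall fun p => hHe p.1 p.2))
    rw [Real.norm_eq_abs]
    refine (abs_sub _ _).trans ?_
    rw [add_comm (E p.1)]
    exact add_le_add (hns.bound p.1 p.2) (hH'b p.1 p.2)
  have hpt : ∀ g, Real.exp (lint π (H g)) * lint π (H g) ≤
      Real.exp (lint π (H g)) * L' g + ∫ w, K (g, w) ∂π := fun g => by
    have iH : Integrable (fun w => Real.exp (H g w)) π :=
      integrable_exp_of_abs_le (hns.meas_left g) (hns.bound g)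
    have iH' : Integrable (fun w => Real.exp (H' g w)) π :=
      integrable_exp_of_abs_le hH'm.of_uncurry_left (hH'b g)
    have iK : Integrable (fun w => K (g, w)) π := by
      refine (((integrable_const (X + E g)).mono'
        ((hns.meas_left g).sub hH'm.of_uncurry_left).aestronglyMeasurable
        (Eventually.of_forall fun w => ?_)).bdd_mul (hns.meas_left g).exp.aestronglyMeasurable
        (Eventually.of_forall fun w => hHe g w))
      rw [Real.norm_eq_abs]
      exact (abs_sub _ _).trans (add_le_add (hns.bound g w) (hH'b g w))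
    set L := lint π (H g) with hL
    have hexp' : Real.exp (L' g) = ∫ w, Real.exp (H' g w) ∂π := by
      rw [← hL']
      exact Real.exp_log ((Real.exp_pos _).trans_le
        (integral_exp_mem hH'm.of_uncurry_left (hH'b g)).1)
    have hexp : Real.exp L = ∫ w, Real.exp (H g w) ∂π := exp_lint_eq hns g
    have htan : ∀ w, Real.exp (L' g - L) * (Real.exp (H g w) * (1 - (L' g - L)) - K (g, w)) ≤
        Real.exp (H' g w) := fun w => by
      have h := Real.add_one_le_exp (H' g w - H g w - (L' g - L))
      have h2 := mul_le_mul_of_nonneg_left h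
        (show 0 ≤ Real.exp (L' g - L) * Real.exp (H g w) by positivity)
      rw [← Real.exp_add, ← Real.exp_add,
        show L' g - L + H g w + (H' g w - H g w - (L' g - L)) = H' g w by ring] at h2
      refine le_trans (le_of_eq ?_) h2
      simp only [K, Real.exp_add]
      ring
    have hmn := integral_mono (((iH.mul_const _).sub iK).const_mul _) iH' htan
    simp only [Pi.sub_apply] at hmn
    rw [integral_const_mul, integral_sub (iH.mul_const _) iK, integral_mul_const, ← hexp, ← hexp',
      show L' g = L' g - L + L by ring, Real.exp_add, add_sub_cancel_right] at hmn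
    have := le_of_mul_le_mul_left hmn (Real.exp_pos _)
    nlinarith
  have hqi : Integrable L' (slotP N M) := hmp.integrable_comp_of_integrable integrable_chanF
  set D : (Fin M → Fin N → ℝ) × (Fin N → ℝ) → ℝ := fun p => Real.exp (H p.1 p.2) * L' p.1
  have hDi : Integrable D ((slotP N M).prod π) :=
    (hqi.comp_fst π).bdd_mul hns.meas.exp.aestronglyMeasurable
      (Eventually.of_forall fun p => hHe p.1 p.2)
  have hW : ∀ g, Real.exp (lint π (H g)) * L' g = ∫ w, D (g, w) ∂π := fun g => by
    rw [exp_lint_eq hns, ← integral_mul_const]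
  have hent : ent (slotP N M) H π ≤
      (∫ w, (∫ g, D (g, w) ∂slotP N M) ∂π) + ∫ w, (∫ g, K (g, w) ∂slotP N M) ∂π := by
    rw [← integral_integral_swap (f := fun g w => D (g, w)) hDi,
      ← integral_integral_swap (f := fun g w => K (g, w)) hKi,
      ← integral_add hDi.integral_prod_left hKi.integral_prod_left]
    exact integral_mono (integrable_ent hns) (hDi.integral_prod_left.fun_add hKi.integral_prod_left)
      fun g => (hW g ▸ hpt g)
  refine hent.trans (add_le_add ?_ ?_)
  · exact (integral_mono_ae hDi.integral_prod_right (integrable_const B) hB).trans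
      (le_of_eq (by simp))
  refine (integral_mono_ae hKi.integral_prod_right (integrable_const _) ?_).trans
    (le_of_eq (by simp :
      ∫ _w, (M * (t ^ 2 / 2 + 4 * (t / a) ^ 3) - θ * (Real.sqrt M * slotMean t a) + θ ^ 2 / 2) ∂π =
        _))
  filter_upwards [hne] with w hw
  obtain ⟨⟨w0, v0⟩, ⟨w1, v1⟩, -, hl⟩ := plW_moments (M := M) (y := w) ha ht hta hM hN hw
  have iw : Integrable (fun g => plW t a w g * H g w) (slotP N M) :=
    w0.mul_bdd hns.meas.of_uncurry_right.aestronglyMeasurable
      (Eventually.of_forall fun g => hns.bound g w)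
  have e : ∀ g, K (g, w) = plW t a w g * H g w - θ * (plW t a w g * dot (colMap g) (dir w)) +
      θ ^ 2 / 2 * plW t a w g := fun g => by
    simp only [K, H', ← dot_dir_eq_field, plW, H]
    ring
  simp only [e]
  rw [integral_add (iw.sub' (w1.const_mul θ)) (w0.const_mul _), integral_sub iw (w1.const_mul θ),
    integral_const_mul, integral_const_mul, v0, v1, mul_one]
  linarith

end Vale.Agent.P157.Phase
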