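import Mathlib
import Vale.Agent.P157.Phase.Base

/-!
Weak side slots on the cube and on the sphere give the Gaussian channel free entropy.
-/

noncomputable section

open MeasureTheory ProbabilityTheory Filter
open scoped Topology

namespace Vale.Agent.P157.Phase

open Vale.Agent.P157

variable {N M : ℕ} {t a : ℝ}

/-- Arithmetic of the slot error. -/
lemma slot_error_le {r : ℝ} (hr : 0 ≤ r) (ha : 0 < a) (ht : 0 < t)
    (hMu : (M : ℝ) * t ^ 2 ≤ r * N) (hMl : r * N - t ^ 2 ≤ M * t ^ 2) :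
    M * (t ^ 2 / 2 + 4 * (t / a) ^ 3) -
        Real.sqrt (r * N) * (Real.sqrt M * slotMean t a) + Real.sqrt (r * N) ^ 2 / 2 ≤
      r * N * (4 * t / a ^ 3 + a ^ 2 / 2) + t ^ 2 := by
  obtain ⟨-, -, h3⟩ := slotMean_facts (a := a) ht.le
  have hrN : 0 ≤ r * (N : ℝ) := mul_nonneg hr (Nat.cast_nonneg _)
  rw [Real.sq_sqrt hrN]
  have hsM : Real.sqrt M * t ≤ Real.sqrt (r * N) := by
    refine (le_abs_self _).trans (Real.abs_le_sqrt ?_)
    rw [mul_pow, Real.sq_sqrt (Nat.cast_nonneg M)]
    exact hMu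
  have h4 : (M : ℝ) * t ^ 2 * (1 - a ^ 2 / 2) ≤
      Real.sqrt (r * N) * (Real.sqrt M * slotMean t a) := by
    have hc := (slotMean_facts (a := a) ht.le).1
    refine le_trans ?_ (mul_le_mul_of_nonneg_right hsM (mul_nonneg (Real.sqrt_nonneg _) hc))
    have := mul_le_mul_of_nonneg_left h3 (mul_nonneg (Nat.cast_nonneg M) ht.le)
    calc (M : ℝ) * t ^ 2 * (1 - a ^ 2 / 2) = M * t * (t * (1 - a ^ 2 / 2)) := by ring
      _ ≤ M * t * slotMean t a := this
      _ = _ := by linear_combination -(t * slotMean t a) * Real.mul_self_sqrt (Nat.cast_nonneg M)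
  have h5 : (M : ℝ) * t ^ 2 * (a ^ 2 / 2) ≤ r * N * (a ^ 2 / 2) :=
    mul_le_mul_of_nonneg_right hMu (by positivity)
  have h6 : 4 * (M * t ^ 2) * (t / a ^ 3) ≤ 4 * (r * N) * (t / a ^ 3) :=
    mul_le_mul_of_nonneg_right (by linarith) (by positivity)
  have e : (M : ℝ) * (t ^ 2 / 2 + 4 * (t / a) ^ 3) =
      M * t ^ 2 / 2 + 4 * (M * t ^ 2) * (t / a ^ 3) := by
    field_simp
  rw [e, show r * N * (4 * t / a ^ 3 + a ^ 2 / 2) =
    4 * (r * N) * (t / a ^ 3) + r * N * (a ^ 2 / 2) by ring]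
  linarith

lemma ent_no_slots {π : Measure (Fin N → ℝ)} [IsProbabilityMeasure π] (h : M = 0) (F : ℝ → ℝ) :
    ent (slotP N M) (slots fun _ => F) π = 0 := by
  subst h
  simp [ent, slots, lint]

lemma floor_facts {r : ℝ} (hr : 0 ≤ r) (ht : 0 < t) (N : ℕ) :
    (⌊r * (N : ℝ) / t ^ 2⌋₊ : ℝ) * t ^ 2 ≤ r * N ∧
      r * N - t ^ 2 ≤ (⌊r * (N : ℝ) / t ^ 2⌋₊ : ℝ) * t ^ 2 := by
  have h2 : 0 < t ^ 2 := by positivity
  refine ⟨(le_div_iff₀ h2).1 (Nat.floor_le (by positivity)), ?_⟩
  have h := Nat.lt_floor_add_one (r * (N : ℝ) / t ^ 2)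
  rw [div_lt_iff₀ h2] at h
  linarith

/-! ### The cube -/

lemma dir_rad {y : Fin N → ℝ} (hy : ∀ i, y i ^ 2 = 1) (i : Fin N) :
    dir y i = y i / Real.sqrt N := by
  simp [dir, nrm_of_sq_one hy]

lemma chanF_rad (hN : 0 < N) {r : ℝ} (hr : 0 ≤ r) (z : Fin N → ℝ) :
    chanF (Measure.pi fun _ : Fin N => rad) (Real.sqrt (r * N)) z =
      ∑ i, Real.log (Real.cosh (Real.sqrt r * z i)) - r * N / 2 := by
  rw [chanF, lint_field_rad hN, Real.sq_sqrt (by positivity)]
  congr 1
  refine Finset.sum_congr rfl fun i _ => ?_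
  have : Real.sqrt (N : ℝ) ≠ 0 := by positivity
  rw [Real.sqrt_mul hr]
  field_simp

lemma abs_log_cosh_sub_le (u v : ℝ) :
    |Real.log (Real.cosh u) - Real.log (Real.cosh v)| ≤ |u - v| := by
  have key : ∀ p q : ℝ, Real.log (Real.cosh p) ≤ Real.log (Real.cosh q) + |p - q| := fun p q => by
    rw [← Real.log_exp |p - q|, ← Real.log_mul (Real.cosh_pos q).ne' (Real.exp_pos _).ne']
    refine Real.log_le_log (Real.cosh_pos _) ?_
    simp only [Real.cosh_eq]
    have e1 : Real.exp p ≤ Real.exp q * Real.exp |p - q| := by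
      rw [← Real.exp_add]; exact Real.exp_le_exp.2 (by linarith [le_abs_self (p - q)])
    have e2 : Real.exp (-p) ≤ Real.exp (-q) * Real.exp |p - q| := by
      rw [← Real.exp_add]; exact Real.exp_le_exp.2 (by linarith [neg_abs_le (p - q)])
    linarith
  rw [abs_le]
  constructor
  · linarith [key v u, abs_sub_comm u v]
  · linarith [key u v]

lemma integrable_log_cosh_affine (s b : ℝ) :
    Integrable (fun z => Real.log (Real.cosh (s * z + b))) gam1 := by
  refine (((IsGaussian.memLp_two_id.integrable one_le_two).abs.const_mul |s|).fun_add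
    (integrable_const |b|)).mono'
    (by fun_prop : Measurable fun z => Real.log (Real.cosh (s * z + b))).aestronglyMeasurable
    (Eventually.of_forall fun z => ?_)
  rw [Real.norm_eq_abs, abs_of_nonneg (log_cosh_mem _).1]
  refine (log_cosh_mem _).2.trans ((abs_add_le _ _).trans (le_of_eq ?_))
  simp [abs_mul]

lemma planted_logcosh (ha : 0 < a) (ht : 0 < t) (hta : t ≤ a / 2) (hM : 0 < M) (hN : 0 < N)
    {y : Fin N → ℝ} (hy : ∀ i, y i ^ 2 = 1) {r : ℝ} (hr : 0 ≤ r)
    (hMu : (M : ℝ) * t ^ 2 ≤ r * N) (hMl : r * N - t ^ 2 ≤ M * t ^ 2) :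
    |∫ g, plW t a y g * ∑ i, Real.log (Real.cosh (Real.sqrt r * colMap g i)) ∂slotP N M -
        N * ∫ z, Real.log (Real.cosh (Real.sqrt r * z + r)) ∂gam1| ≤
      N * (Real.sqrt r * ((2 + Real.sqrt (r * N) * (a ^ 2 / 2) + t) / Real.sqrt N)) := by
  have hy0 : ∀ i, y i ≠ 0 := fun i h => by simpa [h] using hy i
  have hu := sum_dir_sq_of_ne hN hy0
  have hn : 0 < Real.sqrt (N : ℝ) := Real.sqrt_pos.2 (Nat.cast_pos.2 hN)
  have hrN : 0 ≤ r * (N : ℝ) := mul_nonneg hr (Nat.cast_nonneg _)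
  obtain ⟨hWm, hWb⟩ := plW_bound (M := M) ha ht.le hta y
  obtain ⟨⟨w0, v0⟩, ⟨w1, v1⟩, ⟨w2, v2⟩, -⟩ := plW_moments (M := M) ha ht.le hta hM hN hy0
  obtain ⟨hc0, hc1, hc2⟩ := slotMean_facts (a := a) ht.le
  set θ' := Real.sqrt (r * N)
  set κ := |Real.sqrt M * slotMean t a - θ'|
  have hκ : κ ≤ θ' * (a ^ 2 / 2) + t := by
    have hsMt : Real.sqrt M * t ≤ θ' := by
      refine (le_abs_self _).trans (Real.abs_le_sqrt ?_)
      rw [mul_pow, Real.sq_sqrt (Nat.cast_nonneg M)]; exact hMu
    have hlow : θ' ≤ Real.sqrt M * t + t := by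
      rw [Real.sqrt_le_left (by positivity)]
      nlinarith [Real.mul_self_sqrt (Nat.cast_nonneg (α := ℝ) M), Real.sqrt_nonneg (M : ℝ)]
    have h1 : Real.sqrt M * slotMean t a ≤ Real.sqrt M * t :=
      mul_le_mul_of_nonneg_left hc1 (Real.sqrt_nonneg _)
    have h2 := mul_le_mul_of_nonneg_left hc2 (Real.sqrt_nonneg (M : ℝ))
    have h3 : Real.sqrt M * t * (a ^ 2 / 2) ≤ θ' * (a ^ 2 / 2) :=
      mul_le_mul_of_nonneg_right hsMt (by positivity)
    simp only [κ]
    rw [abs_of_nonpos (by linarith)]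
    linarith
  set T : (Fin M → Fin N → ℝ) → ℝ := fun g => dot (colMap g) (dir y)
  have hTm : Measurable T := by
    unfold T dot colMap; fun_prop
  have hTi : Integrable (fun g => plW t a y g * |T g - θ'|) (slotP N M) := by
    refine (w1.abs.fun_add (w0.abs.const_mul |θ'|)).mono'
      (hWm.mul (continuous_abs.measurable.comp (hTm.sub_const _))).aestronglyMeasurable
      (Eventually.of_forall fun g => ?_)
    change ‖plW t a y g * |T g - θ'|‖ ≤ _
    rw [Real.norm_eq_abs, abs_mul, abs_abs, abs_mul]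
    refine (mul_le_mul_of_nonneg_left (abs_sub _ _) (abs_nonneg _)).trans (le_of_eq ?_)
    ring
  have hT : ∫ g, plW t a y g * |T g - θ'| ∂slotP N M ≤ 1 + κ := by
    have hκ0 : 0 ≤ κ := abs_nonneg _
    have hpt : ∀ g, plW t a y g * |T g - θ'| ≤
        (plW t a y g * T g ^ 2 - 2 * θ' * (plW t a y g * T g) +
          (θ' ^ 2 + (1 + κ) ^ 2) * plW t a y g) / (2 * (1 + κ)) := fun g => by
      rw [le_div_iff₀ (by positivity)]
      have : |T g - θ'| * (2 * (1 + κ)) ≤ (T g - θ') ^ 2 + (1 + κ) ^ 2 := by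
        nlinarith [sq_nonneg (|T g - θ'| - (1 + κ)), sq_abs (T g - θ')]
      have := mul_le_mul_of_nonneg_left this (Real.exp_pos (slots (fun _ => sineF t a) g y)).le
      simp only [plW]
      linarith
    refine (integral_mono hTi ((((w2.sub' (w1.const_mul _)).fun_add
      (w0.const_mul _))).div_const _) hpt).trans ?_
    rw [integral_div, integral_add (w2.sub' (w1.const_mul _)) (w0.const_mul _),
      integral_sub w2 (w1.const_mul _), integral_const_mul, integral_const_mul, v0, v1, v2,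
      div_le_iff₀ (by positivity)]
    have hk2 : κ ^ 2 = (Real.sqrt M * slotMean t a - θ') ^ 2 := sq_abs _
    nlinarith [Real.sq_sqrt (Nat.cast_nonneg (α := ℝ) M), sq_nonneg (slotMean t a)]
  set φ : ℝ → ℝ := fun x => Real.log (Real.cosh (Real.sqrt r * x))
  have hφm : Measurable φ := by fun_prop
  have hφi : ∀ i : Fin N, Integrable (fun z : Fin N → ℝ => φ (z i)) (gam (Fin N)) := fun i =>
    integrable_comp_eval (μ := fun _ : Fin N => gaussianReal 0 1) (i := i) (integrable_log_cosh _)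
  have hWi : ∀ i, Integrable (fun g : Fin M → Fin N → ℝ => plW t a y g * φ (colMap g i))
      (slotP N M) := fun i =>
    ((measurePreserving_colMap hM).integrable_comp_of_integrable (hφi i)).bdd_mul
      hWm.aestronglyMeasurable (Eventually.of_forall hWb)
  obtain ⟨hd1, hd1v⟩ := comp_dot_unit hu (φ := fun z => |z|) continuous_abs.measurable
    (IsGaussian.memLp_two_id.integrable one_le_two).abs
  have hd1' : ∫ z, |dot z (dir y)| ∂gam (Fin N) ≤ 1 := by
    refine (integral_abs_dot_le (dir y)).trans (le_of_eq ?_)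
    rw [hu, Real.sqrt_one]
  have hone : ∀ i, |∫ g, plW t a y g * φ (colMap g i) ∂slotP N M -
      ∫ z, Real.log (Real.cosh (Real.sqrt r * z + r)) ∂gam1| ≤
      Real.sqrt r * ((2 + θ' * (a ^ 2 / 2) + t) / Real.sqrt N) := by
    intro i
    obtain ⟨hG, hGv⟩ := planted_col ha ht.le hta hM hN hy0 (φ := fun z => φ (z i))
      (hφm.comp (measurable_pi_apply i)) (hφi i)
    rw [hGv]
    have hψi : Integrable (fun z : Fin N → ℝ => φ (z i + θ' * dir y i)) (gam (Fin N)) :=
      integrable_comp_eval (μ := fun _ : Fin N => gaussianReal 0 1) (i := i)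
        (f := fun x => φ (x + θ' * dir y i)) (by
          simp only [φ, mul_add]; exact integrable_log_cosh_affine _ _)
    have hψv : ∫ z : Fin N → ℝ, φ (z i + θ' * dir y i) ∂gam (Fin N) =
        ∫ z, Real.log (Real.cosh (Real.sqrt r * z + r)) ∂gam1 := by
      rw [integral_comp_eval (μ := fun _ : Fin N => gaussianReal 0 1) (i := i)
        (f := fun x => φ (x + θ' * dir y i))
        (hφm.comp (measurable_id.add_const _)).aestronglyMeasurable]
      have e : ∀ x, φ (x + θ' * dir y i) = Real.log (Real.cosh (Real.sqrt r * x + r * y i)) :=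
        fun x => by
          simp only [φ, θ', dir_rad hy, Real.sqrt_mul hr]
          congr 2
          field_simp
          linear_combination (y i) * Real.mul_self_sqrt hr
      simp only [e]
      rcases sq_eq_one_iff.1 (hy i) with h | h <;> rw [h]
      · simp
      · have hneg : gam1.map (fun z : ℝ => -z) = gam1 := by
          rw [gam1, gaussianReal_map_neg, neg_zero]
        change ∫ z, Real.log (Real.cosh (Real.sqrt r * z + r * -1)) ∂gam1 = _
        conv_lhs => rw [← hneg]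
        rw [integral_map measurable_neg.aemeasurable
          (by fun_prop : Measurable fun z =>
            Real.log (Real.cosh (Real.sqrt r * z + r * -1))).aestronglyMeasurable]
        congr 1
        ext z
        rw [show Real.sqrt r * -z + r * -1 = -(Real.sqrt r * z + r) by ring, Real.cosh_neg]
    have hRi : Integrable (fun q : (Fin M → Fin N → ℝ) × (Fin N → ℝ) =>
        plW t a y q.1 * φ (q.2 i + θ' * dir y i)) ((slotP N M).prod (gam (Fin N))) :=
      w0.mul_prod hψi
    have hA : Integrable (fun q : (Fin M → Fin N → ℝ) × (Fin N → ℝ) =>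
        Real.sqrt r * |dir y i| * (plW t a y q.1 * |T q.1 - θ'| * 1 +
          plW t a y q.1 * |dot q.2 (dir y)|)) ((slotP N M).prod (gam (Fin N))) :=
      ((hTi.mul_prod (integrable_const (1 : ℝ))).fun_add (w0.mul_prod hd1)).const_mul _
    rw [← hψv, show ∫ z : Fin N → ℝ, φ (z i + θ' * dir y i) ∂gam (Fin N) =
      ∫ q : (Fin M → Fin N → ℝ) × (Fin N → ℝ), plW t a y q.1 * φ (q.2 i + θ' * dir y i)
        ∂(slotP N M).prod (gam (Fin N)) by
        rw [integral_prod_mul (plW t a y) (fun z : Fin N → ℝ => φ (z i + θ' * dir y i)), v0,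
          one_mul],
      ← integral_sub hG hRi]
    refine abs_integral_le_integral_abs.trans ((integral_mono (hG.sub' hRi).abs hA fun q => ?_).trans ?_)
    · have hb := abs_log_cosh_sub_le (Real.sqrt r * glue (dir y) (colMap q.1, q.2) i)
        (Real.sqrt r * (q.2 i + θ' * dir y i))
      simp only [← mul_sub, abs_mul, abs_of_pos (Real.exp_pos _), plW]
      refine (mul_le_mul_of_nonneg_left hb (Real.exp_pos _).le).trans (le_trans ?_ (le_of_eq
        (by ring : Real.exp (slots (fun _ => sineF t a) q.1 y) * (Real.sqrt r *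
          (|dir y i| * (|T q.1 - θ'| + |dot q.2 (dir y)|))) = _)))
      refine mul_le_mul_of_nonneg_left ?_ (Real.exp_pos _).le
      rw [← mul_sub, abs_mul, abs_of_nonneg (Real.sqrt_nonneg r)]
      refine mul_le_mul_of_nonneg_left ?_ (Real.sqrt_nonneg r)
      rw [show glue (dir y) (colMap q.1, q.2) i - (q.2 i + θ' * dir y i) =
        dir y i * ((T q.1 - θ') - dot q.2 (dir y)) by simp only [glue, T]; ring, abs_mul]
      exact mul_le_mul_of_nonneg_left (abs_sub _ _) (abs_nonneg _)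
    rw [integral_const_mul, integral_add (hTi.mul_prod (integrable_const (1 : ℝ)))
      (w0.mul_prod hd1), integral_prod_mul (fun g => plW t a y g * |T g - θ'|) (fun _ => (1 : ℝ)),
      integral_prod_mul (plW t a y) (fun z : Fin N → ℝ => |dot z (dir y)|), v0]
    simp only [integral_const, probReal_univ, smul_eq_mul, one_mul, mul_one]
    have hyabs : |y i| = 1 := by
      rcases sq_eq_one_iff.1 (hy i) with h | h <;> simp [h]
    rw [dir_rad hy, abs_div, hyabs, abs_of_pos hn, mul_assoc, one_div_mul_eq_div]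
    refine mul_le_mul_of_nonneg_left (div_le_div_of_nonneg_right ?_ hn.le) (Real.sqrt_nonneg r)
    linarith
  simp only [Finset.mul_sum]
  rw [integral_finsetSum _ fun i _ => hWi i]
  have e : ∀ c : ℝ, (N : ℝ) * c = ∑ _i : Fin N, c := fun c => by simp
  rw [e, e, ← Finset.sum_sub_distrib]
  exact (Finset.abs_sum_le_sum_abs _ _).trans (Finset.sum_le_sum fun i _ => hone i)

theorem base_cube : BaseStmt rad psiCube := by
  intro r hr ε hε
  have hs : 0 ≤ Real.sqrt r := Real.sqrt_nonneg r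
  refine ⟨min 1 (Real.sqrt (ε / (4 * (r + 1)))), lt_min one_pos (Real.sqrt_pos.2 (by positivity)),
    fun a ha => ?_⟩
  have ha0 : 0 < a := ha.1
  have ha2 : r * a ^ 2 ≤ ε / 4 := by
    have h := pow_le_pow_left₀ ha0.le (ha.2.trans (min_le_right _ _)) 2
    rw [Real.sq_sqrt (by positivity), le_div_iff₀ (by positivity)] at h
    nlinarith [sq_nonneg a]
  refine ⟨min (a / 2) (ε * a ^ 3 / (16 * (r + 1))), ⟨lt_min (by linarith) (by positivity),
    min_le_left _ _⟩, fun t ht => ?_⟩
  have ht0 : 0 < t := ht.1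
  have hta : t ≤ a / 2 := ht.2.trans (min_le_left _ _)
  have ht4 : r * (4 * t / a ^ 3) ≤ ε / 4 := by
    have h := ht.2.trans (min_le_right _ _)
    rw [le_div_iff₀ (by positivity)] at h
    rw [mul_div_assoc', div_le_iff₀ (by positivity)]
    nlinarith
  rcases hr.eq_or_lt with rfl | hr0
  · filter_upwards [eventually_gt_atTop 0] with N hN
    rw [ent_no_slots (by simp)]
    simp [psiCube, hε.le]
  have E1 : ∀ᶠ N : ℕ in atTop, (Real.sqrt r * (2 + t) + t ^ 2) / Real.sqrt N ≤ ε / 4 :=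
    (tendsto_const_div_sqrt _).eventually_le_const (by linarith)
  have E2 : ∀ᶠ N : ℕ in atTop, 0 < ⌊r * (N : ℝ) / t ^ 2⌋₊ := by
    filter_upwards [eventually_floor_pos (α := r / t ^ 2) (by positivity)] with N hN
    rwa [show r * (N : ℝ) / t ^ 2 = r / t ^ 2 * N by ring]
  filter_upwards [eventually_gt_atTop 0, E1, E2] with N hN hN1 hM
  have hN' : (0 : ℝ) < N := Nat.cast_pos.2 hN
  have hn : 0 < Real.sqrt (N : ℝ) := Real.sqrt_pos.2 hN'
  have hn1 : 1 ≤ Real.sqrt (N : ℝ) := by
    rw [Real.one_le_sqrt]; exact_mod_cast hN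
  obtain ⟨hMu, hMl⟩ := floor_facts hr ht0 N
  set M := ⌊r * (N : ℝ) / t ^ 2⌋₊
  have hne : ∀ᵐ w ∂(Measure.pi fun _ : Fin N => rad), ∀ i, w i ≠ 0 :=
    ae_rad_sq.mono fun w hw i h => by simpa [h] using hw i
  set θ := Real.sqrt (r * N)
  set I := ∫ z, Real.log (Real.cosh (Real.sqrt r * z + r)) ∂gam1 with hI
  set d := (N : ℝ) * (Real.sqrt r * ((2 + θ * (a ^ 2 / 2) + t) / Real.sqrt N)) with hd
  set π := Measure.pi fun _ : Fin N => rad
  have hB : ∀ᵐ w ∂π, |∫ g, plW t a w g * chanF π θ (colMap g) ∂slotP N M -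
      N * psiCube r| ≤ d := by
    filter_upwards [ae_rad_sq (ι := Fin N)] with w hw
    have hw0 : ∀ i, w i ≠ 0 := fun i h => by simpa [h] using hw i
    obtain ⟨⟨w0, v0⟩, -⟩ := plW_moments (M := M) ha0 ht0.le hta hM hN hw0
    have hi : Integrable (fun g : Fin M → Fin N → ℝ => plW t a w g *
        ∑ i, Real.log (Real.cosh (Real.sqrt r * colMap g i))) (slotP N M) :=
      ((measurePreserving_colMap hM).integrable_comp_of_integrable
        (integrable_finsetSum _ fun i _ => integrable_comp_eval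
          (μ := fun _ : Fin N => gaussianReal 0 1) (i := i)
          (integrable_log_cosh (Real.sqrt r)))).bdd_mul (plW_bound ha0 ht0.le hta w).1.aestronglyMeasurable
        (Eventually.of_forall (plW_bound ha0 ht0.le hta w).2)
    simp only [π, θ, chanF_rad hN hr, mul_sub]
    rw [integral_sub hi (w0.mul_const _), integral_mul_const, v0, psiCube, ← hI]
    refine le_trans (le_of_eq ?_) (planted_logcosh ha0 ht0 hta hM hN hw hr hMu hMl)
    rw [← hI]
    congr 1
    ring
  have hlo := le_ent_col (π := π) ha0 ht0.le hta hM hN hne measurable_chanF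
    integrable_chanF (chanF_mass (θ := θ) hN hne).1 (chanF_mass (θ := θ) hN hne).2.le
    (B := N * psiCube r - d) (hB.mono fun w h => by linarith [(abs_le.1 h).1])
  have hup := ent_le_col (π := π) (θ := θ) ha0 ht0.le hta hM hN hne
    (B := N * psiCube r + d) (hB.mono fun w h => by linarith [(abs_le.1 h).2])
  have herr := slot_error_le (a := a) hr ha0 ht0 hMu hMl
  have hdN : d ≤ N * ((Real.sqrt r * (2 + t)) / Real.sqrt N + r * a ^ 2 / 2) := by
    rw [hd]
    refine mul_le_mul_of_nonneg_left (le_of_eq ?_) hN'.le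
    simp only [θ, Real.sqrt_mul hr]
    field_simp
    linear_combination (a ^ 2 * Real.sqrt N) * Real.mul_self_sqrt hr
  have ht2 : t ^ 2 ≤ N * (t ^ 2 / Real.sqrt N) := by
    rw [mul_div_assoc', le_div_iff₀ hn]
    rw [mul_comm (N : ℝ)]
    refine mul_le_mul_of_nonneg_left ?_ (sq_nonneg t)
    exact (le_mul_of_one_le_right hn.le hn1).trans_eq (Real.mul_self_sqrt hN'.le)
  rw [add_div] at hN1
  have hbd : d + (r * N * (4 * t / a ^ 3 + a ^ 2 / 2) + t ^ 2) ≤ ε * N := by
    have := mul_le_mul_of_nonneg_left (show Real.sqrt r * (2 + t) / Real.sqrt N +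
      t ^ 2 / Real.sqrt N + (r * a ^ 2 + r * (4 * t / a ^ 3)) ≤ ε by linarith) hN'.le
    linarith
  have hd0 : 0 ≤ d := by positivity
  rw [abs_le, le_sub_iff_add_le, sub_le_iff_le_add, le_div_iff₀ hN', div_le_iff₀ hN']
  have : 0 ≤ r * N * (4 * t / a ^ 3 + a ^ 2 / 2) + t ^ 2 := by positivity
  constructor <;> linarith

/-! ### The sphere -/

lemma ae_gam_ne : ∀ᵐ w ∂gam (Fin N), ∀ i, w i ≠ 0 := by
  rw [ae_all_iff]
  intro i
  have h0 : ∀ᵐ x ∂gam1, x ≠ 0 := by rw [ae_iff]; simpa using admissible_gaussian.zero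
  exact (measurePreserving_eval (fun _ : Fin N => gam1) i).quasiMeasurePreserving.ae h0

lemma integrable_sum_sq_gam : Integrable (fun z : Fin N → ℝ => ∑ i, z i ^ 2) (gam (Fin N)) :=
  integrable_finsetSum _ fun i _ =>
    integrable_comp_eval (μ := fun _ : Fin N => gaussianReal 0 1) (i := i)
      (f := fun x : ℝ => x ^ 2) IsGaussian.memLp_two_id.integrable_sq

lemma sphere_lower {r : ℝ} (hr : 0 ≤ r) (ha : 0 < a) (ht : 0 < t) (hta : t ≤ a / 2) (hM : 0 < M)
    (hN : 0 < N) (hMu : (M : ℝ) * t ^ 2 ≤ r * N) (hMl : r * N - t ^ 2 ≤ M * t ^ 2) :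
    (N : ℝ) * psiSphere r - (r * N * a ^ 2 + 2 * t ^ 2) / 2 ≤
      ent (slotP N M) (slots fun _ => sineF t a) (gam (Fin N)) := by
  obtain ⟨hc0, hc1, hc2⟩ := slotMean_facts (a := a) ht.le
  set c := slotMean t a
  set V := (N : ℝ) + ((M : ℝ) - 1) * c ^ 2 with hV
  have hVl : (N : ℝ) * (1 + r) - r * N * a ^ 2 - 2 * t ^ 2 ≤ V := by
    have h1 : t ^ 2 * (1 - a ^ 2) ≤ c ^ 2 := by
      rcases le_total (1 - a ^ 2 / 2) 0 with h | h
      · nlinarith [sq_nonneg c, sq_nonneg t]
      · have := pow_le_pow_left₀ (mul_nonneg ht.le h) hc2 2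
        nlinarith [sq_nonneg t, sq_nonneg (a ^ 2)]
    have h2 := mul_le_mul_of_nonneg_left h1 (Nat.cast_nonneg (α := ℝ) M)
    have h3 : (M : ℝ) * t ^ 2 * a ^ 2 ≤ r * N * a ^ 2 :=
      mul_le_mul_of_nonneg_right hMu (sq_nonneg a)
    have h4 := pow_le_pow_left₀ hc0 hc1 2
    linarith
  set lam := 1 + r with hlam
  have hl : 0 < lam := by linarith
  set φ : (Fin N → ℝ) → ℝ := fun z => r / (2 * lam) * ∑ i, z i ^ 2 + (-(N * Real.log lam / 2))
    with hφ
  have hφm : Measurable φ := by fun_prop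
  have heφ : (fun z => Real.exp (φ z)) = fun z : Fin N → ℝ =>
      (∏ i, Real.exp (0 * z i + (1 - 1 / lam) * z i ^ 2 / 2)) *
        Real.exp (-(N * Real.log lam / 2)) := funext fun z => by
    rw [← Real.exp_sum, ← Real.exp_add]
    congr 1
    simp only [φ, Finset.mul_sum]
    congr 1
    refine Finset.sum_congr rfl fun i _ => ?_
    simp only [lam]
    field_simp
    ring
  have hlam' : 0 < 1 / lam := by positivity
  have hei : Integrable (fun z => Real.exp (φ z)) (gam (Fin N)) := by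
    rw [heφ]
    exact (Integrable.fintype_prod fun _ => (integral_exp_linear_quadratic hlam' 0).2).mul_const _
  have he1 : ∫ z, Real.exp (φ z) ∂gam (Fin N) ≤ 1 := by
    rw [heφ, integral_mul_const, integral_fintype_prod_eq_prod
      (fun (_ : Fin N) x => Real.exp (0 * x + (1 - 1 / lam) * x ^ 2 / 2))]
    simp only [(integral_exp_linear_quadratic hlam' 0).1, Finset.prod_const, Finset.card_univ,
      Fintype.card_fin, ← Real.exp_nat_mul, ← Real.exp_add]
    refine Real.exp_le_one_iff.2 (le_of_eq ?_)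
    rw [one_div, Real.log_inv]
    ring
  have hlo := le_ent_col (π := gam (Fin N)) ha ht.le hta hM hN ae_gam_ne hφm
    ((integrable_sum_sq_gam.const_mul _).fun_add (integrable_const _)) hei he1
    (B := r / (2 * lam) * V + (-(N * Real.log lam / 2))) (by
      filter_upwards [ae_gam_ne (N := N)] with w hw
      obtain ⟨⟨w0, v0⟩, -⟩ := plW_moments (M := M) (t := t) (a := a) ha ht.le hta hM hN hw
      obtain ⟨q0, hq⟩ := planted_col_sq (M := M) (t := t) (a := a) ha ht.le hta hM hN hw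
      have e : ∀ g : Fin M → Fin N → ℝ, plW t a w g * φ (colMap g) =
          r / (2 * lam) * (plW t a w g * ∑ i, colMap g i ^ 2) +
            plW t a w g * (-(N * Real.log lam / 2)) := fun g => by simp only [φ]; ring
      simp only [e]
      rw [integral_add (q0.const_mul _) (w0.mul_const _), integral_const_mul, integral_mul_const,
        hq, v0, one_mul])
  refine le_trans ?_ hlo
  have hlV : N * (r / 2) - (r * N * a ^ 2 + 2 * t ^ 2) / 2 ≤ r / (2 * lam) * V := by
    refine le_trans ?_ (mul_le_mul_of_nonneg_left hVl (by positivity))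
    rw [div_mul_eq_mul_div, le_div_iff₀ (by positivity)]
    have : 0 ≤ r * N * a ^ 2 + 2 * t ^ 2 := by positivity
    linear_combination this
  simp only [psiSphere, ← hlam]
  linarith

lemma sphere_upper {r e : ℝ} (hr : 0 < r) (ha : 0 < a) (ht : 0 < t) (hta : t ≤ a / 2) (hM : 0 < M)
    (hN : 0 < N) (he : 0 < e) (he2 : e ≤ 1 / 2) (hbig : 2 * gaussC * Real.sqrt N ≤ e * N)
    (hMu : (M : ℝ) * t ^ 2 ≤ r * N) (hMl : r * N - t ^ 2 ≤ M * t ^ 2) :
    ent (slotP N M) (slots fun _ => sineF t a) (gam (Fin N)) ≤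
      N * psiSphere r + (2 * e * r * N + Real.log 2) +
        (r * N * (4 * t / a ^ 3 + a ^ 2 / 2) + t ^ 2) := by
  obtain ⟨hc0, hc1, -⟩ := slotMean_facts (a := a) ht.le
  set V := (N : ℝ) + ((M : ℝ) - 1) * slotMean t a ^ 2
  have hVu : V ≤ N * (1 + r) := by
    have := mul_le_mul_of_nonneg_left (pow_le_pow_left₀ hc0 hc1 2) (Nat.cast_nonneg (α := ℝ) M)
    simp only [V]
    linarith [sq_nonneg (slotMean t a)]
  set lam := 1 + r with hlam
  have hl : 0 < lam := by linarith
  set θ := Real.sqrt (r * N)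
  have hθ : θ ^ 2 = r * N := Real.sq_sqrt (by positivity)
  set C1 := (N : ℝ) * (e * r - Real.log lam + r) / 2 + Real.log 2 - θ ^ 2 / 2 with hC1
  set k := r / (2 * lam * (1 - e)) with hkdef
  have hk : ∀ z : Fin N → ℝ, chanF (gam (Fin N)) θ z ≤ k * ∑ i, z i ^ 2 + C1 := fun z => by
    have h := lint_field_gauss_le hN he (lt_of_le_of_lt he2 (by norm_num)) hl hbig
      (fun i => θ * z i)
    rw [show |1 - lam| = r by rw [hlam, sub_add_cancel_left, abs_neg, abs_of_pos hr],
      show 1 - lam = -r by rw [hlam]; ring] at h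
    simp only [mul_pow, ← Finset.mul_sum, hθ] at h
    have e1 : r * N * (∑ i, z i ^ 2) / (2 * lam * (N * (1 - e))) = k * ∑ i, z i ^ 2 := by
      have : (1 - e) ≠ 0 := by linarith
      simp only [k]
      field_simp
    rw [e1] at h
    simp only [chanF, C1, hθ]
    linarith
  have hk0 : 0 ≤ k := by
    have : 0 < 1 - e := by linarith
    positivity
  have hup := ent_le_col (π := gam (Fin N)) (θ := θ) ha ht.le hta hM hN ae_gam_ne
    (B := k * V + C1) (by
    filter_upwards [ae_gam_ne (N := N)] with w hw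
    obtain ⟨⟨w0, v0⟩, -⟩ := plW_moments (M := M) (t := t) (a := a) ha ht.le hta hM hN hw
    obtain ⟨q0, hq⟩ := planted_col_sq (M := M) (t := t) (a := a) ha ht.le hta hM hN hw
    refine (integral_mono (((measurePreserving_colMap hM).integrable_comp_of_integrable
      (integrable_chanF (π := gam (Fin N)) (θ := θ))).bdd_mul
      (plW_bound ha ht.le hta w).1.aestronglyMeasurable
      (Eventually.of_forall (plW_bound ha ht.le hta w).2))
      ((q0.const_mul k).fun_add (w0.mul_const C1)) fun g => ?_).trans (le_of_eq ?_)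
    · change plW t a w g * chanF (gam (Fin N)) θ (colMap g) ≤ _
      refine (mul_le_mul_of_nonneg_left (hk _) (Real.exp_pos _).le).trans (le_of_eq ?_)
      simp only [plW]
      ring
    · rw [integral_add (q0.const_mul _) (w0.mul_const _), integral_const_mul,
        integral_mul_const, hq, v0, one_mul])
  have herr := slot_error_le (a := a) hr.le ha ht hMu hMl
  have hkV : k * V ≤ N * (r / 2 + e * r) := by
    refine (mul_le_mul_of_nonneg_left hVu hk0).trans ?_
    have hp : 0 < 2 * lam * (1 - e) := mul_pos (by linarith) (by linarith)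
    rw [show k * (N * lam) = r * (N * lam) / (2 * lam * (1 - e)) by rw [hkdef]; ring,
      div_le_iff₀ hp]
    have : 0 ≤ (N : ℝ) * lam * (e * r * (1 - 2 * e)) :=
      mul_nonneg (by positivity) (mul_nonneg (by positivity) (by linarith))
    linear_combination this
  have h5 : 0 ≤ e * r * N := by positivity
  rw [hC1, hθ] at hup
  simp only [psiSphere, ← hlam]
  linarith

theorem base_sphere : BaseStmt gam1 psiSphere := by
  intro r hr ε hε
  refine ⟨min 1 (Real.sqrt (ε / (4 * (r + 1)))), lt_min one_pos (Real.sqrt_pos.2 (by positivity)),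
    fun a ha => ?_⟩
  have ha0 : 0 < a := ha.1
  have ha2 : r * a ^ 2 ≤ ε / 4 := by
    have h := pow_le_pow_left₀ ha0.le (ha.2.trans (min_le_right _ _)) 2
    rw [Real.sq_sqrt (by positivity), le_div_iff₀ (by positivity)] at h
    nlinarith [sq_nonneg a]
  refine ⟨min (a / 2) (ε * a ^ 3 / (16 * (r + 1))), ⟨lt_min (by linarith) (by positivity),
    min_le_left _ _⟩, fun t ht => ?_⟩
  have ht0 : 0 < t := ht.1
  have hta : t ≤ a / 2 := ht.2.trans (min_le_left _ _)
  have ht4 : r * (4 * t / a ^ 3) ≤ ε / 4 := by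
    have h := ht.2.trans (min_le_right _ _)
    rw [le_div_iff₀ (by positivity)] at h
    rw [mul_div_assoc', div_le_iff₀ (by positivity)]
    nlinarith
  rcases hr.eq_or_lt with rfl | hr0
  · filter_upwards [eventually_gt_atTop 0] with N hN
    rw [ent_no_slots (by simp)]
    simp [psiSphere, hε.le]
  set e := min (ε / (8 * (r + 1))) (1 / 2)
  have he : 0 < e := lt_min (by positivity) (by norm_num)
  have her : 2 * e * r ≤ ε / 4 := by
    have := (le_div_iff₀ (by positivity)).1 (min_le_left _ _ : e ≤ ε / (8 * (r + 1)))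
    linarith
  have E1 : ∀ᶠ N : ℕ in atTop, 2 * gaussC / Real.sqrt N ≤ e :=
    (tendsto_const_div_sqrt _).eventually_le_const he
  have E3 : ∀ᶠ N : ℕ in atTop, (Real.log 2 + 2 * t ^ 2) / N ≤ ε / 8 :=
    (tendsto_natCast_atTop_atTop.const_div_atTop (Real.log 2 + 2 * t ^ 2) (𝕜 := ℝ)).eventually_le_const
      (by linarith)
  have E2 : ∀ᶠ N : ℕ in atTop, 0 < ⌊r * (N : ℝ) / t ^ 2⌋₊ := by
    filter_upwards [eventually_floor_pos (α := r / t ^ 2) (by positivity)] with N hN
    rwa [show r * (N : ℝ) / t ^ 2 = r / t ^ 2 * N by ring]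
  filter_upwards [eventually_gt_atTop 0, E1, E2, E3] with N hN hN1 hM hN3
  have hN' : (0 : ℝ) < N := Nat.cast_pos.2 hN
  have hn : 0 < Real.sqrt (N : ℝ) := Real.sqrt_pos.2 hN'
  obtain ⟨hMu, hMl⟩ := floor_facts hr ht0 N
  have hbig : 2 * gaussC * Real.sqrt N ≤ e * N := by
    have h := mul_le_mul_of_nonneg_right ((div_le_iff₀ hn).1 hN1) hn.le
    rwa [mul_assoc e, Real.mul_self_sqrt hN'.le] at h
  have hlo := sphere_lower hr ha0 ht0 hta hM hN hMu hMl
  have hup := sphere_upper hr0 ha0 ht0 hta hM hN he (min_le_right _ _) hbig hMu hMl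
  have hN3' := (div_le_iff₀ hN').1 hN3
  have hlog2 : 0 ≤ Real.log 2 := Real.log_nonneg (by norm_num)
  have b1 := mul_le_mul_of_nonneg_right ha2 hN'.le
  have b2 := mul_le_mul_of_nonneg_right ht4 hN'.le
  have b3 := mul_le_mul_of_nonneg_right her hN'.le
  have b4 : 0 ≤ ε * N := by positivity
  have b5 : 0 ≤ t ^ 2 := sq_nonneg t
  rw [abs_le, le_sub_iff_add_le, sub_le_iff_le_add, le_div_iff₀ hN', div_le_iff₀ hN']
  constructor <;> linarith

end Vale.Agent.P157.Phase
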