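import Mathlib
import Vale.Agent.P157.Phase.Interfaces

/-!
Planted entropy and the quenched pressure.
-/

noncomputable section

open MeasureTheory ProbabilityTheory Filter
open scoped Topology

namespace Vale.Agent.P157.Phase

open Vale.Agent.P157

variable {N : ℕ} {π : Measure (Fin N → ℝ)} [IsProbabilityMeasure π] {f : ℝ → ℝ} {K : ℝ}

/-- A small planted entropy keeps the quenched value near the annealed one. -/
lemma Phi_ge_of_ent (hf : Measurable f) (hb : ∀ z, |f z| ≤ K)
    (h1 : ∫ z, Real.exp (f z) ∂gam1 = 1) (hN : 0 < N) (hne : ∀ᵐ y ∂π, ∀ i, y i ≠ 0)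
    (M : ℕ) (s : ℝ) :
    -((1 - s) * ent (Measure.pi fun _ => gam (Fin N)) (slots fun _ : Fin M => f) π) -
      M * (s ^ 2 * K ^ 2 / 2) ≤ s * Phi (gam (Fin N)) (term f dir) π M := by
  have hn := nice_slots (N := N) (M := M) (F := fun _ => f) (fun _ => hf) fun _ => hb
  set P := Measure.pi fun _ : Fin M => gam (Fin N)
  set L : (Fin M → Fin N → ℝ) → ℝ := fun g => lint π (slots (fun _ : Fin M => f) g) with hL
  have hLm : Measurable L := measurable_lint π hn.meas
  have hLb : ∀ g, |L g| ≤ M * K := fun g => abs_lint_le (hn.meas_left g) (hn.bound g)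
  have hy : ∀ᵐ y ∂π, ∫ g, Real.exp (slots (fun _ : Fin M => f) g y) ∂P = 1 :=
    hne.mono fun y hy => mean_slots_eq_one (fun _ => hf) (fun _ => h1) hN hy
  have hei : Integrable (fun g => Real.exp (s * L g)) P :=
    integrable_exp_of_abs_le (hLm.const_mul s) (K := |s| * (M * K)) fun g => by
      rw [abs_mul]; exact mul_le_mul_of_nonneg_left (hLb g) (abs_nonneg s)
  set I := ∫ g, Real.exp (s * L g) ∂P with hI
  have hI0 : 0 < I := integral_exp_pos hei
  set c := -Real.log I with hc
  have hq : Integrable (fun g => Real.exp (s * L g + c)) P :=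
    (hei.mul_const (Real.exp c)).congr (Eventually.of_forall fun g => (Real.exp_add _ _).symm)
  have hZ := integrable_exp_lint (P := P) (π := π) hn
  have hZL := integrable_ent (P := P) (π := π) hn
  have hWq : Integrable (fun g => Real.exp (L g) * (s * L g + c)) P :=
    ((hZL.const_mul s).fun_add (hZ.mul_const c)).congr (Eventually.of_forall fun g => by
      simp only [hL]; ring)
  have h := le_ent (q := fun g => s * L g + c) hn hy hq hWq
  have e1 : ∫ g, Real.exp (s * L g + c) ∂P = 1 := by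
    simp only [Real.exp_add, integral_mul_const, hc, ← hI, Real.exp_neg, Real.exp_log hI0,
      mul_inv_cancel₀ hI0.ne']
  have e2 : ∫ g, Real.exp (L g) * (s * L g + c) ∂P = s * ent P (slots fun _ : Fin M => f) π + c := by
    rw [show (fun g => Real.exp (L g) * (s * L g + c)) =
        fun g => s * (Real.exp (L g) * L g) + Real.exp (L g) * c from funext fun g => by ring,
      integral_add (hZL.const_mul s) (hZ.mul_const c), integral_const_mul, integral_mul_const,
      mass_one hn hy, one_mul]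
    rfl
  have hm := mgf_lint_le (P := gam (Fin N)) (nice_term hf hb measurable_dir) s M π inferInstance
  have h2 : Real.log I ≤ s * Phi (gam (Fin N)) (term f dir) π M + M * (s ^ 2 * K ^ 2 / 2) :=
    (Real.log_le_iff_le_exp hI0).2 hm
  rw [e1, e2] at h
  linarith

/-- Module D1. -/
theorem equiv_stmt : EquivStmt := by
  intro ρ hρ hρ0 hsym f K hf hb h1 α hα
  have hne : ∀ N : ℕ, ∀ᵐ y ∂(Measure.pi fun _ : Fin N => ρ), ∀ i, y i ≠ 0 := fun N => by
    rw [ae_all_iff]
    intro i
    have hz : ∀ᵐ x ∂ρ, x ≠ 0 := by rw [ae_iff]; simpa using hρ0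
    exact (measurePreserving_eval (fun _ : Fin N => ρ) i).quasiMeasurePreserving.ae hz
  refine ⟨fun h => ?_, fun δ hδ h => ?_⟩
  · rw [Metric.tendsto_atTop]
    intro ε hε
    obtain ⟨s, hs0, hs1, hs⟩ : ∃ s : ℝ, 0 < s ∧ s ≤ 1 ∧ α * K ^ 2 * s ≤ ε := by
      have hd : (0 : ℝ) < α * K ^ 2 + 1 := by positivity
      refine ⟨min 1 (ε / (α * K ^ 2 + 1)), lt_min one_pos (by positivity), min_le_left _ _, ?_⟩
      exact (mul_le_mul_of_nonneg_left (min_le_right _ _) (by positivity)).trans
        (by rw [mul_div_assoc', div_le_iff₀ hd]; nlinarith)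
    obtain ⟨N₀, hN₀⟩ :=
      eventually_atTop.1 ((h (ε * s / 4) (by positivity)).and (eventually_gt_atTop 0))
    refine ⟨N₀, fun N hN => ?_⟩
    obtain ⟨hJ, hN'⟩ := hN₀ N hN
    have hNr : (0 : ℝ) < N := Nat.cast_pos.2 hN'
    have hM := Nat.floor_le (show 0 ≤ α * (N : ℝ) by positivity)
    have hup : logPart ρ f (Fin N) ⌊α * N⌋₊ ≤ 0 := by
      have := (Phi_term_le_annealed hf hb hN' (hne N) ⌊α * (N : ℝ)⌋₊).2
      rw [h1, Real.log_one, mul_zero] at this
      exact this
    have hlow := Phi_ge_of_ent hf hb h1 hN' (hne N) ⌊α * (N : ℝ)⌋₊ s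
    rw [Real.dist_eq, sub_zero, abs_of_nonpos (div_nonpos_of_nonpos_of_nonneg hup hNr.le),
      ← neg_div, div_lt_iff₀ hNr]
    simp only [planted] at hJ
    simp only [logPart] at *
    have g1 : (⌊α * (N : ℝ)⌋₊ : ℝ) * (s ^ 2 * K ^ 2 / 2) ≤ s * (ε / 2 * N) := by
      refine (mul_le_mul_of_nonneg_right hM (by positivity)).trans ?_
      have := mul_le_mul_of_nonneg_left hs (show 0 ≤ s * (N : ℝ) / 2 by positivity)
      linarith
    have g2 : (1 - s) * ent (Measure.pi fun _ => gam (Fin N))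
        (slots fun _ : Fin ⌊α * (N : ℝ)⌋₊ => f) (Measure.pi fun _ : Fin N => ρ) ≤
        s * (ε / 4 * N) :=
      (mul_le_mul_of_nonneg_left hJ (by linarith)).trans
        ((mul_le_of_le_one_left (by positivity) (by linarith)).trans_eq (by ring))
    by_contra hcon
    have g3 := mul_le_mul_of_nonneg_left (not_lt.1 hcon) hs0.le
    nlinarith [mul_pos hs0 (mul_pos hε hNr)]
  · obtain ⟨l, hl0, hl1, hl⟩ : ∃ l : ℝ, 0 < l ∧ l < 1 ∧ α * K ^ 2 * l ≤ δ := by
      have hd : (0 : ℝ) < α * K ^ 2 + 1 := by positivity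
      refine ⟨min (1 / 2) (δ / (α * K ^ 2 + 1)), lt_min (by norm_num) (by positivity),
        (min_le_left _ _).trans_lt (by norm_num), ?_⟩
      exact (mul_le_mul_of_nonneg_left (min_le_right _ _) (by positivity)).trans
        (by rw [mul_div_assoc', div_le_iff₀ hd]; nlinarith)
    refine ⟨l * δ / 2, by positivity, ?_⟩
    filter_upwards [h, eventually_gt_atTop 0] with N hJ hN
    have hNr : (0 : ℝ) < N := Nat.cast_pos.2 hN
    have hM := Nat.floor_le (show 0 ≤ α * (N : ℝ) by positivity)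
    have hE : -(l * (δ * N)) + (⌊α * (N : ℝ)⌋₊ : ℝ) * (l ^ 2 * K ^ 2 / 2) ≤
        -(l * δ / 2) * N := by
      have g1 := mul_le_mul_of_nonneg_right hM (show 0 ≤ l ^ 2 * K ^ 2 / 2 by positivity)
      have g2 := mul_le_mul_of_nonneg_left hl (show 0 ≤ l * (N : ℝ) / 2 by positivity)
      linarith
    have h' := Phi_le_of_planted hf hb h1 hN (hne N) (hsym N) hl0.le hl1 hJ
      (hE.trans (by nlinarith [show 0 ≤ l * δ / 2 * N by positivity]))
    rw [div_le_iff₀ hNr]
    exact h'.trans hE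

end Vale.Agent.P157.Phase
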