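import Mathlib
import Vale.Agent.P157.Phase.Goal
import Vale.Agent.P157.Phase.Equiv

/-!
The exact annealed phase on the cube and on the sphere.
-/

noncomputable section

open MeasureTheory ProbabilityTheory Filter
open scoped Topology

namespace Vale.Agent.P157.Phase

open Vale.Agent.P157

variable {f : ℝ → ℝ} {K α : ℝ}

/-- The scalar condition of the annealed phase. -/
def PhaseCond (ψ : ℝ → ℝ) (α : ℝ) (Ψ : ℝ → ℝ) : Prop :=
  ∀ q ∈ Set.Ico (0 : ℝ) 1, ∀ ε > 0, ∃ r ≥ (0 : ℝ), α * Ψ q ≤ r * q / 2 - ψ r + ε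

/-- Subtracting a constant from the potential. -/
lemma logPart_shift {ρ : Measure ℝ} [IsProbabilityMeasure ρ] (hf : Measurable f)
    (hb : ∀ z, |f z| ≤ K) (a : ℝ) (N M : ℕ) :
    logPart ρ (fun z => f z - a) (Fin N) M = logPart ρ f (Fin N) M - M * a := by
  have hn := (nice_term hf hb (measurable_dir (ι := Fin N))).sum M
  have e : ∀ g : Fin M → Fin N → ℝ,
      lint (Measure.pi fun _ : Fin N => ρ) (fun y => ∑ b, term (fun z => f z - a) dir (g b) y) =
        lint (Measure.pi fun _ : Fin N => ρ) (fun y => ∑ b, term f dir (g b) y) - M * a := fun g => by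
    have hp := (Real.exp_pos _).trans_le
      (integral_exp_mem (π := Measure.pi fun _ : Fin N => ρ) (hn.meas_left g) (hn.bound g)).1
    simp only [lint, term, Finset.sum_sub_distrib, Finset.sum_const, Finset.card_univ,
      Fintype.card_fin, nsmul_eq_mul, Real.exp_sub, integral_div]
    rw [Real.log_div (by simpa [term] using hp.ne') (Real.exp_pos _).ne', Real.log_exp]
  simp only [logPart, Phi, e]
  rw [integral_sub (hn.integrable_lint _ _) (integrable_const _)]
  simp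

/-- Either the annealed value is the limit or the pressure stays below it. -/
theorem phase_dicho (hA : AdaptStmt) {ρ : Measure ℝ} [IsProbabilityMeasure ρ] (hρ0 : ρ {0} = 0)
    (hsym : ∀ N : ℕ, PairSym (Measure.pi fun _ : Fin N => ρ)) {ψ : ℝ → ℝ} (hψ : BaseStmt ρ ψ)
    {law : (N : ℕ) → Measure (Fin N → ℝ)}
    (hlaw : ∀ N, 0 < N →
      law N = (Measure.pi fun _ : Fin N => ρ).map fun y i => Real.sqrt N * dir y i)
    (hf : Measurable f) (hb : ∀ z, |f z| ≤ K) (hα : 0 < α) {Ψ : ℝ → ℝ}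
    (hΨ : ∀ q, psiP (fun z => f z - Real.log (∫ y, Real.exp (f y) ∂gam1)) q = Ψ q) :
    (Tendsto (meanPressure law α f) atTop (𝓝 (α * Real.log (∫ z, Real.exp (f z) ∂gam1))) ↔
        PhaseCond ψ α Ψ) ∧
      (¬ PhaseCond ψ α Ψ → ∃ δ > 0, ∀ᶠ N : ℕ in atTop,
        meanPressure law α f N ≤ α * Real.log (∫ z, Real.exp (f z) ∂gam1) - δ) := by
  set a := Real.log (∫ z, Real.exp (f z) ∂gam1) with ha
  have hpos := (Real.exp_pos _).trans_le (integral_exp_mem (π := gam1) hf hb).1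
  have hab : |a| ≤ K := abs_lint_le (π := gam1) hf hb
  have hg : Measurable fun z => f z - a := hf.sub_const a
  have hgb : ∀ z, |(fun z => f z - a) z| ≤ K + K := fun z =>
    (abs_sub _ _).trans (add_le_add (hb z) hab)
  have hg1 : ∫ z, Real.exp (f z - a) ∂gam1 = 1 := by
    simp only [Real.exp_sub, integral_div, ha, Real.exp_log hpos, div_self hpos.ne']
  obtain ⟨hA1, hA2⟩ := hA ρ inferInstance hρ0 hsym ψ hψ _ _ hg hgb hg1 α hα
  obtain ⟨hE1, hE2⟩ := equiv_stmt ρ inferInstance hρ0 hsym _ _ hg hgb hg1 α hα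
  simp only [hΨ] at hA1 hA2
  have hfl := (tendsto_floor_div α hα.le).mul_const a
  have hyes : PhaseCond ψ α Ψ → Tendsto (meanPressure law α f) atTop (𝓝 (α * a)) := by
    intro h
    have ht := (hE1 (hA1 h)).add hfl
    rw [zero_add] at ht
    refine ht.congr' ((eventually_gt_atTop 0).mono fun N hN => ?_)
    rw [meanPressure_eq hf hN α (hlaw N hN), logPart_shift hf hb]
    ring
  have hno : ¬ PhaseCond ψ α Ψ → ∃ δ > 0, ∀ᶠ N : ℕ in atTop,
      meanPressure law α f N ≤ α * a - δ := by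
    intro h
    simp only [PhaseCond, not_forall, not_exists, not_and, not_le] at h
    obtain ⟨q, hq, ε, hε, hr⟩ := h
    obtain ⟨δ, hδ, hev⟩ := hA2 ⟨q, hq, ε, hε, hr⟩
    obtain ⟨δ', hδ', hev'⟩ := hE2 δ hδ hev
    refine ⟨δ' / 2, half_pos hδ', ?_⟩
    filter_upwards [hev', eventually_gt_atTop 0,
      hfl.eventually (gt_mem_nhds (show α * a < α * a + δ' / 2 by linarith))] with N h1 hN h2
    rw [meanPressure_eq hf hN α (hlaw N hN)]
    rw [logPart_shift hf hb, sub_div, mul_div_right_comm] at h1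
    linarith
  refine ⟨⟨fun ht => ?_, hyes⟩, hno⟩
  by_contra h
  obtain ⟨δ, hδ, hev⟩ := hno h
  linarith [le_of_tendsto ht hev]

/-- The condition on the sphere in closed form. -/
lemma phaseCond_sphere (Ψ : ℝ → ℝ) :
    PhaseCond psiSphere α Ψ ↔
      ∀ q ∈ Set.Ico (0 : ℝ) 1, α * Ψ q ≤ -(q + Real.log (1 - q)) / 2 := by
  constructor
  · intro h q hq
    refine le_of_forall_pos_le_add fun ε hε => ?_
    obtain ⟨r, hr, hle⟩ := h q hq ε hε
    refine hle.trans ?_
    have h1 : 0 < 1 - q := by linarith [hq.2]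
    have h2 : 0 < 1 + r := by linarith
    have := Real.log_le_sub_one_of_pos (mul_pos h2 h1)
    rw [Real.log_mul h2.ne' h1.ne'] at this
    simp only [psiSphere]
    linarith
  · intro h q hq ε hε
    have h1 : 0 < 1 - q := by linarith [hq.2]
    refine ⟨q / (1 - q), div_nonneg hq.1 h1.le, (h q hq).trans ?_⟩
    have e : 1 + q / (1 - q) = (1 - q)⁻¹ := by field_simp; ring
    rw [psiSphere, e, Real.log_inv]
    have e2 : q / (1 - q) * q / 2 - (q / (1 - q) - -Real.log (1 - q)) / 2 =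
        -(q + Real.log (1 - q)) / 2 := by
      field_simp; ring
    linarith

/-- The exact annealed phase: iff, and a linear gap outside. -/
theorem phase_iff (hA : AdaptStmt) (hc : BaseStmt rad psiCube) (hs : BaseStmt gam1 psiSphere)
    (hf : Measurable f) (hb : ∀ z, |f z| ≤ K) (hα : 0 < α) :
    ((Tendsto (meanPressure isingLaw α f) atTop
          (𝓝 (α * Real.log (∫ x, Real.exp (f x) ∂gaussianReal 0 1))) ↔
        ∀ q ∈ Set.Ico (0 : ℝ) 1, ∀ ε > 0, ∃ r ≥ (0 : ℝ),
          α * (∫ z, (∫ ξ, Real.exp (f (Real.sqrt q * z + Real.sqrt (1 - q) * ξ)) ∂gaussianReal 0 1) /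
              (∫ x, Real.exp (f x) ∂gaussianReal 0 1) *
            Real.log ((∫ ξ, Real.exp (f (Real.sqrt q * z + Real.sqrt (1 - q) * ξ)) ∂gaussianReal 0 1) /
              ∫ x, Real.exp (f x) ∂gaussianReal 0 1) ∂gaussianReal 0 1) ≤
          r * (1 + q) / 2 -
            (∫ z, Real.log (Real.cosh (Real.sqrt r * z + r)) ∂gaussianReal 0 1) + ε) ∧
      (¬ Tendsto (meanPressure isingLaw α f) atTop
          (𝓝 (α * Real.log (∫ x, Real.exp (f x) ∂gaussianReal 0 1))) →
        ∃ δ > 0, ∀ᶠ N : ℕ in atTop, meanPressure isingLaw α f N ≤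
          α * Real.log (∫ x, Real.exp (f x) ∂gaussianReal 0 1) - δ)) ∧
    ((Tendsto (meanPressure sphereLaw α f) atTop
          (𝓝 (α * Real.log (∫ x, Real.exp (f x) ∂gaussianReal 0 1))) ↔
        ∀ q ∈ Set.Ico (0 : ℝ) 1,
          α * (∫ z, (∫ ξ, Real.exp (f (Real.sqrt q * z + Real.sqrt (1 - q) * ξ)) ∂gaussianReal 0 1) /
              (∫ x, Real.exp (f x) ∂gaussianReal 0 1) *
            Real.log ((∫ ξ, Real.exp (f (Real.sqrt q * z + Real.sqrt (1 - q) * ξ)) ∂gaussianReal 0 1) /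
              ∫ x, Real.exp (f x) ∂gaussianReal 0 1) ∂gaussianReal 0 1) ≤
          -(q + Real.log (1 - q)) / 2) ∧
      (¬ Tendsto (meanPressure sphereLaw α f) atTop
          (𝓝 (α * Real.log (∫ x, Real.exp (f x) ∂gaussianReal 0 1))) →
        ∃ δ > 0, ∀ᶠ N : ℕ in atTop, meanPressure sphereLaw α f N ≤
          α * Real.log (∫ x, Real.exp (f x) ∂gaussianReal 0 1) - δ)) := by
  have hpos := (Real.exp_pos _).trans_le (integral_exp_mem (π := gam1) hf hb).1
  have hΨ : ∀ q, psiP (fun z => f z - Real.log (∫ y, Real.exp (f y) ∂gam1)) q =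
      ∫ z, (∫ ξ, Real.exp (f (Real.sqrt q * z + Real.sqrt (1 - q) * ξ)) ∂gaussianReal 0 1) /
          (∫ x, Real.exp (f x) ∂gaussianReal 0 1) *
        Real.log ((∫ ξ, Real.exp (f (Real.sqrt q * z + Real.sqrt (1 - q) * ξ)) ∂gaussianReal 0 1) /
          ∫ x, Real.exp (f x) ∂gaussianReal 0 1) ∂gaussianReal 0 1 := fun q => by
    simp only [psiP, gsm, sm0, Real.exp_sub, Real.exp_log hpos, integral_div]
  obtain ⟨c1, c2⟩ := phase_dicho (law := isingLaw) hA (ρ := rad) admissible_rad.zero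
    (fun _ => pairSym_rad) hc (fun N hN => isingLaw_eq hN) hf hb hα hΨ
  obtain ⟨s1, s2⟩ := phase_dicho (law := sphereLaw) hA (ρ := gam1) admissible_gaussian.zero
    (fun _ => pairSym_gauss) hs (fun N hN => sphereLaw_eq hN) hf hb hα hΨ
  refine ⟨⟨c1.trans ?_, fun h => c2 fun hp => h (c1.2 hp)⟩,
    ⟨s1.trans (phaseCond_sphere _), fun h => s2 fun hp => h (s1.2 hp)⟩⟩
  refine forall₂_congr fun q _ => forall₂_congr fun ε _ => exists_congr fun r => and_congr Iff.rfl ?_
  have e : ∀ I : ℝ, r * q / 2 - (I - r / 2) + ε = r * (1 + q) / 2 - I + ε := fun I => by ring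
  rw [psiCube, e]

end Vale.Agent.P157.Phase
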